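import Crest.Agent.X212.Ax1.Lf0
import Crest.Agent.X212.Nt66.Lv
import Crest.Agent.X212.Abx52.Main

/-! # Row 212, NT-LOCF (helper1): variations of the spinor inside a lens wall -/

set_option autoImplicit false
set_option linter.unusedSectionVars false
noncomputable section
open scoped Manifold ContDiff Topology
open Set Function Filter

namespace Crest.Agent.X212.Ax1.Lf
open An M Nd18 Mod61 Nk89 Rf65 Pte3 Nt66 Sob92
open An.Job (isClopen_un)

section res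
variable {Wi : Type} {X : Mf 4} {A κ lam : Type} [Fintype A] [Fintype κ] [Fintype lam]
  [DecidableEq lam] {M : Mark X A κ} {W : World M} {N : ML M lam} {Λ : Lns W N}
  {A' h : Type} [Fintype A'] [DecidableEq A'] [Fintype h] {r n : ℕ}
  {J : Job Wi Λ A' h r n} {c : M.Cl} {σ : Cel A'} {p : Prt A A' h} {U : Type} [Fintype U] {δ : ℝ}
  {b : Bp J c} {E : EC b p U δ} (H : CS σ E) {q : Wi →₀ ℝ} {Ω : Set (W.Z c).M}
include H

theorem nat_tot : NatP E.o E.o (fun _ _ => True) (EC.tot b p U δ q) :=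
  mem_natS.1 (add_mem (Fam.Nat.natP H.F (H.nat_e H.hb) _ _ _) (Submodule.sum_mem _ fun w _ =>
    Submodule.smul_mem _ _ (Fam.Nat.natP H.F (H.nat_τ H.hb w) _ _ _)))

/-- the map of the chart is even off `Ω` -/
theorem map_sn {f : E.C → E.Y} (hf : E.Map q f) (ψ : E.K) {y y' : Pnt E.o r} (ht : y'.t = y.t)
    (hα : y'.α = y.α) (e : y.Eq y' (fun x => sn Ω x • E.o.m.p x) 1) :
    (∀ x ∉ Ω, (b.F p U δ).F0.val _ _ (f (y'.pt 8, ψ)).1.1 x =
      (b.F p U δ).F0.val _ _ (f (y.pt 8, ψ)).1.1 x) ∧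
    (f (y'.pt 8, ψ)).1.2 = (f (y.pt 8, ψ)).1.2 ∧ (f (y'.pt 8, ψ)).2 = (f (y.pt 8, ψ)).2 := by
  have k := rep_sn H.F (nat_tot H) (by norm_num) ht e (hf.e y ψ) (hf.e y' ψ)
  refine ⟨k.1, k.2, Prod.ext (funext fun i => ?_)
    (funext fun i => (hf.nrm y' ψ i).trans (hf.nrm y ψ i).symm)⟩
  obtain ⟨η, hη⟩ := rh_sn (Ω := Ω) E.o.ok (J.cut c i)
  have := H.ok.σc_nat H.mem (H.ovx y) H.cl (Job.unc_of H.pok.pc (H.pok.nb i i.2)) (H.cut_sub i) q
    (H.cr0 ht e) η (ψ i)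
  rw [hf.row, hf.row, EC.row, EC.row, ht, show y'.cfg.W = y.cfg.W by simp only [Pnt.cfg, ht, hα]]
  exact congrArg (_ - ·) ((congrArg _ (hη _).symm).trans (this.trans (hη _)))

variable (x : Pnt E.o r) {P : Set (Reg A)} (h1 : P ⊆ p.P) (h2 : P ⊆ p.P')
include h2

omit H in
theorem maps {V : Type} [NormedAddCommGroup V] [InnerProductSpace ℝ V] (π : (W.Z c).M → CL V V) :
    Maps ((W.un c P).indicator π) ((W.un c p.P').indicator π) fun _ => .id ℝ V := fun z v e => by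
  by_cases hz : z ∈ W.un c P
  · exact (DFunLike.congr_fun (indicator_of_mem (biUnion_subset_biUnion_left h2 hz) π) v).trans
      (ind_fix e)
  · rw [ind_off e hz, map_zero, map_zero]

theorem W_rf {z : (W.Z c).M} (k : z ∈ W.un c P) (i : Option κ) :
    (rx H x h1 h2 ∅).cfg.W i z = x.cfg.W i z := by
  refine (W_apply (o := rf E x.t P P ∅) x.t _ i z).trans
    (Eq.trans ?_ (W_apply (o := E.o) x.t x.α i z).symm)
  rw [Ref.A_eq]
  exact congrArg (fun a : Fm (Option κ) E.o.m.A => (b.F p U δ).W0 E.o.m (E.o.A x.t) x.t i z +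
    ∑ j, (b.F p U δ).S x.t z i j • opL (a j)) (indicator_of_mem k x.α)

variable (F : (b.F (sp p P P ∅) U δ).OK) (z0 : E.o.Φ0 = 0) (hz : ∀ z ∈ W.un c P, x.cfg.Φ z = 0)
  (hq : ∀ y, ∀ z ∈ W.un c P, (J.τ c q (b.θ p U x.t)).D y z = 0)
  {f : E.C → E.Y} (hf : E.Map q f) (ψ : E.K)
  {g : (rf E x.t P P ∅).C r 8 → (rf E x.t P P ∅).Y n (min r 1) 8}
  (hg : RepF ((b.F (sp p P P ∅) U δ).eq0 r n (min r 1)) g)
include F z0 hz hq hf hg

/-- **variations of the spinor over `P`** -/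
theorem par (φ : (b.F p U δ).F0.H 9 (rf E x.t P P ∅).Pp) : fderiv ℝ f (x.pt 8, ψ)
    ((0, (b.F p U δ).F0.mulH 9 _ _ (fun _ => .id ℝ _) φ, 0), 0) =
    (((b.F p U δ).F0.mulH 8 (rf E x.t P P ∅).Pm _ (fun _ => .id ℝ _)
      (fderiv ℝ g ((rx H x h1 h2 ∅).pt 8) (0, φ, 0)).1, 0), 0) := by
  have S := H.F.sup
  have O : IsClopen (W.un c P) := F.Om
  revert φ
  refine funext_iff.1 (Continuous.ext_on (dense_ofV S (k := 9) (by norm_num)) (by fun_prop)
    (by fun_prop) ?_)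
  rintro _ ⟨u, hu, rfl⟩
  have hu' : u ∈ Mod61.Hs _ E.o.Pp := Hs_mul S (Cb_const _) (maps h2 _) hu
  have e : (b.F p U δ).F0.mulH 9 _ _ (fun _ => .id ℝ _) (ofV _ 9 _ u) = ofV _ 9 E.o.Pp u :=
    (ofV_eq S (by norm_num) (funext fun z => (val_mulH S (by norm_num) (Cb_const _) (maps h2 _) _
      z).trans (congrFun (val_ofV hu (by norm_num)) z))).symm
  refine (congrArg (fun a => fderiv ℝ f (x.pt 8, ψ) ((0, a, 0), 0)) e).trans ?_
  refine even_der (f := f) (g := g) (x := (x.pt 8, ψ)) (v := ((0, ofV _ 9 E.o.Pp u, 0), 0))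
    (v' := (0, ofV _ 9 (rf E x.t P P ∅).Pp u, 0))
    (iD (b.F p U δ).F0.toPre 8 (rf E x.t P P ∅).Pm E.o.Pm _ _ _)
    ((hf.sm.contDiffAt (((isOpen_U H.F).prod isOpen_univ).mem_nhds
      ⟨x.mem_U, trivial⟩)).differentiableAt (by simp)) ((hg.1.contDiffAt ((isOpen_U F).mem_nhds
      (Pnt.mem_U _))).differentiableAt (by simp)) (y := fun s => ((lφ x hu' s).pt 8, ψ))
    (y' := fun s => (lφ (rx H x h1 h2 ∅) hu s).pt 8) (fun s => Prod.ext
      (lφ_pt (k := 8) H.F x hu' (by norm_num) s) (by simp)) (lφ_pt (k := 8) F _ hu (by norm_num))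
    fun s => ?_
  obtain ⟨k1, k2, k3⟩ := map_sn H hf ψ (y := lφ x hu' s) (y' := lφ x hu' (-s)) rfl rfl
    (lφ_eq H.F x hu' O hz (fun z k => ind_off (Hs_proj S hu z) k) s)
  have v : ∀ s z, (b.F p U δ).F0.val 8 E.o.Pm ((b.F p U δ).F0.mulH 8 (rf E x.t P P ∅).Pm E.o.Pm
      (fun _ => .id ℝ _) (g ((lφ (rx H x h1 h2 ∅) hu s).pt 8)).1) z = (W.un c P).indicator
      ((b.F p U δ).F0.val 8 _ (f ((lφ x hu' s).pt 8, ψ)).1.1) z := fun s z => by
    refine (val_mulH S (by norm_num) (Cb_const _) (maps h2 _) _ z).trans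
      ((congrFun (hg.2 _).D z).trans ?_)
    by_cases k : z ∈ W.un c P
    · refine (indicator_of_mem k _).trans (Eq.trans ?_ (indicator_of_mem k _).symm)
      rw [(hf.e _ ψ).D]
      refine Eq.trans ?_ ((indicator_of_mem (biUnion_subset_biUnion_left h2 k) _).trans
        (((tot_ev (δ := δ) (lφ x hu' s).cfg).1 z).trans ((congrArg _ (hq _ z k)).trans
          (sub_zero _)))).symm
      refine Finset.sum_congr rfl fun i _ => congrArg _ ?_
      have w : (lφ (rx H x h1 h2 ∅) hu s).cfg.Φ =ᶠ[𝓝 z] (lφ x hu' s).cfg.Φ :=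
        (Grp76.ind_ev O.2 k x.φ).mono fun y hy =>
          congrArg₂ (· + ·) (congrFun z0 y).symm (congrArg (· + _) hy)
      refine (Wz78.nab_congr i w).trans ?_
      exact congrArg (fun T : En (Fin E.o.m.N) => dv _ _ _ z + T ((lφ x hu' s).cfg.Φ z))
        (W_rf H x h1 h2 k i)
    · exact (indicator_of_notMem k _).trans (indicator_of_notMem k _).symm
  refine Prod.ext (Prod.ext (val_injective S (by norm_num) (funext fun z => ?_))
    (congrArg (· - 0) k2)) (congrArg (· - 0) k3)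
  refine (congrFun (val_sub _ _) z).trans (Eq.trans ?_ (congrFun (val_sub _ _) z).symm)
  refine (congrArg (_ - ·) (v _ z)).trans (Eq.trans ?_ (congrArg (_ - ·) (v _ z)).symm)
  by_cases k : z ∈ W.un c P
  · rw [indicator_of_mem k, indicator_of_mem k, sub_self, sub_self]
  · rw [indicator_of_notMem k, indicator_of_notMem k, k1 z k]

end res

section scene
open G75 Ins26 Jb7
variable {κ lam : Type} [Fintype κ] [Fintype lam] [DecidableEq lam] {Lm : LM κ lam}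
  {S : Scene Lm} {D : S.Dat} {i : S.L} {Wi : Type} {r n : ℕ}
  {J : Job Wi (D.Λ i) (S.A ⊕ Unit) S.ls r n} {c : S.M.Cl} {δ : ℝ} {X : Finset S.A}
  {σ : Cel (S.A ⊕ Unit)} {Adm : (Wi →₀ ℝ) → Prop} {n₀ : ℤ} {q : Wi →₀ ℝ} {y : J.Obc c} {l : S.ls}
  {b : Bp J c} {E : EW J c X σ l b δ} {x : Pnt E.o r} {ψ : E.K} (C : Cx X σ Adm n₀ q y l E x ψ)
include C

/-- the restricted family -/
theorem fam (P' : Set (Reg S.A)) (k : P' ⊆ {hp l.1 false}) :
    (b.F (sp (pW J c (shX S X) σ l.1) {hp l.1 false} P' ∅) (UW J c l) δ).OK :=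
  { C.cs.F with
    Om := isClopen_un fun _ e => C.cs.pok.pc _ (sub_in e)
    Om' := isClopen_un fun _ e => C.cs.pok.pc _ (sub_in (k e))
    sub := biUnion_subset_biUnion_left k }

/-- no spinor inside -/
theorem Φ_in (z : (D.W.Z c).M) (hz : z ∈ Om D c l) : x.cfg.Φ z = 0 := by
  obtain ⟨u, ζ, e, -⟩ := C.gd.ch.rep.e
  refine (e.Φ z (biUnion_subset_biUnion_left sub_in hz)).trans ?_
  rw [Job.Obc.zero C.fa.2.1 ((un_one D.W.toCaps c _).subset hz)]
  simp [cs]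

/-- no perturbation inside -/
theorem τ_in (w) (z : (D.W.Z c).M) (hz : z ∈ Om D c l) :
    (J.τ c q (b.θ _ _ x.t)).D w z = 0 ∧ (J.τ c q (b.θ _ _ x.t)).C w z = 0 :=
  C.θ ▸ (Abx52.sg C).qt C.sol.cell C.sol.ov (Abx52.pc C) (if_pos rfl) q w z
    ((un_one D.W.toCaps c _).subset hz)

theorem locF_at : LocF C := fun f hf g hg φ' φ e => by
  have T := C.cs.F.sup
  have m := fun {V : Type} [NormedAddCommGroup V] [InnerProductSpace ℝ V] π =>
    maps (c := c) (W := D.W) (p := pW J c (shX S X) σ l.1) (V := V) sub_in π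
  have e' := val_injective T (by norm_num) (e.trans (funext
      (val_mulH T (by norm_num) (Cb_const (.id ℝ _)) (m _) φ')).symm)
  have k := (congrArg (fun a => fderiv ℝ f (x.pt 8, ψ) ((0, a, 0), 0)) e').trans
    (par C.cs x sub_in sub_in (fam C _ Subset.rfl) C.gd.ch.z (Φ_in C)
      (fun w z hz => (τ_in C w z hz).1) hf ψ hg φ')
  exact ⟨(congrArg (fun a : E.Y => (b.F _ _ δ).F0.val 8 E.o.Pm a.1.1) k).trans
      (funext (val_mulH T (by norm_num) (Cb_const _) (m _) _)),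
    (congrArg (fun a : E.Y => (b.F _ _ δ).F0.val 8 E.o.P2 a.1.2.1) k).trans val_zero,
    congrArg (·.1.2.2) k, fun j _ => congrArg (·.2.1 j) k, congrArg (·.2.2) k⟩

omit C in
/-- **LEAF LOCF** -/
theorem locF : NfStmt Lm LocF := fun _ _ _ _ _ _ _ _ _ _ _ _ _ _ _ _ =>
  ⟨1, one_pos, fun _ _ => .of fun _ _ _ _ _ _ _ _ _ C => locF_at C⟩

end scene

end Crest.Agent.X212.Ax1.Lf
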