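import Crest.Agent.X212.Ax1.La0
import Crest.Agent.X212.Ax1.Lf

/-! # Row 212, NT-LOCA (helper1): variations of the connection inside a lens wall -/

set_option autoImplicit false
set_option linter.unusedSectionVars false
noncomputable section
open scoped Manifold ContDiff Topology
open Set Function Filter

namespace Crest.Agent.X212.Ax1.Lf
open An M Nd18 Mod61 Nk89 Rf65 Pte3 Nt66 Sob92 Eqv71

section res
variable {Wi : Type} {X : Mf 4} {A κ lam : Type} [Fintype A] [Fintype κ] [Fintype lam]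
  [DecidableEq lam] {M : Mark X A κ} {W : World M} {N : ML M lam} {Λ : Lns W N}
  {A' h : Type} [Fintype A'] [DecidableEq A'] [Fintype h] {r n : ℕ}
  {J : Job Wi Λ A' h r n} {c : M.Cl} {σ : Cel A'} {p : Prt A A' h} {U : Type} [Fintype U] {δ : ℝ}
  {b : Bp J c} {E : EC b p U δ} (H : CS σ E) {q : Wi →₀ ℝ} {O : Set (W.Z c).M}
include H

/-- the map of the chart at points which agree over `O` -/
theorem map_on (hO : IsClopen O) {f : E.C → E.Y} (hf : E.Map q f) (ψ : E.K) {y y' : Pnt E.o r}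
    (ht : y'.t = y.t) (hz : y'.z = y.z) (hφ : y'.φ = y.φ) (hα : ∀ x ∈ O, y'.α x = y.α x)
    (h0 : ∀ x ∉ O, y.cfg.Φ x = 0) :
    (∀ x ∈ O, (b.F p U δ).F0.val _ _ (f (y'.pt 8, ψ)).1.1 x =
        (b.F p U δ).F0.val _ _ (f (y.pt 8, ψ)).1.1 x ∧
      (b.F p U δ).F0.val _ _ (f (y'.pt 8, ψ)).1.2.1 x =
        (b.F p U δ).F0.val _ _ (f (y.pt 8, ψ)).1.2.1 x) ∧
    (f (y'.pt 8, ψ)).1.2.2 = (f (y.pt 8, ψ)).1.2.2 ∧ (∀ i : p.H, (J.cut c i).supp ⊆ O →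
      (f (y'.pt 8, ψ)).2.1 i = (f (y.pt 8, ψ)).2.1 i) := by
  have k : CR0 (J.B c) (J.G c (b.θ p U y.t)) (J.B c) (J.G c (b.θ p U y.t)) O O id
    (fun z a i => (J.B c).P a i z) (J.B c).l y.cfg y'.cfg E.o.m.p 1 :=
      cr_on H.F hO.2 ht hz hφ hα h0
  have t := H.ok.τ_nat H.mem (H.ovx y) hO q
  have a := lg_refl (Λ.B_ok _ _) (H.ok.G_ok H.mem (H.ovx y)) hO.2
  obtain ⟨h1, h2, h3, h4⟩ := tot_ev (b := b) (U := U) (δ := δ) (t := y'.t) (q := q) y'.cfg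
  obtain ⟨k1, k2, k3, k4⟩ := tot_ev (b := b) (U := U) (δ := δ) (t := y.t) (q := q) y.cfg
  have e := hf.e y ψ
  have e' := hf.e y' ψ
  refine ⟨fun x hx => rep_on H.F (by norm_num) e e' ?_ fun s => ?_, Prod.ext
    (e'.S.trans ((funext fun i => ?_).trans e.S.symm)) (e'.R.trans (Eq.trans ?_ e.R.symm)),
    fun i hi => ?_⟩
  · rw [h1, k1, ht]
    exact (t.eD a k hx).trans (cs_one _ _)
  · rw [h2, k2, ht]
    exact (congrArg (· s) (t.eC a k hx)).trans (ridx_P (a.hB.pr x)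
      (t.eC a (cr0_refl a.hB a.hG hO.2 k.adm k.off) hx) _ s)
  · rw [h3, k3, ht, t.S k]; simp
  · rw [h4, k4]
    exact congrArg (fun z => fun _ => ‖z‖ ^ 2 - 1) hz
  · have c1 := H.cut_ok H.hb y.ht i
    have e1 := Cnt93.T_nat (a.of_ceq k.adm k.adm' k.e) (Cnt93.rel_refl a.hB hi) 1 c1 c1 (ψ i)
    have e2 := H.ok.σc_nat H.mem (H.ovx y) hO (Job.unc_of H.pok.pc (H.pok.nb i i.2)) hi q k 1 (ψ i)
    have z := rh_p E.o.ok (J.cut c i)
    rw [hf.row, hf.row, EC.row, EC.row, ht]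
    exact congrArg₂ (· - ·) ((congrArg _ (z _).symm).trans (e1.trans (z _)))
      ((congrArg _ (z _).symm).trans (e2.trans (z _)))

variable (x : Pnt E.o r) {P : Set (Reg A)} (h1 : P ⊆ p.P) (h2 : P ⊆ p.P')
include h1

omit H in
theorem mapi {α : Type} [Fintype α] (S : (W.Z c).M → α → α → ℝ) (z : (W.Z c).M)
    (v : Fm α E.o.m.A) (e : idx (S z) ((rf E x.t P P ∅).Pg z) v = v) :
    idx (S z) (E.o.Pg z) v = v := by
  by_cases hz : z ∈ W.un c P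
  · exact idx_of (o := E.o) (biUnion_subset_biUnion_left h1 hz)
      (idx_mem (o := rf E x.t P P ∅) e) (idx_sum (o := rf E x.t P P ∅) e)
  · rw [idx_off (o := rf E x.t P P ∅) e hz, map_zero]

omit H in
theorem map1 (z : (W.Z c).M) (v : Fm (Option κ) E.o.m.A) (e : (rf E x.t P P ∅).P1 z v = v) :
    E.o.P1 z v = v := mapi x h1 (fun z a b => (J.B c).P a b z) z v e

omit H in
theorem map2 (z : (W.Z c).M) (v : Fm (Option κ × Option κ) E.o.m.A)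
    (e : (rf E x.t P P ∅).P2 z v = v) : E.o.P2 z v = v := mapi x h1 (J.B c).sd z v e

omit H h1 in
theorem W_rf' {α α' : (W.Z c).M → Fm (Option κ) E.o.m.A} {z : (W.Z c).M} (e : α' z = α z)
    (i : Option κ) : (rf E x.t P P ∅).W x.t α' i z = E.o.W x.t α i z := by
  refine (W_apply (o := rf E x.t P P ∅) x.t _ i z).trans
    (Eq.trans ?_ (W_apply (o := E.o) x.t α i z).symm)
  rw [Ref.A_eq]
  exact congrArg (fun a : Fm (Option κ) E.o.m.A => (b.F p U δ).W0 E.o.m (E.o.A x.t) x.t i z +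
    ∑ j, (b.F p U δ).S x.t z i j • opL (a j)) e

variable (F : (b.F (sp p P P ∅) U δ).OK) {f : E.C → E.Y} (hf : E.Map q f) (ψ : E.K)
  {g : (rf E x.t P P ∅).C r 8 → (rf E x.t P P ∅).Y n (min r 1) 8}
  (hg : RepF ((b.F (sp p P P ∅) U δ).eq0 r n (min r 1)) g)
include F hf hg

theorem derA {Z : Type} [NormedAddCommGroup Z] [NormedSpace ℝ Z] (π : E.Y →L[ℝ] Z)
    (L : (rf E x.t P P ∅).Y n (min r 1) 8 →L[ℝ] Z) (e : ∀ u (hu : u ∈ Mod61.Hs _ (rf E x.t P P ∅).P1)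
      (hu' : u ∈ Mod61.Hs _ E.o.P1) s s', π (f ((lα x hu' s).pt 8, ψ)) -
        L (g ((lα (rx H x h1 h2 ∅) hu s).pt 8)) = π (f ((lα x hu' s').pt 8, ψ)) -
        L (g ((lα (rx H x h1 h2 ∅) hu s').pt 8)))
    (α : (b.F p U δ).F0.H 9 (rf E x.t P P ∅).P1) : π (fderiv ℝ f (x.pt 8, ψ)
      (((b.F p U δ).F0.mulH 9 _ _ (fun _ => .id ℝ _) α, 0, 0), 0)) =
      L (fderiv ℝ g ((rx H x h1 h2 ∅).pt 8) (α, 0, 0)) := by
  have S := H.F.sup
  revert α
  refine funext_iff.1 (Continuous.ext_on (dense_ofV S (k := 9) (by norm_num)) (by fun_prop)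
    (by fun_prop) ?_)
  rintro _ ⟨u, hu, rfl⟩
  have hu' := hs_id (P := (rf E x.t P P ∅).P1) (Q := E.o.P1) S (map1 x h1) hu
  have k := id_ofV (P := (rf E x.t P P ∅).P1) (Q := E.o.P1) S (map1 x h1) (k := 9)
    (by norm_num) hu
  refine (congrArg (fun a => π (fderiv ℝ f (x.pt 8, ψ) ((a, 0, 0), 0))) k).trans ?_
  exact const_der (f := f) (g := g) (x := (x.pt 8, ψ)) (v := ((ofV _ 9 E.o.P1 u, 0, 0), 0))
    (v' := (ofV _ 9 (rf E x.t P P ∅).P1 u, 0, 0)) π L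
    ((hf.sm.contDiffAt (((isOpen_U H.F).prod isOpen_univ).mem_nhds
      ⟨x.mem_U, trivial⟩)).differentiableAt (by simp)) ((hg.1.contDiffAt ((isOpen_U F).mem_nhds
      (Pnt.mem_U _))).differentiableAt (by simp)) (y := fun s => ((lα x hu' s).pt 8, ψ))
    (y' := fun s => (lα (rx H x h1 h2 ∅) hu s).pt 8) (fun s => Prod.ext
      (lα_pt (k := 8) H.F x hu' (by norm_num) s) (by simp)) (lα_pt (k := 8) F _ hu (by norm_num))
    (e u hu hu')

variable (z0 : E.o.Φ0 = 0) (hz : ∀ z ∈ W.un c P, x.cfg.Φ z = 0)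
  (hq : ∀ y, ∀ z ∈ W.un c P, (J.τ c q (b.θ p U x.t)).D y z = 0 ∧ (J.τ c q (b.θ p U x.t)).C y z = 0)
  {u : (W.Z c).M → Fm (Option κ) E.o.m.A} (hu : u ∈ Mod61.Hs (b.F p U δ).F0.toPre (rf E x.t P P ∅).P1)
  (hu' : u ∈ Mod61.Hs (b.F p U δ).F0.toPre E.o.P1)
include z0 hz hq

theorem val_in (s : ℝ) {z : (W.Z c).M} (k : z ∈ W.un c P) :
    (b.F p U δ).F0.val 8 _ (f ((lα x hu' s).pt 8, ψ)).1.1 z = 0 ∧
    (b.F p U δ).F0.val 8 _ (f ((lα x hu' s).pt 8, ψ)).1.2.1 z = (b.F p U δ).F0.val 8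
      (rf E x.t P P ∅).P2 (g ((lα (rx H x h1 h2 ∅) hu s).pt 8)).2.1 z := by
  have O : IsClopen (W.un c P) := F.Om
  have t := tot_ev (b := b) (U := U) (δ := δ) (t := x.t) (q := q) (lα x hu' s).cfg
  constructor
  · refine (congrFun (hf.e _ ψ).D z).trans ((indicator_of_mem (biUnion_subset_biUnion_left h2 k)
      _).trans ((t.1 z).trans ((congrArg₂ (· - ·) (dir_zero ?_) (hq _ z k).1).trans (sub_zero _))))
    exact mem_of_superset (O.2.mem_nhds k) hz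
  · have w : (lα (rx H x h1 h2 ∅) hu s).cfg.Φ z = (lα x hu' s).cfg.Φ z :=
      congrArg₂ (· + ·) (congrFun z0 z).symm (indicator_of_mem k x.φ)
    have w' : E.o.m.Fg (J.G c (b.θ p U x.t)).F (lα (rx H x h1 h2 ∅) hu s).cfg.W z =
        E.o.m.Fg (J.G c (b.θ p U x.t)).F (lα x hu' s).cfg.W z := Fg_congr fun i =>
      (Grp76.ind_ev O.2 k x.α).mono fun y hy => W_rf' x (congrArg (· + s • u y) hy) i
    have c1 := (congrFun (hf.e (lα x hu' s) ψ).C z).trans ((indicator_of_mem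
      (s := W.un c p.P) (biUnion_subset_biUnion_left h1 k) _).trans (t.2.1 z))
    have c2 := (congrFun (hg.2 (lα (rx H x h1 h2 ∅) hu s)).C z).trans
      (indicator_of_mem (s := W.un c P) k _)
    rw [Cfg.eC, (hq _ z k).2, sub_zero] at c1
    exact c1.trans (Eq.trans (congrArg₂ (fun a v => E.o.m.p2 (J.B c) z a - E.o.m.mu (J.B c) z v v)
      w' w).symm c2.symm)

include h2 hu in
theorem on_out (s s' : ℝ) : (∀ z ∉ W.un c P, (b.F p U δ).F0.val _ _ (f ((lα x hu' s).pt 8, ψ)).1.1 z =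
        (b.F p U δ).F0.val _ _ (f ((lα x hu' s').pt 8, ψ)).1.1 z ∧
      (b.F p U δ).F0.val _ _ (f ((lα x hu' s).pt 8, ψ)).1.2.1 z =
        (b.F p U δ).F0.val _ _ (f ((lα x hu' s').pt 8, ψ)).1.2.1 z) ∧
    (f ((lα x hu' s).pt 8, ψ)).1.2.2 = (f ((lα x hu' s').pt 8, ψ)).1.2.2 ∧ (∀ i : p.H,
      (J.cut c i).supp ⊆ (W.un c P)ᶜ →
      (f ((lα x hu' s).pt 8, ψ)).2.1 i = (f ((lα x hu' s').pt 8, ψ)).2.1 i) :=
  map_on H (IsClopen.compl (s := W.un c P) F.Om) hf ψ (y := lα x hu' s') (y' := lα x hu' s) rfl rfl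
    rfl (fun z k => by
      have : u z = 0 := idx_off (o := rf E x.t P P ∅) (Hs_proj H.F.sup hu z) k
      simp [lα, this]) fun z k => hz z (not_not.1 k)

omit hu hu' in
/-- **variations of the connection over `P`** -/
theorem parA (α : (b.F p U δ).F0.H 9 (rf E x.t P P ∅).P1) (a : E.Y) (e : fderiv ℝ f (x.pt 8, ψ)
    (((b.F p U δ).F0.mulH 9 _ _ (fun _ => .id ℝ _) α, 0, 0), 0) = a) :
    a.1 = (0, (b.F p U δ).F0.mulH 8 (rf E x.t P P ∅).P2 _ (fun _ => .id ℝ _)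
      (fderiv ℝ g ((rx H x h1 h2 ∅).pt 8) (α, 0, 0)).2.1, 0) ∧
    (∀ i : p.H, (J.cut c i).supp ⊆ (W.un c P)ᶜ → a.2.1 i = 0) ∧ a.2.2 = 0 := by
  have S := H.F.sup
  subst e
  refine ⟨derA H x h1 h2 F hf ψ hg (.fst ℝ _ _) (iC (b.F p U δ).F0.toPre 8 (rf E x.t P P ∅).P2
    E.o.P2 _ _ _ _) (fun u hu hu' s s' => ?_) α, fun i hi => derA H x h1 h2 F hf ψ hg
      (.proj i ∘L .fst ℝ _ _ ∘L .snd ℝ _ _) 0 (fun u hu hu' s s' => congrArg (· - 0)
        ((on_out H x h1 h2 F hf ψ hg z0 hz hq hu hu' s s').2.2 i hi)) α,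
    derA H x h1 h2 F hf ψ hg (.snd ℝ _ _ ∘L .snd ℝ _ _) 0 (fun u hu hu' s s' => congrArg (· - 0)
      (funext fun i => (hf.nrm _ ψ i).trans (hf.nrm _ ψ i).symm)) α⟩
  have k := on_out H x h1 h2 F hf ψ hg z0 hz hq hu hu' s s'
  have v := fun s {z} => val_in H x h1 h2 F hf ψ hg z0 hz hq hu hu' s (z := z)
  have m := fun s => congrFun (val_id (P := (rf E x.t P P ∅).P2) (Q := E.o.P2) S (map2 x h1) (k := 8)
    (by norm_num)
    (g ((lα (rx H x h1 h2 ∅) hu s).pt 8)).2.1)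
  refine Prod.ext (congrArg (· - 0) (val_injective S (by norm_num) (funext fun z => ?_)))
    (Prod.ext (val_injective S (by norm_num) (funext fun z => ?_)) (congrArg (· - 0) k.2.1))
  · by_cases e : z ∈ W.un c P
    exacts [(v s e).1.trans (v s' e).1.symm, (k.1 z e).1]
  refine (congrFun (val_sub _ _) z).trans (Eq.trans ?_ (congrFun (val_sub _ _) z).symm)
  refine (congrArg (_ - ·) (m _ z)).trans (Eq.trans ?_ (congrArg (_ - ·) (m _ z)).symm)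
  by_cases e : z ∈ W.un c P
  · exact (sub_eq_zero.2 (v s e).2).trans (sub_eq_zero.2 (v s' e).2).symm
  · have o := fun a => idx_off (o := rf E x.t P P ∅) (val_proj (p := (rf E x.t P P ∅).P2) S (k := 8)
      (by norm_num) a z) e
    exact congrArg₂ (· - ·) (k.1 z e).2 ((o _).trans (o _).symm)

omit hu hu' in
theorem valA {α' : (b.F p U δ).F0.H 9 (rf E x.t P P ∅).P1} {α : (b.F p U δ).F0.H 9 E.o.P1}
    (e : (b.F p U δ).F0.val 9 E.o.P1 α = (b.F p U δ).F0.val 9 (rf E x.t P P ∅).P1 α') (a : E.Y)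
    (ea : fderiv ℝ f (x.pt 8, ψ) ((α, 0, 0), 0) = a) : (b.F p U δ).F0.val 8 E.o.Pm a.1.1 = 0 ∧
    (b.F p U δ).F0.val 8 E.o.P2 a.1.2.1 = (b.F p U δ).F0.val 8 (rf E x.t P P ∅).P2
      (fderiv ℝ g ((rx H x h1 h2 ∅).pt 8) (α', 0, 0)).2.1 ∧ a.1.2.2 = 0 ∧
    (∀ i : p.H, (J.cut c i).supp ⊆ (W.un c P)ᶜ → a.2.1 i = 0) ∧ a.2.2 = 0 := by
  have T := H.F.sup
  have e' := eq_id (P := (rf E x.t P P ∅).P1) (Q := E.o.P1) T (map1 x h1) (k := 9) (by norm_num) e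
  obtain ⟨k1, k2⟩ := parA H x h1 h2 F hf ψ hg z0 hz hq α' a
    ((congrArg (fun a => fderiv ℝ f (x.pt 8, ψ) ((a, 0, 0), 0)) e').symm.trans ea)
  exact ⟨(congrArg (fun a : E.o.Y n _ 8 => (b.F p U δ).F0.val 8 E.o.Pm a.1) k1).trans val_zero,
    (congrArg (fun a : E.o.Y n _ 8 => (b.F p U δ).F0.val 8 E.o.P2 a.2.1) k1).trans
      (val_id (P := (rf E x.t P P ∅).P2) (Q := E.o.P2) T (map2 x h1) (by norm_num) _),
    congrArg (·.2.2) k1, k2⟩

end res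

section scene
open G75 Ins26 Jb7
variable {κ lam : Type} [Fintype κ] [Fintype lam] [DecidableEq lam] {Lm : LM κ lam}
  {S : Scene Lm} {D : S.Dat} {i : S.L} {Wi : Type} {r n : ℕ}
  {J : Job Wi (D.Λ i) (S.A ⊕ Unit) S.ls r n} {c : S.M.Cl} {δ : ℝ} {X : Finset S.A}
  {σ : Cel (S.A ⊕ Unit)} {Adm : (Wi →₀ ℝ) → Prop} {n₀ : ℤ} {q : Wi →₀ ℝ} {y : J.Obc c} {l : S.ls}
  {b : Bp J c} {E : EW J c X σ l b δ} {x : Pnt E.o r} {ψ : E.K} (C : Cx X σ Adm n₀ q y l E x ψ)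
include C

/-- the other cuts lie outside -/
theorem cut_out {j : S.ls} (e : j ≠ l) : (J.cut c j).supp ⊆ (Om D c l)ᶜ := by
  have g := Abx52.sg C
  have k : J.nb j ⊆ ⋃ π ∈ ({hp l.1 true} : Set _), S.M.sys.U π := fun z hz => by
    have k := disjoint_left.1 (g.sc.lsd j j.2 l l.2 (Subtype.coe_injective.ne e))
      (.inl ((C.gx.choose_spec.choose_spec.choose_spec.1.nb ▸ hz : z ∈ S.nb j)))
    refine mem_biUnion rfl fun a d ha => ?_
    by_cases v : a = l.1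
    · obtain rfl : true = d := Option.some.inj ((if_pos v).symm.trans ha)
      exact v ▸ ((S.M.sys.w l).mem_cases true z).resolve_right fun j =>
        j.elim (fun j => k (.inr ((S.M.sys.w l).core_subset j))) fun j => k (.inl j)
    · exact nomatch (if_neg v).symm.trans ha
  refine fun z hz hz' => Bool.noConfusion (Option.some.inj ((if_pos rfl).symm.trans
    ((congrFun (Cyl58.pc_unique D.W.toCaps (C.cs.pok.pc _ (.inl rfl)) (Abx52.pc C)
      ((un_one D.W.toCaps c _).subset (g.ok.cut_sub k hz)) ((un_one D.W.toCaps c _).subset hz'))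
      l.1).trans (if_pos rfl))))

theorem locA_at : LocA C := fun _ hf _ hg _ _ e =>
  have k := valA C.cs x sub_in sub_in (fam C _ Subset.rfl) hf ψ hg C.gd.ch.z (Φ_in C) (τ_in C) e _ rfl
  ⟨k.1, k.2.1, k.2.2.1, fun j hj => k.2.2.2.1 j (cut_out C hj), k.2.2.2.2⟩

omit C in
/-- **LEAF LOCA** -/
theorem locA : NfStmt Lm LocA := fun _ _ _ _ _ _ _ _ _ _ _ _ _ _ _ _ =>
  ⟨1, one_pos, fun _ _ => .of fun _ _ _ _ _ _ _ _ _ C => locA_at C⟩

end scene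

end Crest.Agent.X212.Ax1.Lf
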