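import Crest.Agent.X212.Ax1.GbA
import Crest.Agent.X212.Gl67.Leaf
import Crest.Agent.X212.Mon62.NkJ

/-!
# Row 212, GL-BOOT (helper1): the leaf `Dat.Boot`
-/

set_option autoImplicit false
set_option linter.unusedSectionVars false
noncomputable section
open scoped Manifold ContDiff Topology InnerProductSpace
open MeasureTheory Set Function Filter

namespace Crest.Agent.X212.Ax1.Gb
open An An.Job M Nd18 Sob92 Prm93 Mod61 Gj67
open Map77 (Aff adj_closed)
open Mon62 (px JL)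

section gen
variable {E : Type} [NormedAddCommGroup E] [NormedSpace ℝ E] [FiniteDimensional ℝ E]
  [MeasurableSpace E] [BorelSpace E]
  {HM : Type} [TopologicalSpace HM] {I : ModelWithCorners ℝ E HM} [I.Boundaryless]
  {M : Type} [TopologicalSpace M] [ChartedSpace HM M] [IsManifold I ∞ M]
  [MeasurableSpace M] [T2Space M] [BorelSpace M] [SecondCountableTopology M]
  {ι lam : Type} [Fintype ι] [Fintype lam]
  {T : Type} [NormedAddCommGroup T] [NormedSpace ℝ T] {𝔉 : Mod61.Fam I M ι lam T} {r n m : ℕ}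

/-- the perturbation as it enters the equations -/
def flp (m : ℕ) (τ : Pt M ι lam r n) : PtX M ι lam r n m :=
  ⟨⟨fun c => -τ.D c, fun c => -τ.C c, τ.S⟩, fun c _ => ‖c.z‖ ^ 2 - 1⟩

theorem sm_flp {o : Ref 𝔉} {τ : T → Pt M ι lam r n} (h : o.Sm fun t => px m (τ t)) :
    o.Sm fun t => flp m (τ t) := fun k hk =>
  let ⟨f, f1, f2⟩ := h k hk
  ⟨fun v => (-(f v).1, -(f v).2.1, (f v).2.2.1, fun _ => ‖v.2.2.1‖ ^ 2 - 1),
    f1.fst.neg.prodMk (f1.snd.fst.neg.prodMk (f1.snd.snd.fst.prodMk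
      (contDiff_pi.2 fun _ => ((contDiff_norm_sq ℂ).comp (by fun_prop)).sub
        contDiff_const).contDiffOn)), fun y =>
    ⟨(val_neg _).trans ((congrArg Neg.neg (f2 y).D).trans (indicator_neg' _ _).symm),
      (val_neg _).trans ((congrArg Neg.neg (f2 y).C).trans (indicator_neg' _ _).symm),
      (f2 y).S, rfl⟩⟩

end gen

variable {Wi : Type} {X : Mf 4} {A κ lam : Type} [Fintype A] [Fintype κ] [Fintype lam]
  [DecidableEq lam] {M : Mark X A κ} {W : World M} {L : ML M lam} {Λ : Lns W L}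
  {A' h : Type} [Fintype A'] [DecidableEq A'] [Fintype h] {r n : ℕ}
  {J : Job Wi Λ A' h r n} {σ : Cel A'} {a : A'}

theorem eqX_eq (c : M.Cl) (q : Wi →₀ ℝ) (s : A' → ℝ) :
    eqX J c q s = eq0 (J.B c) (J.G c s) r n _ + flp _ (J.τ c q s) :=
  PtX.eqv.injective (funext fun _ => Prod.ext (funext fun _ => sub_eq_add_neg _ _)
    (Prod.ext (funext fun _ => sub_eq_add_neg _ _)
      (Prod.ext (zero_add _).symm (zero_add _).symm)))

/-- the equations of a job on a closed manifold are the monopole map plus lower order terms -/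
theorem aff_eqX {c : M.Cl} {T : Type} [NormedAddCommGroup T] [NormedSpace ℝ T]
    {𝔉 : Mod61.Fam (W.Z c).I (W.Z c).M (Option κ) (lam ⊕ lam) T} {s : T → A' → ℝ}
    (K : JL J σ 𝔉 s) (hG : ∀ t, 𝔉.G t = J.G c (s t)) (hF : 𝔉.OK) (hc : ∀ a ∈ c.1, M.pin a)
    (o : Ref 𝔉) [o.B0] (q : Wi →₀ ℝ) :
    Aff o (Fg 𝔉) r n (min r 1) fun t => eqX J c q (s t) := by
  have := Cyl58.caps_compact W.toCaps hc
  have e : (fun t => eqX J c q (s t)) =
      𝔉.eq0 r n (min r 1) + fun t => flp (min r 1) (J.τ c q (s t)) := funext fun t => by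
    rw [eqX_eq, Pi.add_apply, Mod61.Fam.eq0, K.B, hG]
  rw [e]
  refine (adj_closed hF).aff_eq0.add hF (sm_flp ?_)
  rw [Mon62.px_τ]
  exact mem_SmS.1 (add_mem (mem_SmS.2 (K.sm0 hF hc)) (Submodule.sum_mem _ fun w _ =>
    Submodule.smul_mem _ _ (mem_SmS.2 (K.smw hF hc w))))

variable {U Up R : Type} [NormedAddCommGroup U] [NormedSpace ℝ U] [NormedAddCommGroup Up]
  [NormedSpace ℝ Up] [NormedAddCommGroup R] [NormedSpace ℝ R] {d : Dat J σ a U Up R}
  {q₀ : Wi →₀ ℝ} {δ : ℝ} {k : ℕ} (H : d.OK q₀ δ)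
include H

theorem ov {τ : ℝ} {t : Tc σ a} (ht : J.Θ (d.s τ t) ∈ M.O M.c0.1) : J.Ov σ M.c0 (d.s τ t) := by
  have lt : ∀ x, (J.Θ (d.s τ t)).2 x < 1 := fun x => ht x ⟨id, fun _ k => k.elim⟩
  obtain ⟨s₀, k1, k2⟩ := H.ok.lin
  refine ⟨⟨fun a' b e => ?_, fun a' e => not_lt.1 fun e' => ?_⟩,
    eq_empty_of_forall_notMem fun x e => (lt x).ne e⟩
  · have : a' ≠ a := fun k => by simp [k, H.fr] at e
    simp [Dat.s, ee, e, this, H.sol.cell.1 a' b e]
  · obtain ⟨x, hx⟩ := Option.isSome_iff_exists.1 e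
    exact (lt x).not_gt (e'.trans_eq (k2 a' x hx _ (k1.trans e').le).1.symm)

theorem jl (τ : d.Ta) (δ' : ℝ) : JL J σ ((d.Xs τ).wf δ') (d.s τ) :=
  ⟨H.ok, H.mem, rfl, fun _ _ => rfl, fun _ ht => ov H ht, (contDiff_pi.2 fun a' => by
    unfold Dat.s ee; split_ifs <;> fun_prop).contDiffOn⟩

theorem aff {τ : d.Ta} (ok : (d.Xs τ).OK) (q : Wi →₀ ℝ) :
    Aff (ow ok δ) (Fg (d.FX τ)) r n (min r 1) (d.εX τ q).e :=
  aff_eqX (jl H τ δ) (fun _ => rfl) (okw ok H.δ0.le) (fun _ k => k.elim) (ow ok δ) q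

/-- **LEAF BOOT** -/
theorem bootX (hk : 7 ≤ k) (hB : d.Base) : d.Boot δ k := by
  have := Cyl58.caps_compact W.toCaps (c := M.c0) fun _ k => k.elim
  obtain ⟨_, hB⟩ := hB
  exact hB.mono fun τ b q _ hG _ hv h0 => boot b.1 H.δ0.le hG hv (aff H b.1 q) hk h0

end Crest.Agent.X212.Ax1.Gb
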