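import Crest.Agent.X212.Crt72.Lg
import Crest.Agent.X212.Crt72.Alg
import Crest.Agent.X212.Cyf70.Ke
import Crest.Agent.X212.Lin97.Emb

/-! Row 212, KK (helper1): the slice part of the Hessian is the Hessian of the model. -/

set_option autoImplicit false
set_option linter.unusedSectionVars false
noncomputable section
open scoped Manifold ContDiff Topology InnerProductSpace
open Set

namespace Crest.Agent.X212.Ax1.Kk
open An An.Pre Cyf70 Map77 Nd18 Sob92 Crt72 Lin97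

variable {E3 : Type} [NormedAddCommGroup E3] [NormedSpace ℝ E3] [FiniteDimensional ℝ E3]
  [MeasurableSpace E3] [BorelSpace E3]
  {H3 : Type} [TopologicalSpace H3] {I3 : ModelWithCorners ℝ E3 H3} [I3.Boundaryless]
  {Y : Type} [TopologicalSpace Y] [ChartedSpace H3 Y] [IsManifold I3 ∞ Y] [T2Space Y]
  [MeasurableSpace Y] [BorelSpace Y] [SecondCountableTopology Y] [CompactSpace Y]
  {κ : Type} [Fintype κ] {lam : Type} [Fintype lam]
  {D : YD I3 Y κ lam} {N : ND Y lam} {β : YC Y κ lam} {k : ℕ}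

theorem p1 {n : ℕ} (α : Fm κ (HS (Fin n))) (φ : Eu (Fin n)) :
    fa (sc2 _ _ 2 1 ((1 / 2 : ℝ) • eA κ n α + eP κ n φ + (1 / 2 : ℝ) • eG κ n 0)) = up κ _ α ∧
      fp (sc2 _ _ 2 1 ((1 / 2 : ℝ) • eA κ n α + eP κ n φ + (1 / 2 : ℝ) • eG κ n 0)) = φ :=
  ⟨by simp [smul_smul], by simp⟩

theorem p2 {n : ℕ} {α : Fm κ (HS (Fin n))} {φ : Eu (Fin n)} {w : Cf (Option κ) (Fin n)}
    (h0 : fa w none = 0) (h1 : ∀ a, α a = fa w (some a)) (h2 : φ = fp w) :
    (2 : ℝ) • eA κ n α + eP κ n φ + (2 : ℝ) • eG κ n 0 = sc2 _ _ 2 1 w :=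
  cf_ext (by simp [h0]) (fun a => by simp [h1]) (by simp [h2])

theorem gz_eq (y : SP D β) {a : Dec35.Cz β} (h1 : ∀ z, fa (a z) = up κ _ (y.1.1 z.1))
    (h2 : ∀ z, fp (a z) = y.2.1 z.1) (x : Y) :
    (∀ b, fa (gz N D β a (x, 0)) (some b) =
      pc D β x (dw κ _ ((N.dg D.nk).gA D.Z (cy (cf y)) (x, 0))) b) ∧
    fp (gz N D β a (x, 0)) = pv D β x ((N.dg D.nk).gP D.Z (cy (cf y)) (x, 0)) := by
  have e1 := congrArg₂ (γ := Fm (Option κ) β.m.A)
    (fun a b => (N.dg D.nk).gA D.Z (vr (cy β) a b) (x, 0)) (funext h1) (funext h2)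
  have e2 := congrArg₂ (γ := β.m.V)
    (fun a b => (N.dg D.nk).gP D.Z (vr (cy β) a b) (x, 0)) (funext h1) (funext h2)
  exact ⟨fun b => (fa_ph_some (D := D) (β := β) (x := x) _ b).trans
      (congrArg (fun w => pc D β x (dw κ _ w) b) ((f2_ii _ _).trans e1)),
    (fp_ph (D := D) (β := β) (x := x) _).trans (congrArg (pv D β x) ((s2_ii _ _).trans e2))⟩

theorem val_eq (H : Hy D β) (h : Kp N D β) (hk : 4 ≤ k) {G : CC D β (k + 1) → CC D β k}
    {G' : CC D β (k + 1) →L[ℝ] CC D β k} (hG : HasFDerivAt G G' 0)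
    (gA : ∀ (y : SP D β) (z : Y × ℝ), D.F.val k _ (G (pt D β (k + 1) y)).1 z.1 =
      pc D β z.1 (dw κ _ ((N.dg D.nk).gA D.Z (cy (cf y)) z)))
    (gP : ∀ (y : SP D β) (z : Y × ℝ), D.F.val k _ (G (pt D β (k + 1) y)).2 z.1 =
      pv D β z.1 ((N.dg D.nk).gP D.Z (cy (cf y)) z))
    (y : SP D β) (s : SY D β) (hs : s.1 = (embS (1 / 2) y 0).1) (x : Y) :
    D.F.val k _ (emb D β 2 k (G' (pt D β (k + 1) y), 0)) x = kY N D β s.1 x := by
  let u := scY h.toHz 2 1 s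
  have u1 : ∀ z, fa (u.1 z) = up κ _ (y.1.1 z) := fun z =>
    (congrArg (fun w => fa (sc2 _ _ 2 1 w)) (congrFun hs z)).trans (p1 _ _).1
  have u2 : ∀ z, fp (u.1 z) = y.2.1 z := fun z =>
    (congrArg (fun w => fp (sc2 _ _ 2 1 w)) (congrFun hs z)).trans (p1 _ _).2
  obtain ⟨γ, -, C, -, S⟩ := h.slice u
  have d : HasDerivAt (fun ε : ℝ => G (pt D β (k + 1) (ε • y))) (G' (pt D β (k + 1) y)) 0 := by
    simp only [map_smul]
    have := HasFDerivAt.comp_hasDerivAt (0 : ℝ) (l := G) (f := fun ε : ℝ => ε • pt D β (k + 1) y)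
      (by rwa [zero_smul]) ((hasDerivAt_id' (0 : ℝ)).smul_const _)
    rwa [one_smul] at this
  have g := fun ε : ℝ => gz_eq (N := N) (ε • y) (a := ε • fun x => u.1 x.1)
    (fun z => (map_smul _ _ _).trans ((congrArg _ (u1 _)).trans (map_smul _ _ _).symm))
    (fun z => (map_smul _ _ _).trans (congrArg _ (u2 _))) x
  rw [H.val_emb hk, val_zero]
  refine p2 (w := hz N D β (fun x => u.1 x.1) (x, 0))
    (h.hz_none u (fun z => congrArg (· none) (u1 z)) (x, 0)) (fun a => ?_) ?_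
  · exact ((pj _ a ∘L D.F.ev k _ x ∘L ContinuousLinearMap.fst ℝ _ _).hasFDerivAt.comp_hasDerivAt
      0 d).unique (((pj _ (some a) ∘L fa).hasFDerivAt.comp_hasDerivAt 0
        (S (x, 0)).1).congr_of_eventuallyEq (.of_forall fun ε =>
          (congrArg (fun w : Fm κ β.m.A => w a) (gA (ε • y) (x, 0))).trans ((g ε).1 a).symm))
  · exact ((D.F.ev k _ x ∘L ContinuousLinearMap.snd ℝ _ _).hasFDerivAt.comp_hasDerivAt 0 d).unique
      (((fp).hasFDerivAt.comp_hasDerivAt 0 (S (x, 0)).1).congr_of_eventuallyEq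
        (.of_forall fun ε => (gP (ε • y) (x, 0)).trans (g ε).2.symm))

theorem key (H : Hy D β) (h : Kp N D β) (hk : 4 ≤ k) {G : CC D β (k + 1) → CC D β k}
    {G' : CC D β (k + 1) →L[ℝ] CC D β k} (hG : HasFDerivAt G G' 0)
    (gA : ∀ (y : SP D β) (z : Y × ℝ), D.F.val k _ (G (pt D β (k + 1) y)).1 z.1 =
      pc D β z.1 (dw κ _ ((N.dg D.nk).gA D.Z (cy (cf y)) z)))
    (gP : ∀ (y : SP D β) (z : Y × ℝ), D.F.val k _ (G (pt D β (k + 1) y)).2 z.1 =
      pv D β z.1 ((N.dg D.nk).gP D.Z (cy (cf y)) z))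
    {K : HZ D β 0 →L[ℝ] HZ D β 0} (hK : IsK N D β K) (y : SP D β) :
    kk (KZ K) (D.F.incl 1 0 (ph D β) (D.F.incl (k + 1) 1 _
      (emb D β (1 / 2) (k + 1) (pt D β (k + 1) y, 0)))) =
      D.F.incl k 0 (ph D β) (emb D β 2 k (G' (pt D β (k + 1) y), 0)) := by
  let s : SY D β := embS (1 / 2) y 0
  have S := h.sd H.dim.le hK
  let t : Sec I3 (ph D β) := S.kS s
  have e1 : emb D β 2 k (G' (pt D β (k + 1) y), 0) = D.F.toH k _ t :=
    val_injective H.sup hk (funext fun x => by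
      rw [val_toH H.sup hk]; exact val_eq H h hk hG gA gP y s rfl x)
  have e2 := emb_pt (c := 1 / 2) (j := k + 1) y 0
  rw [map_zero] at e2
  rw [e1, e2, incl_toH (by omega), incl_toH zero_le_one, incl_toH k.zero_le]
  exact S.kk_toH s

variable (I3 Y κ lam) in
/-- LEAF KK -/
theorem kkStmt : KkStmt I3 Y κ lam := fun D N x k act sf q H hk A hq R h K hK e => by
  refine GM.ext_dense ((A.op.denC x).comp (dense_pt (D := D) (β := x.1) (j := k + 1))
    ((gm D k act sf).ic x).continuous)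
    (f := fun e => kk (KZ K) ((gm D k act sf).j0 x (e, 0)))
    (g := fun e => (gm D k act sf).hs q x ((gm D k act sf).j0 x (e, 0)))
    ((kk (KZ K)).continuous.comp (((gm D k act sf).j0 x).continuous.comp (.prodMk_left 0)))
    (by fun_prop) (fun y => ?_) e
  have e1 := A.op.ij x (pt D x.1 (k + 1) y) 0
  rw [map_zero] at e1
  have e2 := A.hs_spec (GM.Rl_le hq) x (pt D x.1 (k + 1) y, 0)
  rw [Function.comp_apply, ← e1, e2]
  exact key ⟨H, x.2⟩ h (by omega) (A.dgr (GM.Rl_le hq) x 0) (R.gA x) (R.gP x) hK y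

end Crest.Agent.X212.Ax1.Kk
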