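import Crest.Agent.X212.Ax1.Fr
import Crest.Agent.X212.Ixz30.Chz
import Crest.Agent.X212.Msi61.Defs
import Crest.Agent.X212.Mon62.NkU

/-! # Row 212 (helper1): locality on the cylinder from locality at ends -/

set_option autoImplicit false
noncomputable section
open Set Function Filter

namespace Crest.Agent.X212.Ax1.Lc
open An M Cyf70 Mod61 Nk89 Nd18 Ixz30 Fr

variable {κ lam : Type} [Fintype κ] [Fintype lam] {Y : Mf 3} [CompactSpace Y.M]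
  {N : ND Y.M lam} {D : YD Y.I Y.M κ lam} {δ : ℝ}

/-- **LEAF MS-LOC** -/
theorem locL (hL : LocE κ lam) (d : 8 * δ ≤ N.δ) : Msi61.LocL N D 8 δ :=
  fun h b o _ R q a t h1 h0 l => hL (cylM Y) ℝ _ δ (h.X b) o R 0 0 0 a N t D.nk q h1 h0 l
    (fun _ _ => trivial) trivial h.ok.nd h.d2 d (.refl _)

theorem z_of {k : ℕ} {e : PtX (Y.M × ℝ) (Option κ) lam 0 0 0} {sg : ℝ} {m : Md Y.M (Option κ) lam}
    {W W' : m.Cn} {Φ : Y.M → m.V} {O' O'' : Set (Y.M × ℝ)} {h : D.Adm ⟨m, W, Φ, 0⟩}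
    {h0 : ∀ x ∉ O', Φ x.1 = 0} {h' : D.Adm ⟨m, W', Φ, 0⟩} {h0' : ∀ x ∉ O'', Φ x.1 = 0}
    (e1 : W' = W) (e2 : O'' = O') (L : ∀ b ρ : ℝ, 1 ≤ b → ∀ ε > 0, ∃ a,
      ∀ (y : Pnt (refZ T0 δ h h0) 0) (y' : Pnt (refZ T0 δ h' h0') 0), y.t = 0 → ‖y.pt k‖ ≤ ρ →
      ‖y'.pt k‖ ≤ ρ → (∀ x, b < sg * x.2 → y.α x = y'.α x ∧ y.φ x = y'.φ x) →
      NE D δ sg a k (fun x => vD (fun _ => e) y x - vD (fun _ => e) y' x) ≤ ε ∧
      NE D δ sg a k (fun x => vC (fun _ => e) y x - vC (fun _ => e) y' x) ≤ ε) :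
    LocZ (δ := δ) h h0 k e sg := by
  subst e1 e2
  intro b ρ ε hε
  obtain ⟨a, ha⟩ := L (max b 1) ρ (le_max_right _ _) ε hε
  exact ⟨a, fun y y' h1 h2 h3 => ha y y' (Subsingleton.elim _ _) h1 h2 fun x hx =>
    h3 x ((le_max_left _ _).trans_lt hx)⟩

theorem pt_zero : N.pt D.nk 0 = (N.q1 D.nk : Pt (Y.M × ℝ) (Option κ) lam 0 0) := by
  simp only [ND.pt, Pt.add, fsum, Finsupp.sum_zero_index, add_zero]

/-- **LEAF LOC on the cylinder** -/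
theorem locZ (hL : LocE κ lam) (w : Msi61.Wd (D := D) N δ) (d : 8 * δ ≤ N.δ) (f : Bool)
    {β : YC Y.M κ lam} (h : D.Adm β) (h0 : ∀ x ∉ spO f (univ : Set (Y.M × ℝ)), β.Φ x.1 = 0)
    {sg : ℝ} (hs : sg = 1 ∨ sg = -1) : LocZ (δ := δ) h h0 8 (eZ N D) sg := by
  obtain ⟨m, W, Φ, z⟩ := β
  obtain rfl : z = 0 := Subsingleton.elim _ _
  obtain ⟨a, rfl⟩ : ∃ a : Bool, sg = bif a then 1 else -1 :=
    hs.elim (⟨true, ·⟩) (⟨false, ·⟩)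
  have L := @hL (cylM Y) T0 _ _ _ δ (endsZ T0 (D := D) w.ok.ok (hY := w.ok.con.toPreconnectedSpace)
    w.d0 (clopen_spO f) w.hs) (refZ T0 δ h h0) ⟨rfl⟩ 1 0 0 0 a N 0 D.nk 0
    ((sl_refZ h h0 a _ 0).symm ▸ h) ((O'_eq (D := D) (δ := δ) f a).symm ▸ h0) ⟨le_rfl, fun a =>
      ⟨fun t _ s _ => (sl_refZ h h0 a s t).trans (sl_refZ h h0 a _ t).symm, fun t _ y =>
      (congrFun (congrFun (W_refZ h h0 t) none) _).trans (h.tmp _)⟩⟩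
    (fun _ _ => trivial) trivial w.ok.nd w.d2 d (.refl _)
  have e : (fun t => (famZ T0 D δ (spO f univ)).eq0 0 0 0 t - Mon62.px 0 (N.pt D.nk 0)) =
      fun _ => eZ N D := funext fun _ => congrArg (fun τ => eq0 D.B D.G 0 0 0 - Mon62.px 0 τ) pt_zero
  exact z_of (funext₂ fun b y => congrFun (congrFun (W_refZ h h0 0) b) _) (O'_eq f a) (e ▸ L)

/-- **LEAF IX-CZ** -/
theorem cz (hL : LocE κ lam) : Crt72.CzStmt κ lam 8 := fun X hX => by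
  obtain ⟨d, d0, hd⟩ := Mon62.aff_Z X hX
  obtain ⟨d', d0', hd'⟩ := exists_sml
  have := hX.nd.δ0
  refine ⟨min (min d d') (min (1 / 16) (X.N.δ / 8)), by positivity, fun δ hδ O' β h h0 hO hc => ?_⟩
  obtain ⟨⟨h1, h2⟩, h3, h4⟩ : (δ < d ∧ δ < d') ∧ δ < 1 / 16 ∧ δ < X.N.δ / 8 := by
    simpa only [lt_min_iff] using hδ.2
  obtain ⟨f, rfl⟩ : ∃ f : Bool, O' = spO f univ := hO.elim (⟨true, ·⟩) (⟨false, ·⟩)
  exact ⟨hd δ ⟨hδ.1, h1⟩ _ β h h0 (clopen_spO f) hc, fun _ => locZ hL ⟨hX, hδ.1,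
    hd' δ ((abs_of_pos hδ.1).trans_le h2.le), h3.le, by linarith⟩ (by linarith) f h h0⟩

end Crest.Agent.X212.Ax1.Lc
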