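import Crest.Agent.X212.Nd18.Fj
import Crest.Agent.X212.Spl54.Fr

/-! Row 212, A-FR (helper1): the Fredholm hypotheses on the ends of a part with neck terms. -/

set_option autoImplicit false
set_option linter.unusedSectionVars false
noncomputable section
open scoped Manifold ContDiff Topology
open MeasureTheory Set Function Filter

namespace Crest.Agent.X212.Ax1.Fr
open An M Nd18 Mod61 Nk89 Cht98 Rf65 Rdc90 Pte3 Fk18 Eqv71
open Mon62 (Same px)

/-- **INPUT LOC**: the neck terms of an end -/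
def LocE (κ lam : Type) [Fintype κ] [Fintype lam] : Prop :=
  ∀ (Z : Mf 4) (T : Type) [NormedAddCommGroup T] [NormedSpace ℝ T]
    (𝔉 : Mod61.Fam Z.I Z.M (Option κ) lam T) δ (X : Ends 𝔉 δ) (o : Ref 𝔉) [o.B0] R r n m (a : X.A)
    (N : ND (X.P a).Y.M lam) t (K : Nk (X.P a).D 𝔉.B (𝔉.G t)) q h h0,
    X.Lit o R → X.Act a → t ∈ 𝔉.Q → N.OK (X.P a).D → δ ≤ 1 / 16 → 8 * δ ≤ N.δ → Same K (X.P a).K →
    (X.P a).Loc o 8 δ R (fun t => 𝔉.eq0 r n m t - px m (N.pt K q)) t h h0 (eZ N (X.P a).D)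

section gen
variable {E : Type} [NormedAddCommGroup E] [NormedSpace ℝ E] [FiniteDimensional ℝ E]
  [MeasurableSpace E] [BorelSpace E]
  {HM : Type} [TopologicalSpace HM] {I : ModelWithCorners ℝ E HM} [I.Boundaryless]
  {M : Type} [TopologicalSpace M] [ChartedSpace HM M] [IsManifold I ∞ M]
  [MeasurableSpace M] [T2Space M] [BorelSpace M] [SecondCountableTopology M]
  {κ lam : Type} [Fintype κ] [Fintype lam] {T : Type} [NormedAddCommGroup T] [NormedSpace ℝ T]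
  {𝔉 : Mod61.Fam I M (Option κ) lam T} {δ R : ℝ} {r n m k : ℕ} {o : Ref 𝔉}

/-- equations which agree on the end off a compact set -/
theorem loc_end (X : Ends 𝔉 δ) {a : X.A} {e e' : T → PtX M (Option κ) lam r n m} {t : T}
    {C : Set M} (hC : IsCompact C) (he : ∀ c, ∀ x ∈ (X.P a).K.ψ.target, x ∉ C →
      (e t).D c x = (e' t).D c x ∧ (e t).C c x = (e' t).C c x) {h h0 eZ}
    (L : (X.P a).Loc o k δ R e' t h h0 eZ) : (X.P a).Loc o k δ R e t h h0 eZ := fun b ρ hb ε hε => by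
  obtain ⟨a', ha⟩ := L b ρ hb ε hε
  obtain ⟨s, hs⟩ := X.exists_ht hC
  refine ⟨max a' (max s X.R), fun y y' ht h1 h2 h3 => (ha y y' ht h1 h2 h3).imp
    (Ixz30.NE_le (fun x hx => ?_)).trans (Ixz30.NE_le fun x hx => ?_).trans⟩ <;>
  have u := (X.okP a).ψ_mem (le_max_right s X.R) ((le_max_right _ _).trans_lt hx) <;>
  have k := he y.cfg _ u.1 (hs a _ (End.U_mono _ (le_max_left s X.R) u))
  · exact congrArg (· - _) (by simp only [vD, indicator, ht, k.1])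
  · exact congrArg (· - _) (by simp only [vC, indicator, ht, k.2])

theorem cyl_of {Y : XD κ lam} {β β' : Y.C} (F : ∀ f, f = true ∨ Y.D.Zr β → Fz κ lam k Y f β δ)
    {p : Prop} (hp : ¬p → Y.D.Zr β) (e : Y.D.Eqv β β') (h : Y.D.Adm β') (h0) :
    CylOK (O' := {_x | p}) (δ := δ) h h0 k (eZ Y.N Y.D) := by
  by_cases c : p
  · exact F true (.inl rfl) _ h _ h0 (eq_univ_of_forall fun _ => c) (by
      convert e using 1
      exact congrArg _ (Subsingleton.elim _ _))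
  · refine F false (.inr (hp c)) _ h _ h0 (eq_empty_of_forall_notMem fun _ => c) ?_
    convert e using 1
    exact congrArg₂ _ (funext (hp c)).symm (Subsingleton.elim _ _)

theorem zr_eqv {Y : XD κ lam} {β β' : Y.C} (e : Y.D.Eqv β β') (z : Y.D.Zr β) : Y.D.Zr β' :=
  fun y => let ⟨u, _, e⟩ := e
    (e.Φ (y, 0) trivial).trans ((congrArg (fun v => cs _ _ (u (y, 0) v)) (z y)).trans
      ((congrArg _ (map_zero _)).trans (cs_zero _ _)))

theorem fsum_sum {W W' ι : Type} [Fintype ι] (τ : W → Pt M ι lam r n) (q : W' →₀ ℝ)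
    (ty : W' → W →₀ ℝ) (c : Cfg M ι lam r) (x : M) :
    (fsum τ (q.sum fun w a => a • ty w)).D c x = (q.sum fun w a => a • (fsum τ (ty w)).D c x) ∧
    (fsum τ (q.sum fun w a => a • ty w)).C c x = q.sum fun w a => a • (fsum τ (ty w)).C c x :=
  ⟨(map_finsuppSum (Finsupp.linearCombination ℝ fun w => (τ w).D c x) q _).trans
      (Finsupp.sum_congr fun _ _ => map_smul _ _ _),
    (map_finsuppSum (Finsupp.linearCombination ℝ fun w => (τ w).C c x) q _).trans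
      (Finsupp.sum_congr fun _ _ => map_smul _ _ _)⟩

theorem smul_one' {Y : Type} (N : ND Y lam) : N.smul 1 = N := by
  cases N; simp [ND.smul]

end gen

variable {Wi : Type} {X : Mf 4} {A κ lam : Type} [Fintype A] [Fintype κ] [Fintype lam]
  [DecidableEq lam] {M : Mark X A κ} {W : World M} {N : ML M lam} {Λ : Lns W N}
  {A' h : Type} [Fintype A'] [DecidableEq A'] [Fintype h] {r n : ℕ}
  {J : Job Wi Λ A' h r n} {c : M.Cl} {σ : Cel A'} {s : A' → ℝ} {a : A}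

/-- the necks on the ends do not move -/
theorem same_K (hJ : J.OK) {d : Bool} {t t' : Prm A} (k : Act J.m c a (some d) t)
    (k' : Act J.m c a (some d) t') : Same (J.K c a _ t k) (J.K c a _ t' k') ∧
      (J.K c a _ t k).ψ.target = (J.K c a _ t' k').ψ.target := by
  have b := hJ.nk c a (some d) _ k
  have b0 := hJ.nk c a (some d) _ k'
  have e : t.2 a = t'.2 a := (k.2.1.2 k.2.2.2).trans (k'.2.1.2 k.2.2.2).symm
  refine ⟨⟨b.lo.trans b0.lo.symm, b.hi.trans b0.hi.symm, fun z hz => ?_⟩,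
    by rw [isNk_target k b, isNk_target k' b0, e]⟩
  have hz' : z.2 ∈ (J.K c a (some d) _ k).J := (J.K c a (some d) _ k).mem_src.1 hz
  refine (isNk_ψ k b hz').trans (Eq.trans (by rw [e]) (isNk_ψ k' b0 ?_).symm)
  rwa [isNk_J k b, e, ← isNk_J k' b0] at hz'

open Classical in
theorem dsum_end (hJ : J.OK) {d : Bool} (k : Act J.m c a (some d) (J.Θ s)) {z}
    (hz : z ∈ (J.K c a _ _ k).ψ.target) (hc : z ∉ thk W.toCaps c (J.Θ s) 1) {V : Type}
    [AddCommMonoid V] {f : ∀ j : A × Option Bool, J.Ac c s j → V}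
    (hf : ∀ j l, z ∉ (J.K c j.1 j.2 _ l).ψ.target → f j l = 0) :
    (∑ j, if l : J.Ac c s j then f j l else 0) = f (a, some d) k := by
  refine (Finset.sum_eq_single (a, some d) (fun j _ e => ?_) fun e => (e (Finset.mem_univ _)).elim
    ).trans (dif_pos k)
  split_ifs with l
  · refine hf j l fun u => ?_
    obtain ⟨x, _ | b⟩ := j
    · exact hc (Spl54.nk_thk hJ k.2.2.1 l u)
    · exact disjoint_left.1 ((endIn_J (T := ℝ) (θ := fun _ => s) hJ k.2.1 k.2.2.1 contDiff_const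
        isClopen_univ isClopen_univ subset_rfl).dis (i := (⟨x, l.2.2.2, l.1⟩, b))
          (j := (⟨a, k.2.2.2, k.1⟩, d)) fun e' => e (congrArg (fun i : Ed c => (i.1.1, some i.2)) e'))
        u hz
  · rfl

/-- **the perturbations on the ends** -/
theorem τ_end (hJ : J.OK) (hσ : σ ∈ J.𝒦) (hs : J.Ov σ c s) (q : Wi →₀ ℝ) {d : Bool}
    (k : Act J.m c a (some d) (J.Θ s)) (hν : J.ν a s = 1) : ∃ C, IsCompact C ∧ ∀ x,
      ∀ z ∈ (J.K c a _ _ k).ψ.target, z ∉ C →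
      (J.τ c q s).D x z = ((J.xs a).N.pt (J.K c a _ _ k) (q.sum fun w e => e • (J.xs a).ty w) :
        Pt _ _ _ r n).D x z ∧
      (J.τ c q s).C x z = ((J.xs a).N.pt (J.K c a _ _ k) (q.sum fun w e => e • (J.xs a).ty w) :
        Pt _ _ _ r n).C x z := by
  have f : ∀ w, ∃ K, IsCompact K ∧ ∀ (x : Cfg _ _ _ r), ∀ z ∉ K,
      ((An.tmP (J.B c) (J.G c s).F ((J.tp c).tm (J.tw w))).smul (J.co w s)).D x z = 0 ∧
      ((An.tmP (J.B c) (J.G c s).F ((J.tp c).tm (J.tw w))).smul (J.co w s)).C x z = 0 := fun w => by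
    by_cases e : J.co w s = 0
    · exact ⟨∅, isCompact_empty, fun _ _ _ => by simp [Pt.smul, e]⟩
    · obtain ⟨_, k⟩ := hJ.tw_in hσ hs e
      obtain ⟨K, k1, -, k3⟩ := k.supp (ι := Option κ)
      exact ⟨K, k1, fun x z hz => by simp [Pt.smul, An.tmP, k3 x _ _ z hz]⟩
  choose K k1 k2 using f
  refine ⟨_, (q.support.isCompact_biUnion fun w _ => k1 w).union
    (isCompact_thk W.toCaps c (J.Θ s) one_pos (by norm_num)), fun x z hz hc => ?_⟩
  have h1 : z ∉ thk W.toCaps c (J.Θ s) 1 := fun e => hc (.inr e)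
  have b := fun w (hw : w ∈ q.support) => k2 w x z fun e => hc (.inl (mem_biUnion hw e))
  have u := fun (j : A × Option Bool) (l : J.Ac c s j) (e : z ∉ (J.K c j.1 j.2 _ l).ψ.target) =>
    Wrd81.q1_off (n := n) ((J.xs j.1).N.smul (J.ν j.1 s)) _ x e
  have v : ∀ w (j : A × Option Bool) (l : J.Ac c s j), z ∉ (J.K c j.1 j.2 _ l).ψ.target →
      (fsum (fun T => (J.xs j.1).N.q2 (J.K c j.1 j.2 _ l) T.1) (J.ν j.1 s • (J.xs j.1).ty w) :
        Pt _ _ _ r n).D x z = 0 ∧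
      (fsum (fun T => (J.xs j.1).N.q2 (J.K c j.1 j.2 _ l) T.1) (J.ν j.1 s • (J.xs j.1).ty w) :
        Pt _ _ _ r n).C x z = 0 := fun w j l e => by
    simp [fsum, Finsupp.sum, Wrd81.q2_off (n := n) (J.xs j.1).N _ x e]
  have g := fsum_sum (fun T : YW _ _ => ((J.xs a).N.q2 (J.K c a _ _ k) T.1 : Pt _ _ _ r n)) q
    (J.xs a).ty x z
  refine ⟨congrArg₂ (· + ·) ((dsum_end hJ k hz h1 fun j l e => (u j l e).1).trans ?_)
      (.trans (Finset.sum_congr rfl fun w hw => congrArg (q w • ·) ((congrArg₂ (· + ·) (b w hw).1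
        (dsum_end hJ k hz h1 fun j l e => (v w j l e).1)).trans ?_)) g.1.symm),
    congrArg₂ (· + ·) ((dsum_end hJ k hz h1 fun j l e => (u j l e).2).trans ?_)
      (.trans (Finset.sum_congr rfl fun w hw => congrArg (q w • ·) ((congrArg₂ (· + ·) (b w hw).2
        (dsum_end hJ k hz h1 fun j l e => (v w j l e).2)).trans ?_)) g.2.symm)⟩ <;>
  simp only [hν, smul_one', one_smul, zero_add]

variable {p : Prt A A' h} {U : Type} [Fintype U] {δ : ℝ} {b : Bp J c}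

/-- **LOC at the ends of a chart** -/
theorem loc (hL : LocE κ (lam ⊕ lam)) (H : PG J c σ p) (hb : J.Ov σ c b.s) {E : EC b p U δ}
    (eo : E.OK) (b0 : E.o.b = 0) (d2 : δ ≤ 1 / 16) (q : Wi →₀ ℝ) {t} (ht : t ∈ (b.F p U δ).Q)
    {i : Ed c} (hi : i ∈ EdP c p.P) (hδ : 8 * δ ≤ (J.xs i.1).N.δ) (k k0) :
    (en E i).Loc E.o 8 δ E.R (EC.tot b p U δ q) t k k0 (eZ (J.xs i.1).N (J.xs i.1).D) := by
  have : E.o.B0 := ⟨b0⟩
  let Y := H.ends U b eo.d0 eo.d1
  have o := H.ov hb ht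
  have l : Act J.m c i.1 (some i.2) (J.Θ (b.θ p U t)) :=
    ⟨i.1.2.2, H.ok.memBr H.mem o, H.ok.memO H.mem o, i.1.2.1⟩
  have S := same_K H.ok l (Add46.act b i)
  obtain ⟨C, c1, c2⟩ := τ_end H.ok H.mem o q l ((Mon62.jl_of (δ := δ) H hb).ν_one i.1.2 ht)
  refine loc_end Y (a := i) c1 (fun x z hz hc => ?_) (hL _ _ _ δ Y E.o E.R r n _ i (J.xs i.1).N t
    (J.K c i.1 _ _ l) (q.sum fun w e => e • (J.xs i.1).ty w) k k0 ⟨eo.R5, eo.lit⟩
    ((H.act_iff _ _).2 hi) ht (H.ok.xs _).2 d2 hδ S.1)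
  obtain ⟨a1, a2, -⟩ := tot_ev (b := b) (δ := δ) (t := t) (q := q) x
  have e := c2 x z (S.2.symm ▸ hz) hc
  rw [a1, a2, Cfg.eD, Cfg.eC, e.1, e.2]
  exact ⟨rfl, rfl⟩

variable (J c a) in
/-- **LEAF A-FR** -/
theorem fr (hI : InvStmt κ (lam ⊕ lam) 8) (hL : LocE κ (lam ⊕ lam))
    (hW : ∀ x, WlStmt (J.xs x).D) : FrA J c a := fun M => by
  obtain ⟨C⟩ := M.cd
  have k0 : ∀ᶠ δ in 𝓝[>] (0 : ℝ), ∀ x, δ ∈ Ioo 0 ((J.xs x).N.δ / 8) :=
    eventually_all.2 fun x => Ioo_mem_nhdsGT (div_pos (M.ok.xs x).2.δ0 (by norm_num))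
  have k1 : ∀ᶠ δ in 𝓝[>] (0 : ℝ), ∀ o f, f = true ∨ (J.xs a).D.Zr (C.β o) →
      Fz κ (lam ⊕ lam) 8 (Add46.jX J a) f (C.β o) δ :=
    eventually_all.2 fun o => eventually_all.2 fun f => eventually_imp_distrib_left.2 fun e =>
      (hI _ (Add46.jX_ok M.ok a) f _ ⟨C.crit o, C.nd o, C.irr o⟩ e).mono fun _ k => k.1
  have k2 : ∀ᶠ δ in 𝓝[>] (0 : ℝ), ∀ x ∈ cylW c, x ≠ a → ∀ β f, Bs (J.xs x).D β →
      Fz κ (lam ⊕ lam) 8 (Add46.jX J x) f β δ :=
    eventually_all.2 fun x => eventually_imp_distrib_left.2 fun hx =>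
      eventually_imp_distrib_left.2 fun e =>
        let ⟨_, h1, h2⟩ := Inv14.pInv κ (lam ⊕ lam) (k := 8) (by norm_num) _ (Add46.jX_ok M.ok x)
          (M.nil x e).1 ⟨0, M.py x hx e⟩
        mem_of_superset (Ioc_mem_nhdsGT h1) fun δ hδ β f hβ => (h2 δ hδ β f hβ).1
  filter_upwards [k0, k1, k2, Ioc_mem_nhdsGT (show (0 : ℝ) < 1 / 16 by norm_num)] with δ k4 k1 k2 k3
  refine .of fun _ σ p H b E g q t ht i hi k k0 =>
    ⟨?_, loc hL H g.ov g.ok g.b0 k3.2 q ht hi (by linarith [(k4 i.1).2]) k k0⟩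
  have hD := (M.ok.xs i.1).1.yd
  have cr := g.crit i hi
  have ad : (J.xs i.1).D.Adm (E.β i) := ⟨cr.sol.toAdm, cr.tmp⟩
  have e : (J.xs i.1).D.Eqv (E.β i) ((en E i).sl E.o (E.R + 1) t) := by
    have u : E.μ i = none := by cases E.μ i with | none => rfl | some u => exact u.elim
    have v : E.lim i t = E.β i := by
      rw [EC.lim, EC.lm, u, Option.elim_none, zero_smul, Rd78.bh_zero]
    exact v ▸ (⟨_, _, g.ok.mov i hi t ht⟩ : (J.xs i.1).D.Eqv (E.lim i t) _)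
  have z : ¬(en E i).U E.R ⊆ (b.F p Empty δ).Om' → (J.xs i.1).D.Zr (E.β i) := fun u =>
    g.zr i hi fun v => u fun x hx => H.ok.end_sub (Add46.act b i)
      (fun π w => H.pok.pc π (H.pok.sub w)) v hx.1
  by_cases u : i.1.1 = a
  · obtain ⟨⟨x, hx⟩, d⟩ := i
    obtain rfl : x = a := u
    obtain ⟨o, ho⟩ := C.cov _ cr
    have ao : (J.xs x).D.Adm (C.β o) := ⟨(C.crit o).sol.toAdm, (C.crit o).tmp⟩
    exact cyl_of (Y := Add46.jX J x) (k1 o) (fun v => zr_eqv (Y := Add46.jX J x) ho (z v))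
      (IsoOn.trans hD.B hD.G isOpen_univ (ad0 ao.adm) (ad0 ad.adm) (ad0 k.adm)
        (Pnt66.eqv_symm hD ad ao ho) e) k k0
  · exact cyl_of (Y := Add46.jX J i.1) (fun f _ => k2 _ i.1.2 u _ f
      ((hW _ _ 0 hD (M.nil _ u).1 (M.py _ i.1.2 u)).1 _ cr)) z e k k0

end Crest.Agent.X212.Ax1.Fr
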