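import Crest.Agent.X212.Gl67.Brg

/-!
# Row 212, GL-BOOT (helper1): the Banach model of a side is explicit; elliptic regularity
-/

set_option autoImplicit false
set_option linter.unusedSectionVars false
noncomputable section
open scoped Manifold ContDiff Topology InnerProductSpace
open MeasureTheory Set Function Filter

namespace Crest.Agent.X212.Ax1.Gb
open An An.Pre Sob92 Ell97 Prm93 Mod61 Map77
open Gl67 (Sid Cm Eqn PP g0)

variable {E : Type} [NormedAddCommGroup E] [NormedSpace ℝ E] [FiniteDimensional ℝ E]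
  [MeasurableSpace E] [BorelSpace E]
  {HM : Type} [TopologicalSpace HM] {I : ModelWithCorners ℝ E HM} [I.Boundaryless]
  {M : Type} [TopologicalSpace M] [ChartedSpace HM M] [IsManifold I ∞ M]
  [MeasurableSpace M] [T2Space M] [BorelSpace M] [SecondCountableTopology M]
  {ι lam h : Type} [Fintype ι] [Fintype lam] [Fintype h]
  {T : Type} [NormedAddCommGroup T] [NormedSpace ℝ T] {𝔉 : Fam I M ι lam T} {j k r n m : ℕ}

section ref
variable {o : Ref 𝔉} {Fs : T → Fr I M ι} {e : T → PtX M ι lam r n m}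

variable (o k) in
/-- a section with parameters as a point of the model -/
def Lc (z : EuclideanSpace ℂ (Fin r)) (t : T) (x : 𝔉.F0.H (k + 1) (bd o).pC) : o.C r k :=
  (fH _ _ o.P1 o.Pp x, sH _ _ o.P1 o.Pp x, z, t)

variable {z : EuclideanSpace ℂ (Fin r)} {t : T}

theorem cont_Lc : Continuous (Lc k o z t) := by unfold Lc; fun_prop

theorem jC_Lc (x : 𝔉.F0.H (k + 1) (bd o).pC) : jC o r k (Lc k o z t x) = x := iH_add x

theorem sC_Lc (x : 𝔉.F0.H (k + 1) (bd o).pC) :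
    sC o r k t (Lc k o z t x) = SH (k + 1) o (𝔉.S t) x := by
  rw [sC, ContinuousLinearMap.comp_apply, jC_Lc]

theorem iC_Lc (hj : j ≤ k) (x : 𝔉.F0.H (k + 1) (bd o).pC) :
    o.iC r j k (Lc k o z t x) = Lc j o z t (𝔉.F0.incl (k + 1) (j + 1) _ x) :=
  Prod.ext (incl_fH (by omega) x) (Prod.ext (incl_sH (by omega) x) (iC_z _))

/-- the form part -/
def sA (w : Sec I (bd o).pC) : Sec I o.P1 :=
  ⟨fun x => fa (w.1 x), RepT_mem (rep_fH (F := 𝔉.F0.toPre) (k := 0)) w⟩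

/-- the spinor part -/
def sP (w : Sec I (bd o).pC) : Sec I o.Pp :=
  ⟨fun x => fp (w.1 x), RepT_mem (rep_sH (F := 𝔉.F0.toPre) (k := 0)) w⟩

variable (o) in
/-- a smooth section with parameters as a smooth point -/
def pw (H : 𝔉.OK) (z : EuclideanSpace ℂ (Fin r)) (ht : t ∈ 𝔉.Q) (w : Sec I (bd o).pC) : Pnt o r :=
  ⟨(sA w).1, (sP w).1, z, t, sec_hs (sup0 H) _, sec_hs (sup0 H) _, ht⟩

theorem pt_pw (H : 𝔉.OK) (hk : 3 ≤ k) (ht : t ∈ 𝔉.Q) (w : Sec I (bd o).pC) :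
    (pw o H z ht w).pt k = Lc k o z t (𝔉.F0.toH _ _ w) := by
  have e1 := ofV_sec (sup0 H) (by omega : 4 ≤ k + 1) (sA w)
  have e2 := ofV_sec (sup0 H) (by omega : 4 ≤ k + 1) (sP w)
  have e3 := RepT_toH' (rep_fH (F := 𝔉.F0.toPre) (k := k + 1)) w (sA w) rfl
  have e4 := RepT_toH' (rep_sH (F := 𝔉.F0.toPre) (k := k + 1)) w (sP w) rfl
  exact Prod.ext (e1.trans e3.symm) (Prod.ext (e2.trans e4.symm) rfl)

variable (o k) in
/-- the gauge row with a term of order zero -/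
def Rw (Fs : T → Fr I M ι) (D : M → CL (Cf ι (Fin o.m.N)) o.m.A) (t : T) :
    𝔉.F0.H (k + 1) (bd o).pC →L[ℝ] 𝔉.F0.H k o.Pg :=
  (bd o).RR 𝔉.F0.toPre (Fs t) k (u0 o t) ∘L SH (k + 1) o (𝔉.S t) +
    𝔉.F0.incl (k + 1) k o.Pg ∘L 𝔉.F0.mulH (k + 1) (bd o).pC o.Pg D

variable {D : M → CL (Cf ι (Fin o.m.N)) o.m.A}

theorem Rw_apply (x : 𝔉.F0.H (k + 1) (bd o).pC) : Rw k o Fs D t x =
    (bd o).RR 𝔉.F0.toPre (Fs t) k (u0 o t) (SH (k + 1) o (𝔉.S t) x) +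
      𝔉.F0.incl (k + 1) k o.Pg (𝔉.F0.mulH (k + 1) (bd o).pC o.Pg D x) := by
  rw [Rw, _root_.add_apply, ContinuousLinearMap.comp_apply, ContinuousLinearMap.comp_apply]

variable (H : Adj 𝔉 Fs) (ht : t ∈ 𝔉.Q)
include H ht

theorem incl_RS (hj : j ≤ k) (x : 𝔉.F0.H (k + 1) (bd o).pC) :
    𝔉.F0.incl k j o.Pg ((bd o).RR 𝔉.F0.toPre (Fs t) k (u0 o t) (SH (k + 1) o (𝔉.S t) x)) =
      (bd o).RR 𝔉.F0.toPre (Fs t) j (u0 o t) (SH (j + 1) o (𝔉.S t) (𝔉.F0.incl _ _ _ x)) := by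
  have K := H.hy o ht
  rw [← incl_SH H.toOK (by omega) ht]
  exact (K.toTw.incl (K.nc_row ((sb_u0 o H.toOK).cb _ ht)) hj _ :)

variable (hD : 𝔉.F0.Cb D) (mD : Maps (bd o).pC o.Pg D)
include hD mD

theorem incl_Rw (hj : j ≤ k) (x : 𝔉.F0.H (k + 1) (bd o).pC) :
    𝔉.F0.incl k j o.Pg (Rw k o Fs D t x) = Rw j o Fs D t (𝔉.F0.incl _ _ _ x) := by
  rw [Rw_apply, Rw_apply, map_add, incl_RS H ht hj, incl_incl k.le_succ hj,
    ← Rep_incl (rep_mulH hD mD) (rep_mulH hD mD) (by omega : j + 1 ≤ k + 1) (by omega),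
    incl_incl (by omega) j.le_succ]

theorem val_Rw (hk : 4 ≤ k) (w : Sec I (bd o).pC) (x : M) :
    𝔉.F0.val k o.Pg (Rw k o Fs D t (𝔉.F0.toH _ _ w)) x =
      (((bd o).d0 (Fs t) (u0 o t)).adj (Fs t)).app (Fs t) (fun x => SC o (𝔉.S t) x (w.1 x)) x +
        D x (w.1 x) := by
  have K := H.hy o ht
  have S := sup0 H.toOK
  have e := congrFun (K.toTw.val (K.nc_row ((sb_u0 o H.toOK).cb _ ht)) hk
    (SH (k + 1) o (𝔉.S t) (𝔉.F0.toH _ _ w))) x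
  have e1 : 𝔉.F0.val (k + 1) (bd o).pC (SH (k + 1) o (𝔉.S t) (𝔉.F0.toH _ _ w)) =
      fun x => SC o (𝔉.S t) x (w.1 x) := funext fun x => by
    rw [val_SH H.toOK (by omega) ht, val_toH S (by omega)]
  rw [Rw_apply, val_add, Pi.add_apply, val_incl S hk k.le_succ, val_mulH S (by omega) hD mD,
    val_toH S (by omega)]
  exact congrArg (· + _) (e.trans (congrArg (fun u => (Fs t).op _ _ u x) e1))

/-- one step -/
theorem step (he : Aff o Fs r n m e) (hk : 7 ≤ k) (β : Sec I (bd o).pC) (g : Sec I o.Pg)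
    {f : o.C r k → o.Y n m k} (hf : RepF e f) {x : 𝔉.F0.H (k + 1) (bd o).pC}
    (h1 : (f (Lc k o z t (x + 𝔉.F0.toH _ _ β))).1 = 0)
    (h2 : (f (Lc k o z t (x + 𝔉.F0.toH _ _ β))).2.1 = 0)
    (h3 : Rw k o Fs D t x = 𝔉.F0.toH _ _ g) : x ∈ range (𝔉.F0.incl (k + 2) (k + 1) (bd o).pC) := by
  obtain ⟨c, g1, g2⟩ := he k hk
  have hv : Lc k o z t (x + 𝔉.F0.toH _ _ β) ∈ o.U r k := ht
  have u := (sb_u0 o H.toOK).cb _ ht
  have e0 := repF_eqOn H.toOK (by omega) (by omega) hf (H.repF g1 g2) hv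
  have e1 := congrArg (sY o n m k) e0
  rw [sY_apply, h1, h2, map_zero, map_zero, add_zero, map_add, ← incl_sY k.le_succ, f0, sY_jY,
    hC_eq] at e1
  have e2 : (bd o).RR 𝔉.F0.toPre (Fs t) k (u0 o t) (SH (k + 1) o (𝔉.S t) (x + 𝔉.F0.toH _ _ β)) =
      𝔉.F0.incl (k + 1) k o.Pg (𝔉.F0.toH _ _ g - 𝔉.F0.mulH (k + 1) (bd o).pC o.Pg D x +
        (bd o).RR 𝔉.F0.toPre (Fs t) (k + 1) (u0 o t) (SH (k + 2) o (𝔉.S t) (𝔉.F0.toH _ _ β))) := by
    rw [map_add, map_add, map_add, map_sub, incl_RS H ht k.le_succ, incl_toH k.le_succ,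
      incl_toH (by omega), ← h3, Rw_apply, add_sub_cancel_right]
  obtain ⟨y, hy⟩ := (H.hy o ht).boot u u (x := SH (k + 1) o (𝔉.S t) (x + 𝔉.F0.toH _ _ β))
    ⟨_, e2.symm⟩ ⟨_, (map_neg _ _).trans ((neg_eq_of_add_eq_zero_left e1.symm).trans
      (congrArg _ (sC_Lc _)))⟩
  refine ⟨SH (k + 2) o (𝔉.Si t) y - 𝔉.F0.toH _ _ β, ?_⟩
  rw [map_sub, incl_toH (by omega), Rep_incl (rep_SH' o H.toOK ht) (rep_SH' o H.toOK ht)
    (k + 1).le_succ (k + 1).le_succ, hy]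
  exact sub_eq_of_eq_add ((SE (k + 1) o H.toOK ht).symm_apply_apply _)

/-- **elliptic regularity** -/
theorem reg (he : Aff o Fs r n m e) (hk : 7 ≤ k) (β : Sec I (bd o).pC) (g : Sec I o.Pg)
    {f : o.C r k → o.Y n m k} (hf : RepF e f) {x : 𝔉.F0.H (k + 1) (bd o).pC}
    (h1 : (f (Lc k o z t (x + 𝔉.F0.toH _ _ β))).1 = 0)
    (h2 : (f (Lc k o z t (x + 𝔉.F0.toH _ _ β))).2.1 = 0)
    (h3 : Rw k o Fs D t x = 𝔉.F0.toH _ _ g) : 𝔉.F0.Cb (𝔉.F0.val (k + 1) (bd o).pC x) := by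
  have key : ∀ j, k ≤ j → ∃ y, 𝔉.F0.incl (j + 1) (k + 1) (bd o).pC y = x := fun j hj => by
    induction j, hj using Nat.le_induction with
    | base => exact ⟨x, incl_self x⟩
    | succ j hj ih =>
      obtain ⟨y, rfl⟩ := ih
      obtain ⟨c, hc⟩ := H.rp he j (hk.trans hj)
      have e := hf.level H.toOK (by omega) (by omega) hj hj hc
        (v := Lc j o z t (y + 𝔉.F0.toH _ _ β)) ht
      rw [iC_Lc hj, map_add, incl_toH (by omega)] at e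
      obtain ⟨e1, e2, -⟩ := snd_snd (iY_apply (k := k) (c (Lc j o z t (y + 𝔉.F0.toH _ _ β))))
      obtain ⟨y', rfl⟩ := step H ht hD mD he (hk.trans hj) β g hc
        (incl_inj 𝔉.F0 hj _ (by rw [← e1, e, h1, map_zero]))
        (incl_inj 𝔉.F0 hj _ (by rw [← e2, e, h2, map_zero]))
        (incl_inj 𝔉.F0 hj _ (by rw [incl_Rw H ht hD mD hj, h3, incl_toH hj]))
      exact ⟨y', (incl_incl (by omega) (by omega) _).symm⟩
  refine Cb_val (sup0 H.toOK) (by omega) fun j hj => ?_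
  obtain ⟨i, rfl⟩ : ∃ i, j = i + 1 := ⟨j - 1, by omega⟩
  exact key i (by omega)

omit hD mD in
/-- a continuous map with the right values at smooth points is the model -/
theorem eq_f (hk : 4 ≤ k) (β : Sec I (bd o).pC) {f : o.C r k → o.Y n m k} (hf : RepF e f)
    {G : 𝔉.F0.H (k + 1) (bd o).pC → o.Y n m k} (hG : Continuous G)
    (hv : ∀ w, RepE e (pw o H.toOK z ht (w + β)) (G (𝔉.F0.toH _ _ w)))
    (x : 𝔉.F0.H (k + 1) (bd o).pC) : G x = f (Lc k o z t (x + 𝔉.F0.toH _ _ β)) := by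
  induction x using H_ind with
  | hP =>
    exact isClosed_eq hG (hf.1.continuousOn.comp_continuous
      (cont_Lc.comp (continuous_id.add continuous_const)) fun _ => ht)
  | h w =>
    rw [← map_add, ← pt_pw H.toOK (by omega) ht]
    exact repE_unique H.toOK hk (hv w) (hf.2 _)

theorem eq_Rw (hk : 4 ≤ k) {G : 𝔉.F0.H (k + 1) (bd o).pC → 𝔉.F0.H k o.Pg} (hG : Continuous G)
    (hv : ∀ (w : Sec I (bd o).pC) x, 𝔉.F0.val k o.Pg (G (𝔉.F0.toH _ _ w)) x =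
      (((bd o).d0 (Fs t) (u0 o t)).adj (Fs t)).app (Fs t) (fun x => SC o (𝔉.S t) x (w.1 x)) x +
        D x (w.1 x)) (x : 𝔉.F0.H (k + 1) (bd o).pC) : G x = Rw k o Fs D t x := by
  induction x using H_ind with
  | hP => exact isClosed_eq hG (ContinuousLinearMap.continuous _)
  | h w =>
    exact val_injective (sup0 H.toOK) hk (funext fun x =>
      (hv w x).trans (val_Rw H ht hD mD hk w x).symm)

/-- the same for equal bundles -/
theorem reg' (he : Aff o Fs r n m e) (hk : 7 ≤ k) (hO : 𝔉.Om = univ ∧ 𝔉.Om' = univ)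
    {pC Pm P2 Pg} (e1 : (bd o).pC = pC) (e2 : o.Pm = Pm) (e3 : o.P2 = P2) (e4 : o.Pg = Pg)
    (β : Sec I pC) (g : Sec I Pg) {W : (M → Cf ι (Fin o.m.N)) → o.m.Cn}
    {Φ : (M → Cf ι (Fin o.m.N)) → M → o.m.V} (hW : ∀ u, W u = o.W t fun x => fa (u x + β.1 x))
    (hΦ : ∀ u, Φ u = o.Φ0 + fun x => fp (u x + β.1 x))
    {G : 𝔉.F0.H (k + 1) pC → 𝔉.F0.H k Pm × 𝔉.F0.H k P2 × (Fin n → ℂ) × (Fin m → ℝ)}
    {G' : 𝔉.F0.H (k + 1) pC → 𝔉.F0.H k Pg} (hG : Continuous G) (hG' : Continuous G')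
    (v : ∀ w : Sec I pC, 𝔉.F0.val k Pm (G (𝔉.F0.toH _ _ w)).1 = (e t).D ⟨o.m, W w.1, Φ w.1, z⟩ ∧
      𝔉.F0.val k P2 (G (𝔉.F0.toH _ _ w)).2.1 = (e t).C ⟨o.m, W w.1, Φ w.1, z⟩ ∧
      (G (𝔉.F0.toH _ _ w)).2.2 = ((e t).S ⟨o.m, W w.1, Φ w.1, z⟩, (e t).R ⟨o.m, W w.1, Φ w.1, z⟩))
    (v' : ∀ (w : Sec I pC) x, 𝔉.F0.val k Pg (G' (𝔉.F0.toH _ _ w)) x =
      (((bd o).d0 (Fs t) (u0 o t)).adj (Fs t)).app (Fs t) (fun x => SC o (𝔉.S t) x (w.1 x)) x +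
        D x (w.1 x)) {x : 𝔉.F0.H (k + 1) pC} (h1 : G x = 0) (h2 : G' x = 𝔉.F0.toH _ _ g) :
    Sm I (𝔉.F0.val (k + 1) pC x) := by
  subst e1 e2 e3 e4
  obtain rfl := funext hW
  obtain rfl := funext hΦ
  obtain ⟨f, hf⟩ := H.rp he k hk
  have a := (eq_f H ht (by omega) β hf hG (fun w => ⟨by
      rw [hO.2, indicator_univ]; exact (v w).1, by rw [hO.1, indicator_univ]; exact (v w).2.1,
      congrArg Prod.fst (v w).2.2, congrArg Prod.snd (v w).2.2⟩) x).symm.trans h1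
  exact (reg H ht hD mD he hk β g hf (congrArg Prod.fst a) (congrArg (·.2.1) a)
    ((eq_Rw H ht hD mD (by omega) hG' v' x).symm.trans h2)).choose_spec.1

end ref

/-! ### sides -/

variable {U Up R : Type} [NormedAddCommGroup U] [NormedSpace ℝ U] [NormedAddCommGroup Up]
  [NormedSpace ℝ Up] [NormedAddCommGroup R] [NormedSpace ℝ R] {N : ℕ} {Jc : En (Fin N)}
  {s : Sid 𝔉 N Jc U Up R} {c : Cm N r h R} {ct : h → Cut M lam} {ε : Eqn 𝔉 r n m ct} {δ : ℝ}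

theorem okw (H : s.OK) (hδ : 0 ≤ δ) : (s.wf δ).OK :=
  let ⟨_, hC⟩ := Cb_unif H.ch
  Nk89.ok_wtF H.fam (s.sm_pr δ 0 0 0) (fun _ => Gl67.pr_nonneg hδ le_rfl)
    fun a => ⟨_, Gl67.CBs_pr s.sh hC a⟩

/-- the reference object over the weighted family -/
@[reducible] def ow (H : s.OK) (δ : ℝ) : Ref (s.wf δ) where
  m := s.md
  A0 := s.A0
  Φ0 := s.Φ0
  ok := H.ok
  conn := H.conn
  cp := Sid.wtP.Cb.2 H.cp
  cρ a := Sid.wtP.Cb.2 (H.cρ a)
  cj := Sid.wtP.Cb.2 H.cj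
  cA a := Sid.wtP.Cb.2 (H.cA a)
  cΦ := Sid.wtP.Cb.2 H.cΦ
  pos := (s.o H).pos

instance (H : s.OK) (δ : ℝ) : (ow H δ).B0 := ⟨rfl⟩

/-- the frames -/
abbrev Fg (𝔉 : Fam I M ι lam T) (t : T) : Fr I M ι := (𝔉.G t).F

variable (s) in
/-- the drift -/
def Dr (x : M) : CL (Cf ι (Fin N)) (HS (Fin N)) := ∑ a, s.dr a x • (s.Pg x ∘L Map77.pj _ a ∘L fa)

theorem Dr_apply (x : M) (v : Cf ι (Fin N)) : Dr s x v = ∑ a, s.dr a x • s.Pg x (fa v a) := by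
  simp [Dr]

variable (H : s.OK) (hδ : 0 ≤ δ)
include H hδ

theorem cb_Dr : (s.wf δ).F0.Cb (Dr s) :=
  Cb_sum _ fun a _ => Cb_smul (Sid.wtP.Cb.2 (H.cd a))
    (Cb_comp (cb_Pg (ow H δ) (okw H hδ)) (Cb_const _))

theorem maps_Dr : Maps (bd (ow H δ)).pC (ow H δ).Pg (Dr s) := fun x v _ => by
  have := (ok_bd (ow H δ) (okw H hδ)).g.idem x
  rw [Dr_apply, map_sum]
  exact Finset.sum_congr rfl fun a _ => (map_smul _ _ _).trans (congrArg _ (this _))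

variable [CompactSpace M]

omit hδ in
/-- the moving limit as a section -/
def bt (u : U) : Sec I s.bd.pC :=
  ⟨fun x => i1 _ (Eu (Fin N)) (s.b x u),
    (Cb_clm (i1 _ (Eu (Fin N))) (Cb_app H.cb (Cb_const u))).choose_spec.1,
    .of_compactSpace _, fun x => maps_i1 x _ (by
      show idx _ (𝔉.Om.indicator s.md.pg x) _ = _
      rw [H.om.1, indicator_univ]; exact H.pb x u)⟩

/-- **BOOT** for a side -/
theorem boot {G : s.EE r ct δ k → s.Y1 n m ct δ k × s.Y2 h δ k} (hG : s.Rep c ε δ k G)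
    {v : s.EE r ct δ k} (hv : v ∈ s.dom δ k) (he : Aff (ow H δ) (Fg 𝔉) r n m ε.e) (hk : 7 ≤ k)
    (h0 : G v ∈ s.Rs n m ct δ k) : ∃ w p, v = s.sp δ k w p := by
  obtain ⟨h1, g, h2⟩ := h0
  obtain ⟨x, q⟩ := v
  have cG : Continuous fun x => G (x, q) :=
    hG.sm.continuousOn.comp_continuous (by fun_prop) fun _ => hv
  have sm := reg' (o := ow H δ) (z := c.z0 + q.2.2.1) (adj_closed (okw H hδ)) hv (cb_Dr H hδ)
    (maps_Dr H hδ) he hk H.om (pC := s.bd.pC) (Pm := s.Pm) (P2 := s.P2) (Pg := s.Pg) rfl rfl rfl rfl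
    (bt H q.2.1) g (W := fun u => (s.cfg c u (s.emb q)).W) (Φ := fun u => (s.cfg c u (s.emb q)).Φ)
    (fun u => by rw [Ref.W, Ref.A_eq]; simp only [map_add fa]; rfl)
    (fun u => by simp only [map_add, bt, s2_i1, add_zero]; rfl) cG.fst.fst cG.snd.fst
    (fun w => have a := hG.val w q hv; ⟨a.D, a.C, congrArg Prod.fst a.e⟩)
    (fun w x => (congrFun (hG.val w q hv).g x).trans (by rw [u0, Ref.A_eq, Dr_apply]; rfl))
    (x := x) (congrArg Prod.fst h1) h2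
  obtain ⟨w, -, hw⟩ := H.eq_toH hδ (k := k + 1) (by omega) rfl sm
  exact ⟨w, q, Prod.ext hw rfl⟩

end Crest.Agent.X212.Ax1.Gb
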