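import Crest.Agent.X212.Ax1.Top
import Crest.Agent.X212.Gls64.Defs

/-!
# Row 212, GL-ISO and GL-LIFT (helper1)
-/

set_option autoImplicit false
set_option linter.unusedSectionVars false
noncomputable section
open scoped Manifold ContDiff Topology InnerProductSpace
open MeasureTheory Set Function Filter

namespace Crest.Agent.X212.Ax1
open An An.Pre Sw Sob92 Map77.S Pb50
open M (Mf)
open Grs81 (sup)

variable {κ lam ν : Type} [Fintype κ] [Fintype lam] [Fintype ν] [DecidableEq ν] {X : Mf 4}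
  {nc nr : ℕ} {N : Type} [Fintype N] {d : Dt κ lam ν} {ty : N → d.𝓔}
  {T : Type} [NormedAddCommGroup T] [NormedSpace ℝ T] [FiniteDimensional ℝ T]
  {s : Pz X 0 fun i => d.e (ty i)} {σ : Cel s nc nr T} {k : ℕ} (hM : Md σ) (hk : 7 ≤ k)
include hM hk

theorem row_eq (y : σ.Pnt) {r : σ.C k →L[ℝ] HR s k} (h : ∀ v, s.bg.F.val k _ (r v) =
    σ.gro y.1.1 y.1.2 (s.bg.F.val _ _ v.1) (s.bg.F.val _ _ v.2.1)) : r = row σ k (σ.pt k y) :=
  ContinuousLinearMap.ext fun v =>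
    val_injective (sup hM.ok.site.bg) (by omega) ((h v).trans ((hM.row k hk).2 _ v).symm)

theorem fr_TT {n : ℤ} (hn : σ.Ind n) (q : d.W →₀ ℝ) (y : σ.Pnt) :
    Fred93.Fr (TT σ k q (σ.pt k y)) n := by
  obtain ⟨r, r1, r2⟩ := hn k hk q y
  rwa [row_eq hM hk y r1] at r2

theorem isoAt_iff (q : d.W →₀ ℝ) (y : σ.Pnt) :
    Gls64.IsoAt σ k q y ↔ Bijective (TT σ k q (σ.pt k y)) :=
  ⟨fun h => h _ ((hM.row k hk).2 y), fun h r hr => by rwa [row_eq hM hk y hr]⟩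

/-- the equations are equivariant -/
theorem F_smul (Γ : Ga σ k) (g : Γ.D.Gr) : ∃ ρ : σ.Y k ≃L[ℝ] σ.Y k, ∀ q, ∀ v ∈ σ.U k,
    σ.F k q (g • v) = ρ (σ.F k q v) := by
  obtain ⟨ρ, h⟩ := grpT _ _ _ _ _ _ s σ hM k hk Γ (Grs81.gsm Γ hk hM.toHy) g
  refine ⟨ρ, fun q v hv => ?_⟩
  simp only [Cel.F, map_add, map_finsuppSum, map_smul, (h v hv).1, (h v hv).2]

/-- gauge directions lie in the kernel at a solution -/
theorem dF_d (Γ : Ga σ k) {q : d.W →₀ ℝ} {v : σ.C k} (hv : v ∈ σ.U k) (h0 : σ.F k q v = 0)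
    (ξ : HR s (k + 2)) : fderiv ℝ (σ.F k q) v (Γ.D.d v ξ) = 0 := by
  have h1 := (Γ.D.hasStrict_act v).hasFDerivAt.comp (0 : HR s (k + 2))
    (f := fun ξ => (ξ, v)) (hasFDerivAt_prodMk_left _ _)
  have h2 : HasFDerivAt (σ.F k q) (fderiv ℝ (σ.F k q) v) (Γ.D.e 0 • v) := by
    rw [Γ.D.e_zero, one_smul]
    exact (((hM.F k hk q).1.contDiffAt ((isOpen_U hM.ok).mem_nhds hv)).differentiableAt
      (by simp)).hasFDerivAt
  have h4 := h2.comp (0 : HR s (k + 2)) h1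
  have h3 := h4.unique ((hasFDerivAt_const (0 : σ.Y k) _).congr_of_eventuallyEq
    (.of_forall fun ξ => let ⟨ρ, h⟩ := F_smul hM hk Γ (Γ.D.e ξ)
      (h q v hv).trans (by rw [h0, map_zero])))
  simpa using DFunLike.congr_fun h3 ξ

theorem bij_row (Γ : Ga σ k) (y : σ.Pnt) (hy : Ir σ y) :
    Bijective (row σ k (σ.pt k y) ∘L Γ.D.d (σ.pt k y)) :=
  slcS _ _ _ _ _ _ s σ hM k hk y hy _ fun ξ => ((hM.row k hk).2 y _).trans
    (congrArg₂ _ (val_d1 Γ hM.ok.site hk _ ξ) (val_d2 Γ hM.toHy hk y ξ))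

/-- at a regular solution the gauge fixed linearisation is onto -/
theorem surj_TT {q : d.W →₀ ℝ} {y : σ.Pnt} (hy : σ.Sol q y) (hr : σ.Reg k q y) :
    Surjective (TT σ k q (σ.pt k y)) := by
  obtain ⟨Γ⟩ := Grs81.ga hM.ok.site hM.cr hk
  obtain ⟨h1, h2⟩ := ((hM.rep k hk).2.2.1 q y).1 hy
  rintro ⟨f, h⟩
  obtain ⟨u, rfl⟩ := hr f
  obtain ⟨ξ, hξ⟩ := (bij_row hM hk Γ y h1).2 (h - row σ k (σ.pt k y) u)
  refine ⟨u + Γ.D.d (σ.pt k y) ξ, (map_add _ _ _).trans (Prod.ext ?_ ?_)⟩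
  · exact (congrArg (_ + ·) (dF_d hM hk Γ y.2.1 h2 ξ)).trans (add_zero _)
  · exact (congrArg (_ + ·) hξ).trans (add_sub_cancel _ _)

theorem inj_TT {q : d.W →₀ ℝ} {y : σ.Pnt} (h : Injective (TT σ k q (σ.pt k y))) {j : ℕ}
    (hj : k ≤ j) : Injective (TT σ j q (σ.pt j y)) := by
  refine (injective_iff_map_eq_zero _).2 fun u hu => ?_
  obtain ⟨e0, e1⟩ := hM.lev j k hk hj
  obtain ⟨e2, e3, -⟩ := (e1 q (σ.pt j y) y.2.1).2 u
  rw [e0] at e2 e3
  have e4 : iC σ j k u = 0 := (injective_iff_map_eq_zero _).1 h _ (Prod.ext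
    (e2.symm.trans ((congrArg _ (congrArg Prod.fst hu)).trans (map_zero _)))
    (e3.symm.trans ((congrArg _ (congrArg Prod.snd hu)).trans (map_zero _))))
  exact (injective_iff_map_eq_zero (iC σ j k)).1 ((incl_injective (by omega)).prodMap
    ((incl_injective (by omega)).prodMap injective_id)) u e4

omit hM hk
variable (d ty X nc nr T)

/-- **GL-ISO** -/
theorem isoStmt (hD : MdStmt d ty X nc nr T) : Gls64.IsoStmt d ty X nc nr T :=
  fun s σ h hn _ hk q y hy hr => have hM := hD s σ h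
    (isoAt_iff hM hk q y).2
      ⟨(fr_TT hM hk hn q y).inj_of_surj (surj_TT hM hk hy hr), surj_TT hM hk hy hr⟩

/-- **GL-LIFT** -/
theorem liftStmt (hD : MdStmt d ty X nc nr T) : Gls64.LiftStmt d ty X nc nr T :=
  fun s σ h hn _ hk q y hy _ hj => have hM := hD s σ h
    have hi := inj_TT hM hk ((isoAt_iff hM hk q y).1 hy).1 hj
    (isoAt_iff hM (hk.trans hj) q y).2 ⟨hi, (fr_TT hM (hk.trans hj) hn q y).surj_of_inj hi⟩

end Crest.Agent.X212.Ax1
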