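import Crest.Agent.X212.Crt72.Lg
import Crest.Agent.X212.Spn45.Lift
import Crest.Agent.X212.Mp86.Wd
import Crest.Agent.X212.Dec35.Alg

/-! Row 212, GP0 (helper1): no spinor part of the delay gradient without spinor. -/

set_option autoImplicit false
set_option linter.unusedSectionVars false
noncomputable section
open scoped Manifold ContDiff Topology InnerProductSpace
open Set

namespace Crest.Agent.X212.Ax1.Gp
open An Cyf70 Map77 Nd18 Dec35 Dgr80
open Wrd81 (wd)

section gen
variable {E : Type} [NormedAddCommGroup E] [NormedSpace ℝ E] [FiniteDimensional ℝ E]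
  [MeasurableSpace E] [BorelSpace E]
  {HM : Type} [TopologicalSpace HM] {I : ModelWithCorners ℝ E HM}
  {M : Type} [TopologicalSpace M] [ChartedSpace HM M] [IsManifold I ∞ M]
  [MeasurableSpace M] {ι : Type} [Fintype ι] {lam : Type} [Fintype lam]

section zero
variable {V : Type} [NormedAddCommGroup V] [InnerProductSpace ℝ V] [CompleteSpace V]
  {F : Fr I M ι} {A : ι → M → CL V V} (h : F.res A 0 = 0)
include h

theorem wd_zero : ∀ w : List (SL M V), wd (Dgr80.sl F A) 0 w = 0
  | [] => rfl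
  | .op T :: w => by
    change Dgr80.sl F A (.op T) (wd (Dgr80.sl F A) 0 w) = 0
    rw [wd_zero w]; funext x; simp [Dgr80.sl]
  | .G :: w => by
    change Dgr80.sl F A .G (wd (Dgr80.sl F A) 0 w) = 0
    rw [wd_zero w]; exact h

theorem slT_zero : ∀ t : SL M V, slT F A t 0 = 0
  | .op T => funext fun x => by simp [slT]
  | .G => h

theorem bk_zero : ∀ w : List (SL M V), bk F A w 0 = 0
  | [] => rfl
  | t :: w => by rw [bk, slT_zero h, bk_zero w]

end zero

theorem sw_gP {r : ℕ} {F : Fr I M ι} {c : Cfg M ι lam r} (h : F.res c.W 0 = 0) (h0 : ∀ x, c.Φ x = 0)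
    (T : Pk M lam) (u v : SW M) (f : M → ℝ) (x : M) : (Den.sw F T u v).gP c f x = 0 := by
  have hn : nP c = 0 := funext fun x => by simp [nP, h0]
  have hw : ∀ w, Dgr80.nw F c w = 0 := fun w => by rw [nw_eq, hn, wd_zero h]
  have hz : ∀ w, (fun y => f y • pk c T y (Dgr80.nw F c w y)) = 0 := fun w =>
    funext fun z => by simp [hw]
  simp only [Den.sw, hz, swP, bk_zero h, dn, Pi.zero_apply, smul_zero, inner_zero_right,
    mul_zero, zero_smul, sub_zero, add_zero]

end gen

variable {E3 : Type} [NormedAddCommGroup E3] [NormedSpace ℝ E3] [FiniteDimensional ℝ E3]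
  [MeasurableSpace E3] [BorelSpace E3]
  {H3 : Type} [TopologicalSpace H3] (I3 : ModelWithCorners ℝ E3 H3) [I3.Boundaryless]
  (Y : Type) [TopologicalSpace Y] [ChartedSpace H3 Y] [IsManifold I3 ∞ Y] [T2Space Y]
  [MeasurableSpace Y] [BorelSpace Y] [SecondCountableTopology Y] [CompactSpace Y]
  (κ : Type) [Fintype κ] (lam : Type) [Fintype lam]

/-- LEAF GP0 -/
theorem gp0 : Crt72.Gp0Stmt I3 Y κ lam := fun N D β h a ha h0 x => by
  have ad := cf_adm h.adm.adm ha.cb.choose_spec.1 ha.tg
  have hr : D.Z.res (cf (cy β) a).W 0 = 0 :=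
    Mp86.res_zero (F := D.Z) (Spn45.bumps_cyl D.F) (Mp86.mc_W ad.conn)
  have e : (N.dg D.nk).gP D.Z (cf (cy β) a) x = 0 := Finset.sum_eq_zero fun j _ => by
    rcases j with j | j | j
    · change (D.nk.den (N.d0 j)).gP _ _ x = 0
      cases N.d0 j with
      | sw u v => exact sw_gP hr h0 _ _ _ _ x
      | cy d w d' w' => exact add_zero _
    · exact sw_gP hr h0 _ _ _ _ x
    · exact sw_gP hr h0 _ _ _ _ x
  refine (s2_ps _ _).trans ?_
  rw [s2_ii]
  exact (congrArg _ e).trans (map_zero _)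

end Crest.Agent.X212.Ax1.Gp
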