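import Crest.Agent.X212.Grs81.S
import Crest.Agent.X212.Pb50.Rep

/-!
# Row 212, MS-GRP-T (helper1): the equations are equivariant under the Sobolev gauge group
-/

set_option autoImplicit false
set_option linter.unusedSectionVars false
noncomputable section
open scoped Manifold ContDiff Topology InnerProductSpace
open MeasureTheory Set Function Filter

namespace Crest.Agent.X212.Ax1
open An An.Pre Sw Sob92 Map77.S Pb50
open M (Mf)
open Grs81 (RC sup)

variable {κ lam ν : Type} [Fintype κ] [Fintype lam] [Fintype ν] [DecidableEq ν] {X : Mf 4}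
  {nc nr : ℕ} {u : X.M → ℂ}

theorem dU {b : Bg X.I X.M κ lam ν nc} (hb : b.OK) (hu : Gau X.I u) (j : Fin nc) (y : R4) :
    HasFDerivAt (u ∘ (b.ct j).Ξ) ((b.ta j ⟨th b.F.toPre u, 0⟩ y).smulRight
      (Complex.I * (u ∘ (b.ct j).Ξ) y)) y := by
  have C := hb.ct j
  have d1 := (hu.1 ((b.ct j).Ξ y)).mdifferentiableAt (by simp)
  have d2 := (C.sm y).mdifferentiableAt (by simp)
  refine (d1.comp y d2).differentiableAt.hasFDerivAt.congr_fderiv
    (ContinuousLinearMap.ext fun w => ?_)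
  rw [← mfderiv_eq_fderiv]
  refine (mfderiv_comp_apply y d1 d2 w).trans ?_
  refine ((congrArg _ (C.θ y w)).trans (map_sum _ _ _)).trans ?_
  have e : ∀ k, mfderiv X.I 𝓘(ℝ, ℂ) u ((b.ct j).Ξ y) ((b.ct j).θ y w k • b.F.e k ((b.ct j).Ξ y)) =
      (b.ct j).θ y w k • th b.F.toPre u k ((b.ct j).Ξ y) • (Complex.I * u ((b.ct j).Ξ y)) :=
    fun k => by rw [map_smul, ← (LG.of_gau hu _).D]; rfl
  refine (Finset.sum_congr rfl fun k _ => e k).trans ?_
  simp [Bg.ta, PiLp.inner_apply, Finset.sum_mul, mul_assoc, -Fintype.sum_option]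
  rfl

/-- the phase of the cut functions depends only on the chart and the density -/
theorem cut_z {b₀ : Bg X.I X.M κ lam ν nc} (h₀ : b₀.OK) (hu : Gau X.I u) (j : Fin nc) :
    ∃ z : Circle, ∀ b : Bg X.I X.M κ lam ν nc, b.OK → (b.ct j).Ξ = (b₀.ct j).Ξ →
      (b.ct j).ρ = (b₀.ct j).ρ → ∀ c, b.Adm c → ∀ η, b.lη j η (b.act u c) = z * b.lη j η c := by
  obtain ⟨χ, k0, k2⟩ := Kop92.exists_log (fun y => hu.2 _) (dU h₀ hu j)
  refine ⟨Circle.exp (∫ y, (b₀.ct j).ρ y * χ y ∂leb R4), fun b hb e1 e2 c h η => ?_⟩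
  have C := hb.ct j
  obtain ⟨R, hR⟩ := Kop92.exists_sp C.cρ
  let t : Cfg X.M κ ν := ⟨th b.F.toPre u, 0⟩
  have ct : ∀ c : Cfg X.M κ ν, (∀ i, Sm X.I (c.a i)) → Continuous (b.ta j c) := fun c hc =>
    ((innerSL ℝ).continuous.comp ((PiLp.continuous_toLp 2 _).comp (continuous_pi fun k =>
      (hc k).continuous.comp C.sm.continuous))).clm_comp C.sθ.continuous
  have st : ∀ i, Sm X.I (t.a i) := fun i x => sa_th _ (hu.1 x) i
  have k1 : ∀ y, HasFDerivAt χ (b.ta j t y) y := fun y => (k0 y).congr_fderiv (by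
    have e := (dU h₀ hu j y).unique (e1 ▸ dU hb hu j y)
    refine ContinuousLinearMap.ext fun w => smul_left_injective ℝ (m := Complex.I * u ((b₀.ct j).Ξ y))
      (mul_ne_zero Complex.I_ne_zero (norm_ne_zero_iff.1 ((hu.2 _).trans_ne one_ne_zero))) ?_
    exact congrArg (fun L : R4 →L[ℝ] ℂ => L w) e)
  have e3 : b.ta j c = b.ta j (b.act u c) + b.ta j t := funext fun y => by
    ext w
    simp [Bg.ta, PiLp.inner_apply, t, act_a, mul_sub, Finset.sum_sub_distrib]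
  rw [← e1] at k2
  rw [Bg.lη, Bg.lη, ← integral_const_mul, ← e2, Circle.coe_exp]
  refine congrArg _ (funext fun y => ?_)
  rw [e3, Kop92.K_add C.sρ.continuous hR (ct _ fun i => (h.sa i).sub (st i)) (ct t st),
    Kop92.K_d C.sρ.continuous hR C.one k1 (ct t st)]
  rw [show (b.act u c).Φ ((b.ct j).Ξ y) = cs b.m.J (u ((b.ct j).Ξ y)) _ from rfl,
    Kop92.hm_cs_right hb.m.Jsq, k2, ← mul_assoc, ← mul_assoc, ← Complex.exp_add, ← Complex.exp_add]
  congr 2
  push_cast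
  ring

/-- the action on values of equations -/
def evA (J : En ν) (u : X.M → ℂ) (z : Fin nc → Circle) (E : Ev κ ν X nc nr) : Ev κ ν X nc nr :=
  (fun x => cs J (u x) (E.1 x), E.2.1, fun j => z j * E.2.2.1 j, E.2.2.2)

variable {N : Type} [Fintype N] {d : Dt κ lam ν} {ty : N → d.𝓔}
  {T : Type} [NormedAddCommGroup T] [NormedSpace ℝ T] [FiniteDimensional ℝ T]
  {s : Pz X 0 fun i => d.e (ty i)} (σ : Cel s nc nr T) {k : ℕ}

/-- all terms -/
abbrev eo (o : Option d.W) : T → Cfg X.M κ ν → Ev κ ν X nc nr := o.elim σ.e0 σ.eτ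

/-- multiplication of negative spinors -/
def mH : RC s k →L[ℝ] s.bg.F.H k s.bg.pm →L[ℝ] s.bg.F.H k s.bg.pm :=
  s.bg.F.bilH (k + 2) k _ _ _ k fun _ => Pb50.cB s.bg.m.J

/-- the representation on the target -/
def ρL (g : RC s k) (z : Fin nc → Circle) : σ.Y k →L[ℝ] σ.Y k :=
  (1 + mH g).prodMap ((ContinuousLinearMap.id ℝ _).prodMap
    ((ContinuousLinearMap.mul ℝ _ fun j => (z j : ℂ)).prodMap (ContinuousLinearMap.id ℝ _)))

variable {σ}

theorem eo_act (h : σ.OK) (hu : s.Al u) : ∃ z : Fin nc → Circle, ∀ o, ∀ y y' : σ.Pnt,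
    y'.1.1 = y.1.1 → y'.1.2 = (σ.P y.1.1).bg.act u y.1.2 →
      eo σ o y'.1.1 y'.1.2 = evA s.bg.m.J u z (eo σ o y.1.1 y.1.2) := by
  obtain ⟨t₀, h₀⟩ := h.ne
  choose z hz using cut_z (h.ok t₀ h₀).bg hu.1
  refine ⟨z, ?_⟩
  rintro o ⟨⟨t, c⟩, ht, hc⟩ ⟨⟨t', c'⟩, hy'⟩ e1 e2
  obtain ⟨⟨⟩, ⟨⟩⟩ : t = t' ∧ (σ.P t).bg.act u c = c' := ⟨e1.symm, e2.symm⟩
  have hP := (h.ok t ht).toOK
  have e := fun j => hz j _ hP.bg (h.ct t ht t₀ h₀ j).1 (h.ct t ht t₀ h₀ j).2 c hc.1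
  rw [← h.m t ht]
  cases o with
  | none =>
    refine Prod.ext (funext fun x => ?_) (Prod.ext (funext fun x => ?_)
      (Prod.ext (funext fun j => e j _) (funext fun j => (h.R j).2 ⟨(t, c), ht, hc⟩ ⟨_, hy'⟩ rfl
        ⟨u, (al_fam h.toOK ht u).2 hu, rfl⟩)))
    · exact (congrArg₂ (· - ·) (eD_act hP.bg (.of_adm hc.1 x) (.of_gau hu.1 x))
        (p0D_act hP hc.1 hu.1 x)).trans (map_sub (Pb50.cB _ (u x)) _ _).symm
    · exact congrArg₂ (· - ·) (eC_act hP.bg (LA.of_adm hc.1 x).sa (.of_gau hu.1 x))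
        (congrFun (p0C_act hP hc.1 hu.1) x)
  | some w =>
    exact Prod.ext (funext fun x => (map_zero (Pb50.cB _ (u x))).symm)
      (Prod.ext (congrArg Neg.neg (tm_act hc.1 hu.1 w))
        (Prod.ext (funext fun j => (congrArg Neg.neg (e j _)).trans (mul_neg _ _).symm) rfl))

variable (Γ : Ga σ k) (hs : s.OK) (hk : 7 ≤ k)
include hs hk

theorem vl_ρL (g : Γ.D.Gr) (z : Fin nc → Circle) (v : σ.Y k) :
    vl σ k (ρL σ g.v z v) = evA s.bg.m.J (Γ.u g) z (vl σ k v) := by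
  refine Prod.ext (funext fun x => ?_) rfl
  have e := val_bilH (sup hs.bg) (Lev.left (k := k + 2) (l := k) (by omega) (by omega)) (by omega)
    (p := triv X.M ℂ) (q := s.bg.pm) (r := s.bg.pm) (Cb_const (Pb50.cB s.bg.m.J)) (fun x z v _ h =>
      (cs_comm ((Commute.add_right (Jp hs.bg x) (Jvol hs.bg x)).smul_right _) z v).trans
        (congrArg _ h)) g.v v.1 x
  show s.bg.F.val _ _ (v.1 + mH g.v v.1) x = Pb50.cB _ (1 + _) _
  rw [val_add, Pi.add_apply, map_add, _root_.add_apply, cB_apply, Eqv71.cs_one]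
  exact congrArg _ e

theorem ρL_inv (g : Γ.D.Gr) (z : Fin nc → Circle) (v : σ.Y k) :
    ρL σ g⁻¹.v z⁻¹ (ρL σ g.v z v) = v := vl_inj hs (by omega) (by
  rw [vl_ρL Γ hs hk, vl_ρL Γ hs hk]
  refine Prod.ext (funext fun x => ?_) (Prod.ext rfl (Prod.ext (funext fun j => ?_) rfl))
  · have e : Γ.u g⁻¹ x * Γ.u g x = 1 := (Grs81.val_o Γ _ _ x).symm.trans (by
      rw [← Grp76.GA.v_mul, inv_mul_cancel, Grp76.GA.v_one, val_zero, Pi.zero_apply, add_zero])
    exact (Eqv71.cs_mul hs.bg.m.Jsq _ _ _).trans (by rw [e, Eqv71.cs_one])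
  · simp [evA])

theorem smul_t (g : Γ.D.Gr) (v : σ.C k) : (g • v).2.2 = v.2.2 :=
  ((Grs81.smul_iff Γ hs hk g v _).1 rfl).2.2

theorem smul_U (g : Γ.D.Gr) {v : σ.C k} (hv : v ∈ σ.U k) : g • v ∈ σ.U k :=
  (congrArg (· ∈ σ.Q) (smul_t Γ hs hk g v)).mpr hv

omit hs hk Γ in
variable (d ty X nc nr T) in
/-- **MS-GRP-T** -/
theorem grpT : GrpT d ty X nc nr T := by
  intro s σ hM k hk Γ hΓ g
  have h := hM.ok
  have hs := h.site
  have r : ∀ o, σ.Rep (eo σ o) (σ.rp k (eo σ o)) := fun o => by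
    cases o with
    | none => exact (hM.rep k hk).1
    | some w => exact (hM.rep k hk).2.1 w
  let S : Set (Γ.D.Gr × (Fin nc → Circle)) := ⋂ o, ⋂ v ∈ σ.U k,
    {p | σ.rp k (eo σ o) (p.1 • v) = ρL σ p.1.v p.2 (σ.rp k (eo σ o) v)}
  have c : IsClosed S := isClosed_iInter fun o => isClosed_biInter fun v hv => isClosed_eq
    ((r o).1.continuousOn.comp_continuous (by fun_prop) fun p => smul_U Γ hs hk _ hv) (by
      generalize σ.rp k (eo σ o) v = w
      show Continuous fun p : Γ.D.Gr × (Fin nc → Circle) =>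
        (w.1 + mH p.1.v w.1, w.2.1, fun j => (p.2 j : ℂ) * w.2.2.1 j, w.2.2.2)
      fun_prop)
  obtain ⟨⟨g, z⟩, hz, rfl⟩ : g ∈ Prod.fst '' S := by
    refine closure_minimal (fun g hg => ?_) (isClosedMap_fst_of_compactSpace S c) (hΓ.dense g)
    obtain ⟨z, hz⟩ := eo_act hM.OK hg
    refine ⟨(g, z), mem_iInter.2 fun o => mem_iInter₂.2 ?_, rfl⟩
    refine EqOn.of_subset_closure (s := range (σ.pt k)) ?_
      ((r o).1.continuousOn.comp (continuous_const_smul g).continuousOn fun v => smul_U Γ hs hk g)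
      ((ρL σ g.v z).continuous.comp_continuousOn (r o).1.continuousOn) ?_
      (dense_pt h hM.cr (by omega))
    · rintro _ ⟨y, rfl⟩
      obtain ⟨y', e1, e2, e3⟩ := hΓ.act g hg y
      refine vl_inj hs (by omega) ?_
      simp only [← e3, vl_ρL Γ hs hk, rep_vl (r o), hz o y y' e1 e2]
    · rintro _ ⟨y, rfl⟩
      exact y.2.1
  simp only [S, mem_iInter, mem_ofPred_eq] at hz
  exact ⟨.equivOfInverse _ _ (ρL_inv Γ hs hk g z) fun v => by
      simpa only [inv_inv] using ρL_inv Γ hs hk g⁻¹ z⁻¹ v,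
    fun v hv => ⟨hz none v hv, fun w => hz (some w) v hv⟩⟩

end Crest.Agent.X212.Ax1
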