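import Crest.Agent.X212.Ax1.IxG

/-! # Row 212, lane IND-S (helper1): the index along a diffeomorphism with rotated frames -/

set_option autoImplicit false
set_option linter.unusedSectionVars false
set_option maxHeartbeats 400000
noncomputable section
open scoped Manifold ContDiff Topology InnerProductSpace
open MeasureTheory Set Function Filter

namespace Crest.Agent.X212.Ax1.Ix
open An An.Pre Sob92 Prm93 Cyf70
open Map77 (f2 s2 sm2 ext2 f2_sm2 s2_sm2 P2)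
open M (Mf)

variable {X X' : Mf 4} {ι : Type} [Fintype ι]
  {V W : Type} [NormedAddCommGroup V] [InnerProductSpace ℝ V] [FiniteDimensional ℝ V]
  [NormedAddCommGroup W] [InnerProductSpace ℝ W] [FiniteDimensional ℝ W] {k j : ℕ}

/-- `T`, `T'` are inverse isomorphisms between the images of `p`, `p'` -/
structure PI (p p' T T' : V →L[ℝ] V) : Prop where
  m : ∀ v, p v = v → p' (T v) = T v ∧ T' (T v) = v
  m' : ∀ w, p' w = w → p (T' w) = T' w ∧ T (T' w) = w

theorem PI.of {p p' T T' π π' : V →L[ℝ] V} (h1 : ∀ v, T' (T v) = π v) (h2 : ∀ w, T (T' w) = π' w)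
    (h3 : ∀ v, p' (T v) = T (p v)) (h4 : ∀ v, π (p v) = p v) (h5 : ∀ w, π' (p' w) = p' w) :
    PI p p' T T' :=
  ⟨fun v hv => ⟨by rw [h3, hv], by rw [h1, ← hv, h4]⟩, fun w hw =>
    have e : T (T' w) = w := by rw [h2, ← hw, h5]
    ⟨by rw [← h4, ← h1, ← h3, e, hw], e⟩⟩

theorem PI.sum {p p' T T' : V →L[ℝ] V} {q q' S S' : W →L[ℝ] W} (h : PI p p' T T')
    (h' : PI q q' S S') : PI (sm2 p q) (sm2 p' q') (sm2 T S) (sm2 T' S') := by
  have k : ∀ {p : V →L[ℝ] V} {q : W →L[ℝ] W} {v}, sm2 p q v = v →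
      p (f2 _ _ v) = f2 _ _ v ∧ q (s2 _ _ v) = s2 _ _ v := fun e =>
    ⟨(f2_sm2 ..).symm.trans (congrArg _ e), (s2_sm2 ..).symm.trans (congrArg _ e)⟩
  refine ⟨fun v hv => ⟨ext2 ?_ ?_, ext2 ?_ ?_⟩, fun v hv => ⟨ext2 ?_ ?_, ext2 ?_ ?_⟩⟩ <;>
    simp only [f2_sm2, s2_sm2]
  exacts [(h.m _ (k hv).1).1, (h'.m _ (k hv).2).1, (h.m _ (k hv).1).2, (h'.m _ (k hv).2).2,
    (h.m' _ (k hv).1).1, (h'.m' _ (k hv).2).1, (h.m' _ (k hv).1).2, (h'.m' _ (k hv).2).2]

/-- a rotated frame -/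
def rot (F : Pre X.I X.M ι) (U : ι → ι → X.M → ℝ) (hU : ∀ a b, Sm X.I (U a b))
    (h : ∀ a x, F.e a x = ∑ b, U b a x • ∑ c, U b c x • F.e c x) : Pre X.I X.M ι where
  e b x := ∑ a, U b a x • F.e a x
  μ := F.μ
  sm b := ContMDiff.sum_section fun a _ => (hU b a).smul_section (F.sm a)
  span x := top_unique <| (F.span x).ge.trans <| Submodule.span_le.2 <| range_subset_iff.2 fun a =>
    h a x ▸ Submodule.sum_mem _ fun b _ => Submodule.smul_mem _ _ (Submodule.subset_span ⟨b, rfl⟩)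
  fin := F.fin
  dens := F.dens

/-- a global diffeomorphism that rotates the frames by a bounded matrix -/
structure Rt (F : Pre X.I X.M ι) (F' : Pre X'.I X'.M ι) (φ : OpenPartialHomeomorph X.M X'.M)
    (U : ι → ι → X.M → ℝ) : Prop where
  src : φ.source = univ
  tgt : φ.target = univ
  ex : ∃ G : Pre X.I X.M ι, Iso G F' φ ∧ Mix F G U ∧ Cmp F G
  cb : ∀ a b, F.Cb (U a b)

namespace Rt
variable {F : Pre X.I X.M ι} {F' : Pre X'.I X'.M ι} {φ : OpenPartialHomeomorph X.M X'.M}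
  {U : ι → ι → X.M → ℝ} (h : Rt F F' φ U)
include h

theorem l (x : X.M) : φ.symm (φ x) = x := φ.left_inv (h.src ▸ trivial)

theorem r (y : X'.M) : φ (φ.symm y) = y := φ.right_inv (h.tgt ▸ trivial)

theorem pb {N : Type} [NormedAddCommGroup N] [NormedSpace ℝ N] {f : X'.M → N} (hf : F'.Cb f) :
    F.Cb fun x => f (φ x) := by
  obtain ⟨G, h1, -, h2⟩ := h.ex
  obtain ⟨C, hC⟩ := hf
  have a : Adm φ (tsupport f) := ⟨h.tgt ▸ subset_univ _,
    (φ.continuousOn.preimage_isClosed_of_isClosed (h.src ▸ isClosed_univ) (isClosed_tsupport _))⟩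
  rw [show (fun x => f (φ x)) = pull φ f from funext fun x => (pull_of_mem (h.src ▸ trivial) f).symm]
  exact h2.Cb_iff.2 ⟨_, sm_pull h1 hC.1 a, fun k => CB_pull h1 k hC.1 a (hC.2 k)⟩

theorem D {N : Type} [NormedAddCommGroup N] [NormedSpace ℝ N] {f : X.M → N} (hf : Sm X.I f) (b : ι)
    (x : X.M) : F'.D b (fun y => f (φ.symm y)) (φ x) = ∑ a, U b a x • F.D a f x := by
  obtain ⟨G, h1, h2, -⟩ := h.ex
  rw [iso_D' (iso_symm h1) b hf (fun _ _ => rfl) (φ.map_source (h.src ▸ trivial)), h.l, h2.D]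

/-- the transport of Sobolev spaces -/
theorem eqv {p : X.M → V →L[ℝ] V} {p' : X'.M → V →L[ℝ] V} {T T' : X.M → V →L[ℝ] V} (hT : F.Cb T)
    (hT' : F.Cb T') (pi : ∀ x, PI (p x) (p' (φ x)) (T x) (T' x)) (k : ℕ) :
    ∃ E : F.H k p ≃L[ℝ] F'.H k p',
      F.RepT F' E.toContinuousLinearMap (fun w y => T (φ.symm y) (w (φ.symm y))) ∧
      F'.RepT F E.symm.toContinuousLinearMap fun w x => T' x (w (φ x)) := by
  obtain ⟨G, h1, -, h2⟩ := h.ex
  obtain ⟨C, c⟩ := Cb_const (F := G) (ContinuousLinearMap.id ℝ V)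
  obtain ⟨C', c'⟩ := Cb_const (F := F') (ContinuousLinearMap.id ℝ V)
  have r1 : F.RepT F' _ fun w y => T (φ.symm y) (w (φ.symm y)) := RepT_congr (RepT_comp
    (rep_trH (k := k) (p' := fun x => p' (φ x)) (q := p') (iso_symm h1) c.1 (c.2 k)
      (φ.symm_target ▸ h.src ▸ subset_univ _) fun y _ v hv => by rwa [h.r] at hv).1
    (RepT_comp (rep_chg h2) (rep_mulH (p := p) hT fun x v hv => ((pi x).m v hv).1)))
    fun u => funext fun y => pull_of_mem (φ.symm_source ▸ h.tgt ▸ trivial) _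
  have r2 : F'.RepT F _ fun w x => T' x (w (φ x)) := RepT_congr (RepT_comp
    (rep_mulH (q := p) hT' fun x v hv => ((pi x).m' v hv).1) (RepT_comp (rep_chg h2.symm)
    (rep_trH (k := k) (p' := p') (q := fun x => p' (φ x)) h1 c'.1 (c'.2 k)
      (h.tgt ▸ subset_univ _) fun y _ v hv => hv).1))
    fun u => funext fun x => congrArg (T' x) (pull_of_mem (h.src ▸ trivial) _)
  refine ⟨.equivOfInverse' _ _ (RepT_eq (RepT_comp r1 r2) Rep_id fun u => funext fun y => ?_)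
    (RepT_eq (RepT_comp r2 r1) Rep_id fun u => funext fun x => ?_), r1, r2⟩
  · exact (((pi _).m' _ (u.2.2.2 _)).2).trans (congrArg u.1 (h.r y))
  · simp only [h.l]; exact ((pi x).m _ (u.2.2.2 x)).2

end Rt

/-- **naturality of the index** -/
theorem nat_abs {F : Fr X.I X.M ι} {F' : Fr X'.I X'.M ι} {φ : OpenPartialHomeomorph X.M X'.M}
    {U : ι → ι → X.M → ℝ} (h : Rt F.toPre F'.toPre φ U) {A : Op X.M ι V W} {A' : Op X'.M ι V W}
    (hk : 4 ≤ k) {D : F.H (k + 1) A.p →L[ℝ] F.H k A.q} {D' : F'.H (k + 1) A'.p →L[ℝ] F'.H k A'.q}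
    (S : Add68.Sy F A k D) (S' : Add68.Sy F' A' k D') {st : (X.M → V) → X.M → W}
    {st' : (X'.M → V) → X'.M → W} (r : F.Rep D st) (r' : F'.Rep D' st') {T T' : X.M → V →L[ℝ] V}
    {R R' : X.M → W →L[ℝ] W} (hT : F.Cb T) (hT' : F.Cb T') (hR : F.Cb R) (hR' : F.Cb R')
    (pp : ∀ x, PI (A.p x) (A'.p (φ x)) (T x) (T' x)) (pq : ∀ x, PI (A.q x) (A'.q (φ x)) (R x) (R' x))
    (hσ : ∀ a x v, ∑ b, U b a x • A'.σ b (φ x) (T x v) = R x (A.σ a x v))
    (far : ∃ K, IsCompact K ∧ ∀ w ∈ Sec X.I A.p, ∀ x ∉ K,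
      st' (fun y => T (φ.symm y) (w (φ.symm y))) (φ x) = R x (st w x)) {n : ℤ}
    (H : Fred93.Fr D n) : Fred93.Fr D' n := by
  have := FiniteDimensional.complete ℝ V
  have := FiniteDimensional.complete ℝ W
  obtain ⟨K, hK, far⟩ := far
  obtain ⟨C, hF⟩ := S.tame
  obtain ⟨_, g⟩ := S.good
  obtain ⟨_, g'⟩ := S'.good
  obtain ⟨m, e⟩ := S.gain
  obtain ⟨m', e'⟩ := S'.gain
  obtain ⟨E, a, -⟩ := h.eqv hT hT' pp (k + 1)
  obtain ⟨Q, -, b⟩ := h.eqv hR hR' pq k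
  obtain ⟨Q', -, b'⟩ := h.eqv hR hR' pq (k + 1)
  let Z : X.M → V →L[ℝ] W := fun x => R' x ∘L (∑ a, (∑ b, U b a x • A'.σ b (φ x)) ∘L F.D a T x +
    A'.B (φ x) ∘L T x) - A.B x
  have hZ : F.Cb Z := Cb_sub (Cb_comp hR' (Cb_add (Cb_sum _ fun a _ => Cb_comp
    (Cb_sum _ fun b _ => Cb_smul (h.cb b a) (h.pb ⟨_, g'.σ b⟩)) (Cb_D hT a))
    (Cb_comp (h.pb ⟨_, g'.B⟩) hT))) ⟨_, g.B⟩
  have mZ : Maps A.p A.q Z := Maps.of_left fun x v => by
    simp only [Z, sub_apply, map_sub, g.qB, ContinuousLinearMap.comp_apply]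
    rw [((pq x).m' _ (by simp [g'.qσ, g'.qB])).1]
  have e1 : Q.symm.toContinuousLinearMap ∘L A'.H F' k ∘L E.toContinuousLinearMap =
      A.H F k + F.incl (k + 1) k A.q ∘L F.mulH (k + 1) A.p A.q Z :=
    RepT_eq (RepT_comp b (RepT_comp (rep_OpH g' k).1 a)) (RepT_add (rep_OpH g k).1
      (RepT_comp (rep_incl k.le_succ) (rep_mulH hZ mZ))) fun u => funext fun x => by
      have d := fun b => h.D ((Prm93.Cb.sm hT).clm_apply u.2.1) b x
      simp only [Op.app, Pre.op, d, h.l, Ell97.D_app _ _ (Prm93.Cb.sm hT) u.2.1, map_sum, map_smul,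
        map_add, smul_add, Finset.sum_add_distrib, Pi.add_apply, id, Z, sub_apply, add_apply,
        ContinuousLinearMap.comp_apply, sum_apply, smul_apply]
      rw [Finset.sum_comm, Finset.sum_comm (f := fun b a => U b a x • R' x (A'.σ b _ (T x _)))]
      simp only [← map_smul (R' x), ← map_sum (R' x), hσ, ((pq x).m _ (g.qσ _ x _)).2]
      abel
  have e2 : Q.symm.toContinuousLinearMap ∘L F'.incl (k + 1) k A'.q =
      F.incl (k + 1) k A.q ∘L Q'.symm.toContinuousLinearMap :=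
    RepT_eq (RepT_comp b (rep_incl k.le_succ)) (RepT_comp (rep_incl k.le_succ) b') fun _ => rfl
  have e3 : Q.symm.toContinuousLinearMap ∘L D' ∘L E.toContinuousLinearMap - D =
      F.incl (k + 1) k A.q ∘L (F.mulH (k + 1) A.p A.q Z +
        Q'.symm.toContinuousLinearMap ∘L m' ∘L E.toContinuousLinearMap - m) := by
    rw [e, e', ContinuousLinearMap.add_comp, ContinuousLinearMap.comp_add, e1,
      ContinuousLinearMap.comp_assoc, ← ContinuousLinearMap.comp_assoc _ (F'.incl _ _ _), e2,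
      ContinuousLinearMap.comp_sub, ContinuousLinearMap.comp_add, ContinuousLinearMap.comp_assoc]
    abel
  have c : Cq (Q.symm.toContinuousLinearMap ∘L D' ∘L E.toContinuousLinearMap) D := by
    rw [Cq, e3]
    refine Add68.cpt_of_supp hF hk (F.dense_toH (k + 1) A.p) _ hK fun u x hx => ?_
    rw [← ContinuousLinearMap.comp_apply, ← e3, RepT_toH (RepT_sub (RepT_comp b (RepT_comp r' a)) r),
      val_toH (Sup.of_tame hF) hk]
    simp only [Pi.sub_apply, far _ u.2 x hx, ((pq x).m _ ((RepT_mem r u).2.2 x)).2, sub_self]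
  exact ((c.fr H).conj E.symm Q).congr fun x => by simp

end Crest.Agent.X212.Ax1.Ix
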