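import Crest.Agent.X212.Ix82.Defs
import Crest.Agent.X212.Op40.Main
import Crest.Agent.X212.Pb50.Main

/-! # Row 212, lane IND-S (helper1): gauge transformations of the cross-section (`IxGau`) -/

set_option autoImplicit false
set_option linter.unusedSectionVars false
set_option maxHeartbeats 200000
noncomputable section
open scoped Manifold ContDiff Topology InnerProductSpace BoundedContinuousFunction
open MeasureTheory Set Function Filter

namespace Crest.Agent.X212.Ax1.Ix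
open An An.Pre Sob92 Sw Sw.En3 Cyf70 Pb50
open Map77 (i1 i2 f2 s2 sm2 ext2 f2_sm2 s2_sm2 f2_i1 f2_i2 s2_i1 s2_i2 inner2 f2_ps s2_ps)
open Map77.S (Cf Ef full sp vr lG pC pE co)
open Fred93 (Fr)

section abs
variable {X₁ X₀ Z : Type*} [NormedAddCommGroup X₁] [NormedSpace ℝ X₁] [CompleteSpace X₁]
  [NormedAddCommGroup X₀] [InnerProductSpace ℝ X₀] [CompleteSpace X₀] [NormedAddCommGroup Z]
  [NormedSpace ℝ Z] [CompleteSpace Z]
  {i L : X₁ →L[ℝ] X₀} {J : Z →L[ℝ] Lam X₁} {T : Z →L[ℝ] Lam X₀}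

/-- the spectral flow is invariant under conjugation -/
theorem sf_conj (h : CylD 1 i L J T) {σ σ' : ℝ →ᵇ ℝ} {r : ℝ} (hσ : Stp σ σ' r) (G : X₀ ≃L[ℝ] X₀)
    {G₁ : X₁ →L[ℝ] X₁} (U : Z ≃L[ℝ] Z) (hJ : ∀ u, J (U u) = cp G₁ (J u))
    (hT : ∀ u, T (U u) = cp (G : X₀ →L[ℝ] X₀) (T u)) {a b a' b' : X₀ →L[ℝ] X₀} (ha : a ∈ SymA X₀)
    (hb : b ∈ SymA X₀) (ba : Bijective (Crt72.Op i L a)) (bb : Bijective (Crt72.Op i L b))
    (ea : ∀ u, Crt72.Op i L a' (G₁ u) = G (Crt72.Op i L a u))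
    (eb : ∀ u, Crt72.Op i L b' (G₁ u) = G (Crt72.Op i L b u)) :
    sf i L J T σ a' b' = sf i L J T σ a b := by
  obtain ⟨s, hs⟩ := h.exists_mul hσ.der
  have hf := fr_gl (h.lim_cp hσ (fun u => (hs u).1) ha ba) (h.lim_cp hσ (fun u => (hs u).1) hb bb)
  obtain ⟨W, hW⟩ : ∃ W : Lam X₀ ≃L[ℝ] Lam X₀, ∀ f, W f = cp (G : X₀ →L[ℝ] X₀) f :=
    ⟨.equivOfInverse (cp (G : X₀ →L[ℝ] X₀)) (cp (G.symm : X₀ →L[ℝ] X₀))
      (fun f => R.ext' (by rr) (by rr) fun t => by simp) fun f =>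
        R.ext' (by rr) (by rr) fun t => by simp, fun _ => rfl⟩
  have e : ∀ {c c' : X₀ →L[ℝ] X₀}, (∀ u, Crt72.Op i L c' (G₁ u) = G (Crt72.Op i L c u)) → ∀ u,
      Dz i L J T (cp c') (U u) = cp (G : X₀ →L[ℝ] X₀) (Dz i L J T (cp c) u) := fun H u => by
    rw [Dz_apply, Dz_apply, hT, hJ]
    exact R.ext' (by rr) (by rr) fun t => by simpa [Crt72.Op_apply, add_assoc] using H (J u t)
  have e' : ∀ u, gl (mt X₀ σ) (Dz i L J T (cp a')) (Dz i L J T (cp b')) (U u) =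
      W (gl (mt X₀ σ) (Dz i L J T (cp a)) (Dz i L J T (cp b)) u) := fun u => by
    rw [hW, gl_apply, gl_apply, e ea, e eb, ← map_sub, map_add, ma_ma, ma_ma, mul_comm,
      ContinuousLinearMap.id_comp, ContinuousLinearMap.comp_id]
  rw [Cyf70.sf, Cyf70.sf, cind]
  refine ((hf.conj U.symm W).congr fun u => ?_).2
  simpa using e' (U.symm u)

end abs

section gen
variable {E : Type} [NormedAddCommGroup E] [NormedSpace ℝ E] [FiniteDimensional ℝ E]
  [MeasurableSpace E] [BorelSpace E] {HM : Type} [TopologicalSpace HM] {I : ModelWithCorners ℝ E HM}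
  {M : Type} [TopologicalSpace M] [ChartedSpace HM M] [IsManifold I ∞ M] [MeasurableSpace M]
  [T2Space M] [BorelSpace M] [SecondCountableTopology M] {ι : Type} [Fintype ι]
  {V W : Type} [NormedAddCommGroup V] [InnerProductSpace ℝ V] [NormedAddCommGroup W]
  [InnerProductSpace ℝ W]

/-- a bundle isomorphism on Sobolev spaces -/
theorem mul_eqv {F : Pre I M ι} {p : M → V →L[ℝ] V} {q : M → W →L[ℝ] W} {f : M → V →L[ℝ] W}
    {f' : M → W →L[ℝ] V} (h : F.Cb f) (h' : F.Cb f') (m : Maps p q f) (m' : Maps q p f')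
    (e : ∀ x v, p x v = v → f' x (f x v) = v) (e' : ∀ x w, q x w = w → f x (f' x w) = w) (k : ℕ) :
    ∃ G : F.H k p ≃L[ℝ] F.H k q, F.Rep G.toContinuousLinearMap fun u x => f x (u x) :=
  ⟨.equivOfInverse' _ _ (RepT_eq (RepT_comp (rep_mulH h m) (rep_mulH h' m')) Rep_id fun u =>
    funext fun x => e' x _ (u.2.2.2 x)) (RepT_eq (RepT_comp (rep_mulH h' m') (rep_mulH h m)) Rep_id
      fun u => funext fun x => e x _ (u.2.2.2 x)), rep_mulH h m⟩

variable [I.Boundaryless] [CompactSpace M] [FiniteDimensional ℝ V] [FiniteDimensional ℝ W]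

theorem cyo_conj {F : Fr I M ι} {A : Op M (Option ι) V W} (c : CyO F A) {f f' : M → V →L[ℝ] V}
    (s : Sm I f) (s' : Sm I f') (m : Maps A.p A.p f) (m' : Maps A.p A.p f')
    (e : ∀ x v, f' x (f x v) = v) (e' : ∀ x v, f x (f' x v) = v) :
    ∃ R : (F.H 0 A.p →L[ℝ] F.H 0 A.p) → (F.H 0 A.p →L[ℝ] F.H 0 A.p) → Prop,
      (∀ a a' T T', F.Rep a T → F.Rep a' T' → (∀ u ∈ Sec I A.p, (sop A).app F (fun y => f y (u y)) +
        T' (fun y => f y (u y)) = fun y => f y (((sop A).app F u + T u) y)) → R a a') ∧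
      ∀ a a', R a a' → Bijective (Crt72.Op (F.incl 1 0 A.p) (LH F A 0) a) →
        Bijective (Crt72.Op (F.incl 1 0 A.p) (LH F A 0) a') ∧ ∀ b b', R b b' → a ∈ SymA _ →
          b ∈ SymA _ → Bijective (Crt72.Op (F.incl 1 0 A.p) (LH F A 0) b) →
          Cyf70.sf (F.incl 1 0 A.p) (LH F A 0) (Ψ F.toPre 1 A.p) (TH F A.p) exists_stp.choose a' b' =
          Cyf70.sf (F.incl 1 0 A.p) (LH F A 0) (Ψ F.toPre 1 A.p) (TH F A.p) exists_stp.choose a b := by
  have y := mul_eqv (F := F.toPre) (Cb_of_compact s) (Cb_of_compact s') m m' (fun x v _ => e x v)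
    fun x v _ => e' x v
  have z := mul_eqv (p := pc A.p) (q := pc A.p) (Cht98.Cb_fst F.toPre (Cb_of_compact s))
    (Cht98.Cb_fst _ (Cb_of_compact s')) (fun x => m x.1) (fun x => m' x.1) (fun x v _ => e x.1 v)
    fun x v _ => e' x.1 v
  obtain ⟨G0, r0⟩ := y 0
  obtain ⟨G1, r1⟩ := y 1
  obtain ⟨U0, t0⟩ := z 0
  obtain ⟨U1, t1⟩ := z 1
  have rL : ∀ {a T}, F.Rep a T → F.Rep (Crt72.Op (F.incl 1 0 A.p) (LH F A 0) a)
      fun u => (sop A).app F u + T u := fun ha =>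
    RepT_add (rep_OpH c.good_sop.choose_spec 0).1 (RepT_comp ha (rep_incl zero_le_one))
  refine ⟨fun a a' => ∀ u, Crt72.Op (F.incl 1 0 A.p) (LH F A 0) a' (G1 u) =
    G0 (Crt72.Op (F.incl 1 0 A.p) (LH F A 0) a u), fun a a' T T' ha ha' h => DFunLike.congr_fun
      (RepT_eq (RepT_comp (rL ha') r1) (RepT_comp r0 (rL ha)) fun u => h u.1 u.2),
    fun a a' h ha => ⟨(Bijective.of_comp_iff _ G1.bijective).1 ((funext h : _ ∘ G1 = G0 ∘ _) ▸
      G0.bijective.comp ha), fun b b' h' sa sb hb => sf_conj c.cylD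
      exists_stp.choose_spec.choose_spec G0 (G₁ := G1) U1 (fun u => ?_) (fun u => ?_) sa sb ha hb h h'⟩⟩
  · exact (Ψ_nat t1 r1 1 le_rfl (fun _ _ _ => (one_smul _ _).symm) u).trans (by rw [incl_self])
  · have e1 : DtH F.toPre 0 A.p (U1 u) = U0 (DtH F.toPre 0 A.p u) :=
      DFunLike.congr_fun (RepT_eq (RepT_comp (rep_DtH (k := 0)) t1) (RepT_comp t0 (rep_DtH (k := 0)))
        fun u => funext fun x => (Ell97.D_app (cylP F.toPre) none (sm_fst s) u.2.1 x).trans (by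
          rw [D_none_fst _ s, Pi.zero_apply, zero_apply, zero_add])) u
    rw [ContinuousLinearMap.comp_apply, ContinuousLinearMap.comp_apply, e1]
    exact (Ψ_nat t0 r0 1 le_rfl (fun _ _ _ => (one_smul _ _).symm) _).trans (by rw [incl_self])

end gen

variable {κ lam ν : Type} [Fintype κ] [Fintype lam] [Fintype ν] [DecidableEq ν]

/-- a phase acting on the spinor part -/
def gC (J : En ν) (z : ℂ) : Cf κ ν →L[ℝ] Cf κ ν := sm2 (.id ℝ _) (cB J z)

/-- the same on the values of the operator -/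
def gE (J : En ν) (z : ℂ) : Ef κ ν →L[ℝ] Ef κ ν := sm2 (sm2 (cB J z) (.id ℝ _)) (.id ℝ _)

@[simp] theorem f2_gC (J : En ν) (z : ℂ) (v : Cf κ ν) : f2 _ _ (gC J z v) = f2 _ _ v := f2_sm2 ..

@[simp] theorem s2_gC (J : En ν) (z : ℂ) (v : Cf κ ν) : s2 _ _ (gC J z v) = cs J z (s2 _ _ v) :=
  s2_sm2 ..

theorem gE_i (J : En ν) (z : ℂ) (v : Eu ν) (w : F2 κ) (r : ℝ) :
    gE J z (i1 _ _ (i1 _ _ v + i2 _ _ w) + i2 _ _ r) =
      i1 _ _ (i1 _ _ (cB J z v) + i2 _ _ w) + i2 _ _ r :=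
  ext2 (ext2 (by simp [gE]) (by simp [gE])) (by simp [gE])

theorem co_gC (J : En ν) (z : ℂ) (v : Cf κ ν) (a : Option κ) : co a (gC J z v) = co a v :=
  congrArg (· a) (f2_gC J z v)

section bg
variable {E : Type} [NormedAddCommGroup E] [NormedSpace ℝ E] [FiniteDimensional ℝ E]
  [MeasurableSpace E] [BorelSpace E]
  {HM : Type} [TopologicalSpace HM] {I : ModelWithCorners ℝ E HM}
  {M : Type} [TopologicalSpace M] [ChartedSpace HM M] [IsManifold I ∞ M] [MeasurableSpace M]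
  {nc : ℕ} {b : Bg I M κ lam ν nc} {c : Cfg M κ ν} {x : M} {g : M → ℂ} {z : ℂ}

theorem sm_gC (J : En ν) (hg : Sm I g) : Sm I fun x => gC (κ := κ) J (g x) :=
  contMDiff_const.add (contMDiff_const.clm_comp
    (((cB J).contMDiff.comp hg).clm_comp contMDiff_const))

variable (hb : b.OK)
include hb

theorem ok_two : b.two.OK :=
  ⟨hb.B, hb.G, hb.tame, hb.m, hb.cc, hb.sk, hb.AJ, hb.co, hb.cp, hb.cρ, hb.cA, hb.cms, hb.com,
    hb.msJ, hb.msp, hb.omp, zero_le_two, fun j => j.elim0⟩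

theorem Jpm (x : M) : b.m.J * b.pm x = b.pm x * b.m.J :=
  (Commute.add_right (Jp hb x) (Jvol hb x)).smul_right _

theorem gC_gC (z z' : ℂ) (v : Cf κ ν) : gC b.m.J z (gC b.m.J z' v) = gC b.m.J (z * z') v :=
  ext2 (by simp) (by simp [Eqv71.cs_mul hb.m.Jsq])

theorem inner_gC (hz : ‖z‖ = 1) (v w : Cf κ ν) : ⟪gC b.m.J z v, gC b.m.J z w⟫_ℝ = ⟪v, w⟫_ℝ := by
  simp only [inner2, f2_gC, s2_gC, inner_cs hb.m.Jsq hb.m.Jsk hz]

theorem pC_gC (v : Cf κ ν) : pC b x (gC b.m.J z v) = gC b.m.J z (pC b x v) :=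
  ext2 (by simp) (by simp [cs_comm (Jpp hb x)])

theorem σ_gC (a : Option κ) (v : Cf κ ν) :
    (full b c).σ a x (gC b.m.J z v) = gE b.m.J z ((full b c).σ a x v) := by
  refine ext2 (ext2 ?_ ?_) ?_
  · simp [gE, Op40.σ1 hb, cs_comm (Jpp hb x), cs_comm (Jρ hb a x), cB_apply]
  · simp [gE, Op40.σ2]
  · simp [gE, Op40.σ3]

theorem tr_gE (a : Option κ) (w : Ef κ ν) :
    Op.tr ((full b c).σ a x) (gE b.m.J z w) = gC b.m.J z (Op.tr ((full b c).σ a x) w) := by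
  rw [Op40.tr_full hb, Op40.tr_full hb]
  exact ext2 (by simp [gE]) (by
    simp [gE, cB_apply, cs_comm (Jpm hb x), cs_comm (Jρ hb a x)]; simp [cs])

/-- the linearised operator is gauge covariant -/
theorem app_g (hc : b.Adm c) (hg : Gau I g) {u : M → Cf κ ν} (hu : Sm I u)
    (hp : ∀ x, pC b x (u x) = u x) (x : M) :
    (full b (b.act g c)).app b.F (fun y => gC b.m.J (g y) (u y)) x =
      gE b.m.J (g x) ((full b c).app b.F u x) := by
  have hl := LG.of_gau hg x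
  have e : vr (b.act g c) (fun y => gC b.m.J (g y) (u y)) 1 = b.act g (vr c u 1) :=
    Cfg.ext (funext₂ fun i y => by simp only [vr, act_a, co_gC]; ring) (funext fun y => by
      simp only [vr, act_Φ, s2_gC, map_add, map_smul, cB_apply])
  have hv : LA b (vr c u 1) x := ⟨fun i => (hc.sa i x).add (contMDiffAt_const.mul
      ((co i).contMDiff.contMDiffAt.comp x (hu x))), (hc.sΦ x).add
      ((Wz78.SA.clm ((1 : ℝ) • sp (κ := κ)) (hu x))), fun i => by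
      simp only [vr, one_mul, mul_add, Finset.sum_add_distrib, hc.pa]
      have := Op40.P_p1 hb (x := x) (f2 _ _ (u x)) i
      rw [(f2_ps x _).symm.trans (congrArg (f2 _ _) (hp x))] at this
      exact congrArg _ this, by
      simp only [vr, one_smul, map_add, hc.pΦ]
      exact congrArg _ ((s2_ps x _).symm.trans (congrArg _ (hp x)))⟩
  rw [Op40.app_full hb (adm_of fun y => (LA.of_adm hc y).act hb (hg.1 y)) _
    ((sm_gC _ hg.1).clm_apply hu) (fun y => by rw [pC_gC hb, hp]), Op40.app_full hb hc u hu hp, e,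
    eD_act hb hv hl, eD_act hb (.of_adm hc x) hl, eC_act hb hv.sa hl, eC_act hb (hc.sa · x) hl]
  have j : b.m.J * b.jp x = b.jp x * b.m.J := (Commute.refl _).mul_right (Jp hb x)
  have k : ⟪b.m.J ((b.act g c).Φ x), sp (gC b.m.J (g x) (u x))⟫_ℝ = ⟪b.m.J (c.Φ x), sp (u x)⟫_ℝ := by
    rw [s2_gC, ← inner_cs hb.m.Jsq hb.m.Jsk (hg.2 x) (b.m.J (c.Φ x)), ← cs_comm (J := b.m.J) rfl]
    rfl
  rw [gE_i, lG, lG, k, s2_gC, qd_cs hb (hg.2 x), map_sub (Pb50.cB _ _), map_sub (Pb50.cB _ _),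
    map_sum (Pb50.cB _ _)]
  simp only [co_gC, cs_comm j, cs_comm (Jρ hb _ x), map_smul, cB_apply]

theorem gC_star (hz : ‖z‖ = 1) (v : Cf κ ν) :
    gC b.m.J (star z) (gC b.m.J z v) = v ∧ gC b.m.J z (gC b.m.J (star z) v) = v := by
  rw [gC_gC hb, gC_gC hb, mul_comm z, star_mul_one hz, and_self]
  exact ext2 (by simp) (by simp)

omit hb in
theorem app_lo (c : Cfg M κ ν) {u : M → Cf κ ν} (hp : pC b x (u x) = u x) :
    b.A0.app b.F u x + b.lo c x (u x) = (full b.two c).app b.F u x := by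
  have e : b.A0.p x (u x) = u x := hp
  rw [Bg.lo, ContinuousLinearMap.comp_apply, e, sub_apply, Op.app, Op.app, Pre.op, Pre.op, add_assoc,
    add_sub_cancel]
  rfl

end bg

variable {e : En3 κ lam ν}

theorem pC_fst (x : e.Y.M × ℝ) : pC e.cyl.two x = e.A0.p x.1 :=
  congrArg (fun P => sm2 (idx P (ContinuousLinearMap.id ℝ ℝ)) (e.cyl.pp x))
    (funext₂ fun a b => by cases a <;> cases b <;> rfl)

theorem sop_app {w : e.Y.M → Cf κ ν} (hw : Sm e.Y.I w) (y : e.Y.M) : (sop e.A0).app e.D.F w y =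
    nu e.A0 y (e.cyl.A0.app e.cyl.F (fun x => w x.1) (y, 0)) := by
  rw [show e.cyl.F = Cyf70.cyl e.D.F from rfl,
    show nu e.A0 y = Op.tr (e.cyl.A0.σ none (y, 0)) from rfl]
  exact Op78.app_sop e.cyl.A0 hw y

theorem sop_lo (c : e.YC) {w : e.Y.M → Cf κ ν} (hw : Sm e.Y.I w) {y : e.Y.M}
    (hp : pC e.cyl (y, 0) (w y) = w y) :
    (sop e.A0).app e.D.F w y + nu e.A0 y (e.cyl.lo (fz c) (y, 0) (w y)) =
      nu e.A0 y ((full e.cyl.two (fz c)).app e.cyl.F (fun x => w x.1) (y, 0)) := by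
  rw [sop_app hw, ← map_add]
  exact congrArg _ (app_lo (u := fun x => w x.1) (x := (y, 0)) (fz c) hp)

variable (he : e.OK) {g : e.Y.M → ℂ} (hg : Gau e.Y.I g)
include he

theorem nu_gE (y : e.Y.M) (z : ℂ) (w : Ef κ ν) :
    nu e.A0 y (gE e.m.J z w) = gC e.m.J z (nu e.A0 y w) := by
  rw [show nu e.A0 y = Op.tr ((full e.cyl.two ⟨0, 0⟩).σ none (y, 0)) from rfl]
  exact tr_gE (ok_two he.cyl) none w

theorem p_gC (y : e.Y.M) (z : ℂ) (w : Cf κ ν) :
    e.A0.p y (gC e.m.J z w) = gC e.m.J z (e.A0.p y w) := pC_gC he.cyl (x := (y, 0)) w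

include hg

theorem sop_g {v : e.YC} (hv : e.cyl.Adm (fz v)) {u : e.Y.M → Cf κ ν} (hu : u ∈ Sec e.Y.I e.A0.p)
    (y : e.Y.M) : (full e.cyl.two (e.cyl.act (fun x => g x.1) (fz v))).app e.cyl.F
      (fun x => gC e.m.J (g x.1) (u x.1)) (y, 0) =
      gE e.m.J (g y) ((full e.cyl.two (fz v)).app e.cyl.F (fun x => u x.1) (y, 0)) :=
  app_g (ok_two he.cyl) (c := fz v) ⟨hv.sa, hv.sΦ, hv.pa, hv.pΦ⟩ (gau_fst hg) (sm_fst hu.1)
    (fun x => by rw [pC_fst]; exact hu.2.2 x.1) (y, 0)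

theorem cj_of {v v' : e.YC} (hv : e.cyl.Adm (fz v)) (h : fz v' = e.cyl.act (fun x => g x.1) (fz v))
    {a a' : e.T} {Z Z' : e.Y.M → Cf κ ν →L[ℝ] Cf κ ν}
    (hB : ∀ y, a.B y = nu e.A0 y ∘L e.cyl.lo (fz v) (y, 0) + Z y)
    (hB' : ∀ y, a'.B y = nu e.A0 y ∘L e.cyl.lo (fz v') (y, 0) + Z' y)
    (hZ : ∀ y w, Z' y (gC e.m.J (g y) w) = gC e.m.J (g y) (Z y w)) (hc : a'.c = a.c)
    (hξ : ∀ j y, a'.ξ j y = gC e.m.J (g y) (a.ξ j y)) : e.Cj g a a' := by
  intro u hu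
  funext y
  have k1 := sop_lo v hu.1 (hu.2.2 y)
  have k2 := sop_lo v' (w := fun y => gC e.m.J (g y) (u y)) ((sm_gC e.m.J hg.1).clm_apply hu.1)
    (y := y) ((p_gC he y (g y) (u y)).trans (congrArg (gC e.m.J (g y)) (hu.2.2 y)))
  rw [h, sop_g he hg hv hu, nu_gE he, ← k1, ← h] at k2
  have k5 : ∀ j z, ⟪gC e.m.J (g z) (a.ξ j z), gC e.m.J (g z) (u z)⟫_ℝ = ⟪a.ξ j z, u z⟫_ℝ :=
    fun j z => inner_gC he.cyl (hg.2 z) _ _
  have e1 : ∀ w, e.gU g w = fun y => gC e.m.J (g y) (w y) := fun _ => rfl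
  rw [e1, e1, Pi.add_apply]
  beta_reduce
  rw [Pi.add_apply, ap, ap, hB, hB', hc, add_apply, add_apply, ContinuousLinearMap.comp_apply,
    ContinuousLinearMap.comp_apply, ← add_assoc, ← add_assoc, k2, hZ, ← map_add, ← add_assoc, ← add_assoc, map_add _ _ (∑ _, _), map_sum]
  simp only [hξ, k5, map_smul]

omit hg in
theorem hol_vr {v w : e.YC} (hv : e.cyl.Adm (fz v)) (hw : e.cyl.Adm (fz w)) (r : ℝ) :
    hol (v.vr w r) = hol v + r * hol w := by
  have k : ∀ {v : e.YC}, e.cyl.Adm (fz v) →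
      Integrable (fun y => 4 * ∑ k, e.ζ y (none, some k) * v.a k y) e.D.F.μ := fun hv =>
    (continuous_const.mul (continuous_finsetSum _ fun k _ =>
      ((Map77.pj ℝ (none, some k)).continuous.comp he.sζ.continuous).mul
        (sm_slice_fst (hv.sa (some k)) 0).continuous)).integrable_of_hasCompactSupport
      (.of_compactSpace _)
  rw [hol, hol, hol, ← integral_const_mul, ← integral_add (k hv) ((k hw).const_mul r)]
  simp only [YC.vr, mul_add, Finset.sum_add_distrib, mul_left_comm _ r, ← Finset.mul_sum]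

theorem hess_g {v v' : e.YC} (hv : e.cyl.Adm (fz v))
    (h : fz v' = e.cyl.act (fun x => g x.1) (fz v)) :
    deriv (deriv e.f) (hol v') = deriv (deriv e.f) (hol v) := by
  have hv' := Eqv.adm he hv ⟨g, hg, h⟩
  have f : ∀ (v w : e.YC) r i x, (fz (v.vr w r)).a i x = (fz v).a i x + r * (fz w).a i x :=
    fun v w r i x => by cases i <;> simp [fz, Nd18.ca, YC.vr]
  have ad : ∀ {v w : e.YC}, e.cyl.Adm (fz v) → e.cyl.Adm (fz w) → ∀ r, e.cyl.Adm (fz (v.vr w r)) :=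
    fun {v w} hv hw r => ⟨fun i => funext (f v w r i) ▸ (hv.sa i).add (contMDiff_const.mul (hw.sa i)),
      hv.sΦ.add ((contMDiff_const (I' := 𝓘(ℝ, ℝ)) (c := r)).smul hw.sΦ), fun i x => by
        simp only [f, mul_add, Finset.sum_add_distrib, mul_left_comm _ r, ← Finset.mul_sum, hv.pa,
          hw.pa], fun x => (map_add _ _ _).trans (congrArg₂ (· + ·) (hv.pΦ x)
        ((map_smul _ _ _).trans (congrArg _ (hw.pΦ x))))⟩
  let w : e.YC := ⟨(v.vr v' (-1)).a, 0⟩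
  have hw : e.cyl.Adm (fz w) :=
    ⟨(ad hv hv' _).sa, contMDiff_const, (ad hv hv' _).pa, fun _ => map_zero _⟩
  have e1 : hol w = hol v + -1 * hol v' := hol_vr he hv hv' _
  by_cases e0 : hol w = 0
  · rw [show hol v' = hol v by linarith]
  have e2 : ∀ r, deriv e.f (hol v' + r * hol w) = deriv e.f (hol v + r * hol w) := fun r => by
    rw [← hol_vr he hv hw, ← hol_vr he hv' hw]
    refine he.per _ _ (ad hv hw r) ⟨g, hg, Cfg.ext (funext₂ fun i x => ?_) (funext fun x => ?_)⟩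
    · simp only [act_a, f, h]; ring
    · simpa [fz, YC.vr, w, act_Φ] using congrArg (·.Φ x) h
  have d : ∀ s, HasDerivAt (fun r => deriv e.f (s + r * hol w)) (deriv (deriv e.f) s * hol w) 0 :=
    fun s => by
      have := HasDerivAt.comp (0 : ℝ) (h₂ := deriv e.f) (((contDiff_infty_iff_deriv.1
        he.sf).2.differentiable (by simp)) _).hasDerivAt
        (((hasDerivAt_id (0 : ℝ)).mul_const (hol w)).const_add s)
      simp only [id, zero_mul, add_zero, one_mul] at this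
      exact this
  exact mul_right_cancel₀ e0 ((d _).unique (funext e2 ▸ d _))

theorem cj_hs {v v' : e.YC} (hv : e.cyl.Adm (fz v))
    (h : fz v' = e.cyl.act (fun x => g x.1) (fz v)) :
    e.Cj g (hs v) (hs v') ∧ e.Cj g (e.z0 v.a) (e.z0 v'.a) := by
  have hΦ : ∀ y, v'.Φ y = cs e.m.J (g y) (v.Φ y) := fun y => congrArg (·.Φ (y, 0)) h
  have k : ∀ r : ℝ, e.cyl.Adm (fz ⟨v.a, fun y => r • v.Φ y⟩) ∧ fz ⟨v'.a, fun y => r • v'.Φ y⟩ =
      e.cyl.act (fun x => g x.1) (fz ⟨v.a, fun y => r • v.Φ y⟩) := fun r =>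
    ⟨⟨hv.sa, (contMDiff_const (I' := 𝓘(ℝ, ℝ)) (c := r)).smul hv.sΦ, hv.pa, fun x =>
      (map_smul _ _ _).trans (congrArg _ (hv.pΦ x))⟩, Cfg.ext (congrArg (·.a) h) (funext fun x =>
        (congrArg (r • ·) (hΦ x.1)).trans (map_smul (cB e.m.J (g x.1)) _ _).symm)⟩
  have n := Eqv.nm he ⟨g, hg, h⟩
  have b : ∀ (v : e.YC) y, (hs v).B y = nu e.A0 y ∘L e.cyl.lo (fz ⟨v.a, fun y => √(e.w / 2) • v.Φ y⟩)
      (y, 0) + -(e.b (nm v) • (i2 _ _ ∘L e.cyl.pp (y, 0) ∘L sp)) := fun v y => by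
    rw [← sub_eq_add_neg, hs]
  refine ⟨cj_of he hg (k _).1 (k _).2 (b v) (b v') (fun y w => ext2 (by simp) ?_) (funext fun j =>
    show cond j _ _ = cond j _ _ by rw [n, hess_g he hg hv h]) fun j y => ?_, ?_⟩
  · have := cs_comm (Jpp he.cyl (y, 0)) (g y) (s2 _ _ w)
    simp only [n, neg_apply, smul_apply, ContinuousLinearMap.comp_apply, map_neg, map_smul, s2_i2,
      s2_gC]
    exact congrArg (fun t => -(_ • t)) this
  · cases j
    · exact ext2 (by simp [hs]) (by simp [hs, cs])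
    · exact ext2 (by simp [hs]) (by simp [hs, hΦ])
  · have k0 := k 0
    simp only [zero_smul, ← Pi.zero_def] at k0
    exact cj_of he hg k0.1 k0.2 (fun _ => by rw [z0]) (fun _ => by rw [z0]) (fun y w => (congrArg (e.eps • ·)
      (p_gC he y _ w)).trans (map_smul _ _ _).symm) rfl fun _ _ => (map_zero _).symm

theorem inv_g (hS : IxSym κ lam ν) (hR : IxRep κ lam ν) {a a' : e.T} (ha : e.TInv a) (ha' : e.TOK a')
    (h : e.Cj g a a') :
    e.TInv a' ∧ ∀ b b', e.TInv b → e.TOK b' → e.Cj g b b' → e.sf a' b' = e.sf a b := by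
  obtain ⟨R, h1, h2⟩ := cyo_conj (hS.cyo e he) (sm_gC e.m.J hg.1)
    (sm_gC e.m.J (g := fun y => star (g y)) fun y => sa_star (hg.1 y))
    (fun x v hv => by rw [p_gC he, hv]) (fun x v hv => by rw [p_gC he, hv])
    (fun x v => (gC_star he.cyl (hg.2 x) v).1) fun x v => (gC_star he.cyl (hg.2 x) v).2
  have e1 : ∀ w, e.gU g w = fun y => gC e.m.J (g y) (w y) := fun _ => rfl
  have cj : ∀ {a a'}, e.TOK a → e.TOK a' → e.Cj g a a' → R (e.aH a) (e.aH a') := fun ha ha' h =>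
    h1 _ _ _ _ (hR.y e he _ ha).1 (hR.y e he _ ha').1 fun u hu => by
      simp only [← e1]
      exact h u hu
  obtain ⟨h3, h4⟩ := h2 _ _ (cj ha.toTOK ha' h) ha.bij
  exact ⟨⟨ha', h3⟩, fun b b' hb hb' h' => h4 _ _ (cj hb.toTOK hb' h') (hR.y e he _ ha.toTOK).2
    (hR.y e he _ hb.toTOK).2 hb.bij⟩

omit he hg in
/-- **IX-GAU** -/
theorem ixGau (hS : IxSym κ lam ν) (hR : IxRep κ lam ν) : IxGau κ lam ν :=
  ⟨fun _ he _ hg _ _ hv h => cj_hs he hg hv h, fun _ he _ hg _ _ ha ha' h =>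
    inv_g he hg hS hR ha ha' h⟩

end Crest.Agent.X212.Ax1.Ix
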