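import Crest.Agent.X212.Ax1.IxA
import Crest.Agent.X212.Sm10.Nat0
import Crest.Agent.X212.Pb50.End

/-! # Row 212, lane IND-S (helper1): the index of isomorphic pieces (`IxNat`) -/

set_option autoImplicit false
set_option linter.unusedSectionVars false
set_option maxHeartbeats 400000
noncomputable section
open scoped Manifold ContDiff Topology InnerProductSpace
open MeasureTheory Set Function Filter

namespace Crest.Agent.X212.Ax1.Ix
open An An.Pre Sob92 Prm93 Sw Sw.En3 Cyf70 Pb50 Sm10.Nt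
open Map77 (f2 s2 sm2 ext2 f2_sm2 s2_sm2 f2_ps s2_ps idx_apply idx_idx fm_ext wd2 wd2_apply)
open Map77.S (Cf Ef full sp pC pE)
open M (Mf pm)

variable {κ lam ν : Type} [Fintype κ] [Fintype lam] [Fintype ν] [DecidableEq ν]
  {X X' : Mf 4} {nc nc' : ℕ}

/-- the map of the domains -/
def TC (V : Option κ → Option κ → ℝ) (u : En ν) : Cf κ ν →L[ℝ] Cf κ ν :=
  sm2 (idx V (ContinuousLinearMap.id ℝ ℝ)) u

/-- the map of the targets -/
def TE (V : Option κ → Option κ → ℝ) (u : En ν) : Ef κ ν →L[ℝ] Ef κ ν :=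
  sm2 (sm2 u (R2 V)) (ContinuousLinearMap.id ℝ ℝ)

theorem cb_idx {α : Type} [Fintype α] {F : Pre X.I X.M (Option κ)} {S : X.M → α → α → ℝ}
    (h : ∀ a b, F.Cb fun x => S x a b) : F.Cb fun x => idx (S x) (ContinuousLinearMap.id ℝ ℝ) := by
  classical
  simp only [Map77.idx_eq, Map77.tp_eq]
  exact Cb_sum _ fun a _ => Cb_comp (Cb_const _) (Cb_sum _ fun b _ => Cb_smul (h a b) (Cb_const _))

theorem cb_T {F : Pre X.I X.M (Option κ)} {V : X.M → Option κ → Option κ → ℝ} {u : X.M → En ν}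
    (h : ∀ a b, F.Cb fun x => V x a b) (hu : F.Cb u) :
    (F.Cb fun x => TC (V x) (u x)) ∧ F.Cb fun x => TE (V x) (u x) :=
  ⟨Map77.Cb_ps (cb_idx h) hu, Map77.Cb_ps (Map77.Cb_ps hu
    (cb_idx fun s t => Cb_smul (h s.1 t.1) (h s.2 t.2))) (Cb_const _)⟩

section iso
variable {b : Bg X.I X.M κ lam ν nc} {b' : Bg X'.I X'.M κ lam ν nc'}
  {φ : OpenPartialHomeomorph X.M X'.M} {U : X.M → Option κ → Option κ → ℝ} {u : X.M → En ν}
  {α : Option κ → X.M → ℝ} {x : X.M}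

theorem p_pm (hb : b.OK) (x : X.M) (v : Eu ν) : b.m.p x (b.pm x v) = b.pm x v := by
  rw [← mul_apply_eq_comp, Bg.pm, mul_smul_comm, mul_add, hb.m.pidem x trivial, p_vol hb]

theorem T_g (hb : b.OK) {z : ℂ} (hu : ∀ v, u x v = cs b.m.J z (b.m.p x v)) :
    (∀ v, b.A0.p x v = v → TC (fun a a' => b.B.P a a' x) (u x) v = gC b.m.J z v) ∧
      ∀ v, b.A0.q x v = v → TE (fun a a' => b.B.P a a' x) (u x) v = gE b.m.J z v := by
  refine ⟨fun v hv => ext2 ?_ ?_, fun v hv => ext2 (ext2 ?_ ?_) (by simp [TE, gE])⟩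
  · rw [f2_gC, TC, f2_sm2]
    exact (f2_ps (p := b.p1) (q := b.pp) x v).symm.trans (congrArg _ hv)
  · have : b.pp x (s2 _ _ v) = s2 _ _ v := (s2_ps x v).symm.trans (congrArg _ hv)
    rw [s2_gC, TC, s2_sm2, hu, ← this, ← mul_apply_eq_comp (b.m.p x), p_pp hb]
  · have : b.pm x (f2 _ _ (f2 _ _ v)) = f2 _ _ (f2 _ _ v) :=
      (f2_ps x _).symm.trans (congrArg _ ((f2_ps x v).symm.trans (congrArg _ hv)))
    simp only [TE, gE, f2_sm2, hu, cB_apply]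
    rw [← this, p_pm hb]
  · have : b.p2 x (s2 _ _ (f2 _ _ v)) = s2 _ _ (f2 _ _ v) :=
      (s2_ps x _).symm.trans (congrArg _ ((f2_ps x v).symm.trans (congrArg _ hv)))
    simp only [TE, gE, f2_sm2, s2_sm2]
    exact tg_of hb this

variable (h : b.Iso b' φ U u α) (hb : b.OK) (hb' : b'.OK) (hx : x ∈ φ.source)
include h hb hb'

theorem rt (src : φ.source = univ) (tgt : φ.target = univ) (hU : ∀ a a', b.F.Cb fun x => U x a a') :
    Rt b.F.toPre b'.F.toPre φ fun a a' x => U x a a' := by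
  obtain ⟨_, G⟩ := h.g
  have e : ∀ a x, b.F.e a x = ∑ j, U x j a • ∑ c, U x j c • b.F.e c x := fun a x => by
    simp only [Finset.smul_sum, smul_smul]
    rw [Finset.sum_comm]
    simp only [← Finset.sum_smul, G.UU x (src ▸ trivial), ← hb.G.P, b.F.P_e]
  have m : Mix b.F.toPre (rot b.F.toPre _ (fun a a' => Prm93.Cb.sm (hU a a')) e) fun a a' x => U x a a' :=
    fun _ _ => rfl
  exact ⟨src, tgt, ⟨rot b.F.toPre _ _ e, ⟨G.sm, G.sm', fun a x hx => G.e x hx a, G.μ⟩, m,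
    ⟨⟨_, m, hU⟩, 1, by simp [rot]⟩, ⟨_, e, fun a a' => m.Cb hU (hU a' a)⟩, 1, by simp [rot]⟩, hU⟩

include hx

theorem p1_U (v : Fm (Option κ) ℝ) : b'.p1 (φ x) (idx (U x) (ContinuousLinearMap.id ℝ ℝ) v) =
    idx (U x) (ContinuousLinearMap.id ℝ ℝ) (b.p1 x v) := by
  obtain ⟨_, L⟩ := lg h hb hb'
  simp only [Bg.p1, idx_idx, (L.be x hx).PU hb'.B, (L.be x hx).UP hb.B]

theorem upm (v : Eu ν) : b'.pm (φ x) (u x v) = u x (b.pm x v) := by
  simp only [Bg.pm, smul_apply, add_apply, uvol h hb hb' hx, pu h hb hb' hx, map_smul, map_add,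
    up h hb hb' hx]

theorem pi_T : PI (b.A0.p x) (b'.A0.p (φ x)) (TC (U x) (u x)) (TC (fun a j => U x j a) (trn (u x))) ∧
    PI (b.A0.q x) (b'.A0.q (φ x)) (TE (U x) (u x)) (TE (fun a j => U x j a) (trn (u x))) := by
  obtain ⟨_, G⟩ := h.g
  change PI (sm2 (b.p1 x) (b.pp x)) (sm2 (b'.p1 (φ x)) (b'.pp (φ x))) _ _ ∧
    PI (sm2 (sm2 (b.pm x) (b.p2 x)) (.id ℝ ℝ)) (sm2 (sm2 (b'.pm (φ x)) (b'.p2 (φ x))) (.id ℝ ℝ)) _ _
  refine ⟨PI.sum (.of (π := b.p1 x) (π' := b'.p1 (φ x)) (fun v => ?_) (fun v => ?_)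
      (p1_U h hb hb' hx) ((Op40.prj1 hb).idem x) ((Op40.prj1 hb').idem _))
    (.of (tu h hb hb' hx) (ut h hb hb' hx) (upp h hb hb' hx) (fun v => congrArg (· v) (p_pp hb x))
      fun v => congrArg (· v) (p_pp hb' _)),
    PI.sum (PI.sum (.of (tu h hb hb' hx) (ut h hb hb' hx) (upm h hb hb' hx) (p_pm hb x) (p_pm hb' _))
      (.of (fun v => ?_) (fun v => ?_) (p2_R2 h hb hb' hx) (tg_p2 hb x) (tg_p2 hb' _)))
      ⟨fun _ _ => ⟨rfl, rfl⟩, fun _ _ => ⟨rfl, rfl⟩⟩⟩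
  · simp only [idx_idx, G.UU x hx]; rfl
  · simp only [idx_idx, G.UU' x hx]; rfl
  · simp only [R2_R2, G.UU x hx]
  · simp only [R2_R2, G.UU' x hx]

theorem σ_T (a : Option κ) (v : Cf κ ν) :
    ∑ j, U x j a • b'.A0.σ j (φ x) (TC (U x) (u x) v) = TE (U x) (u x) (b.A0.σ a x v) := by
  obtain ⟨_, L⟩ := lg h hb hb'
  have B := L.be x hx
  have e1 : ∀ {b : Bg X.I X.M κ lam ν nc}, b.OK → ∀ a v, f2 _ _ (f2 _ _ (b.A0.σ a x v)) =
    b.m.ρ a x (b.pp x (sp v)) := fun hb => Op40.σ1 (ok_two hb)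
  have e1' : ∀ a v, f2 _ _ (f2 _ _ (b'.A0.σ a (φ x) v)) = b'.m.ρ a (φ x) (b'.pp (φ x) (sp v)) :=
    Op40.σ1 (ok_two hb')
  have e2 : ∀ a v, s2 _ _ (f2 _ _ (b.A0.σ a x v)) =
    b.p2 x (wd2 ℝ (fun i j => b.B.P i j x) a (b.p1 x (f2 _ _ v))) := Op40.σ2
  have e2' : ∀ a v, s2 _ _ (f2 _ _ (b'.A0.σ a (φ x) v)) =
    b'.p2 (φ x) (wd2 ℝ (fun i j => b'.B.P i j (φ x)) a (b'.p1 (φ x) (f2 _ _ v))) := Op40.σ2
  have e3 : ∀ a v, s2 _ _ (b.A0.σ a x v) = b.p1 x (f2 _ _ v) a := Op40.σ3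
  have e3' : ∀ a v, s2 _ _ (b'.A0.σ a (φ x) v) = b'.p1 (φ x) (f2 _ _ v) a := Op40.σ3
  refine ext2 (ext2 ?_ ?_) ?_
  · simp only [map_sum, map_smul, e1 hb, e1', TC, TE, f2_sm2, s2_sm2, upp h hb hb' hx,
      uρ' h hb hb' hx]
  · simp only [map_sum, map_smul, e2, e2', TC, TE, f2_sm2, s2_sm2, p1_U h hb hb' hx,
      ← p2_R2 h hb hb' hx]
    generalize b.p1 x (f2 _ _ v) = β
    simp only [← map_smul (b'.p2 _), ← map_sum (b'.p2 _)]
    refine congrArg _ (fm_ext fun s => ?_)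
    have k : ∀ i, ∑ j, U x j a * b'.B.P i j (φ x) = ∑ j, U x i j * b.B.P j a x := fun i => by
      simp only [mul_comm (U x _ a), B.PU hb'.B, B.UP hb.B]
    simp only [R2_apply, WithLp.ofLp_sum, Finset.sum_apply, WithLp.ofLp_smul, Pi.smul_apply,
      wd2_apply, smul_eq_mul, mul_sub, ← mul_assoc, Finset.sum_sub_distrib, idx_apply,
      ContinuousLinearMap.id_apply]
    simp only [← Finset.sum_mul _ _ (∑ _, _), k]
    simp only [Finset.sum_mul_sum]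
    rw [Finset.sum_comm (f := fun i j => U x s.2 i * _ * (U x s.1 j * _))]
    congr 1 <;> exact Finset.sum_congr rfl fun _ _ => Finset.sum_congr rfl fun _ _ => by ring
  · simp only [map_sum, map_smul, e3, e3', TC, TE, f2_sm2, s2_sm2, p1_U h hb hb' hx, idx_apply,
      ContinuousLinearMap.id_apply, Finset.smul_sum, smul_smul]
    rw [Finset.sum_comm]
    simp only [← Finset.sum_smul, B.UU, Op40.P_p1 hb]

end iso

/-- the operator on the cylinder with the term `a` -/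
def CY (e : En3 κ lam ν) (a : e.T) (f : e.Y.M × ℝ → Cf κ ν) (z : e.Y.M × ℝ) : Ef κ ν :=
  e.A0.σ none z.1 (deriv (fun s => f (z.1, s)) z.2 +
    ((sop e.A0).app e.D.F (fun y => f (y, z.2)) + e.ap a fun y => f (y, z.2)) z.1)

theorem cy_g {e : En3 κ lam ν} (he : e.OK) {g : e.Y.M → ℂ} {a a' : e.T} (h : e.Cj g a a')
    {f f' : e.Y.M × ℝ → Cf κ ν} {z : e.Y.M × ℝ} {δ : ℝ}
    (hf : (fun y => f (y, z.2)) ∈ Sec e.Y.I e.A0.p) (hd : DifferentiableAt ℝ (fun s => f (z.1, s)) z.2)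
    (e' : ∀ᶠ t in 𝓝 z.2, ∀ y, f' (y, t + δ) = gC e.m.J (g y) (f (y, t))) :
    CY e a' f' (z.1, z.2 + δ) = gE e.m.J (g z.1) (CY e a f z) := by
  have e1 : ∀ w, e.gU g w = fun y => gC e.m.J (g y) (w y) := fun _ => rfl
  have e2 : deriv (fun s => f' (z.1, s)) (z.2 + δ) =
      gC e.m.J (g z.1) (deriv (fun s => f (z.1, s)) z.2) := by
    rw [← deriv_comp_add_const]
    exact (((gC e.m.J (g z.1)).hasFDerivAt.comp_hasDerivAt _ hd.hasDerivAt).congr_of_eventuallyEq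
      (e'.mono fun t ht => ht z.1)).deriv
  have e3 : ∀ v, e.A0.σ none z.1 (gC e.m.J (g z.1) v) = gE e.m.J (g z.1) (e.A0.σ none z.1 v) :=
    σ_gC (ok_two he.cyl) (c := ⟨0, 0⟩) (x := (z.1, 0)) none
  rw [CY, CY, ← e3, map_add (gC _ _), ← e2, funext e'.self_of_nhds, ← e1, h _ hf, e1]

section nk
variable {e : En3 κ lam ν} {b : Bg X.I X.M κ lam ν nc} (K : Sw.Nk e b)

/-- far out on the end the operator is that of the cylinder -/
def Far (s : Bool) (a : e.T) (st : (X.M → Cf κ ν) → X.M → Ef κ ν) : Prop :=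
  ∃ T, ∀ z : e.Y.M × ℝ, T < pm s * z.2 → ∀ w, Sm X.I w → st w (K.ψ z) = CY e a (fun x => w (K.ψ x)) z

variable (hO : IxOp κ lam ν) (he : e.OK) (hb : b.OK) {z : e.Y.M × ℝ} (hz : z ∈ K.ψ.source)
include hO he hb hz

theorem nk_A0 : b.A0.p (K.ψ z) = e.A0.p z.1 ∧ b.A0.q (K.ψ z) = e.A0.q z.1 ∧
    (∀ a, b.A0.σ a (K.ψ z) = e.A0.σ a z.1) ∧ b.A0.B (K.ψ z) = e.A0.B z.1 := by
  have := hO.lit e.Z X 0 nc e.cyl b K.ψ he.cyl hb
    ⟨K.iso, K.P, K.o, K.hJ, K.hw, K.hp, K.hρ, K.hA, K.hms, K.hom⟩ z hz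
  rwa [← hO.cy e he] at this

theorem nk_app (hS : IxSym κ lam ν) {w : X.M → Cf κ ν} (hw : Sm X.I w) (a : e.T) :
    b.A0.app b.F w (K.ψ z) + e.A0.σ none z.1 (e.ap a (fun y => w (K.ψ (y, z.2))) z.1) =
      CY e a (fun x => w (K.ψ x)) z := by
  obtain ⟨-, -, h3, h4⟩ := nk_A0 K hO he hb hz
  have c := hS.cyo e he
  obtain ⟨_, g⟩ := c.good
  have d := (sa_ψ K hz (hw _)).mdifferentiableAt (by simp)
  have q1 : ∀ a v, e.A0.q z.1 (e.A0.σ a z.1 v) = e.A0.σ a z.1 v := fun a => g.qσ a z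
  have q2 : ∀ v, e.A0.q z.1 (e.A0.B z.1 v) = e.A0.B z.1 v := g.qB z
  have d1 : b.F.D none w (K.ψ z) = _ := (D_ψ K hz w none).trans (D_none_at e.D.F.toPre d)
  have d2 : ∀ a, b.F.D (some a) w (K.ψ z) = _ := fun a =>
    (D_ψ K hz w (some a)).trans (D_some_at e.D.F.toPre d a)
  simp only [CY, Op.app, Pre.op, Fintype.sum_option, h3, h4, d1, d2, map_add, map_sum, Pi.add_apply,
    ContinuousLinearMap.comp_apply, c.σ_nu, q1, q2, add_assoc]

end nk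

theorem far_cast {𝓔 : Type*} {en : 𝓔 → En3 κ lam ν} {ε ε' : 𝓔} (h : ε' = ε)
    {b : Bg X.I X.M κ lam ν nc} (K : Sw.Nk (en ε') b) (s : Bool) (a : (en ε').T)
    (st : (X.M → Cf κ ν) → X.M → Ef κ ν) (H : K.Inf s → Far K s a st)
    (hs : (h ▸ K : Sw.Nk (en ε) b).Inf s) :
    ∃ a' : (en ε).T, HEq a' a ∧ Far (h ▸ K : Sw.Nk (en ε) b) s a' st := by
  subst h; exact ⟨a, .rfl, H hs⟩

theorem far_st (hO : IxOp κ lam ν) (hS : IxSym κ lam ν) {N : Type} [Fintype N]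
    {e : N → En3 κ lam ν} {P : Pz X nc e} (hP : P.OK) (a : TCs e) {i : N} {s : Bool}
    {K : Sw.Nk (e i) P.bg} (hK : K ∈ P.nk i) (hs : K.Inf s) : Far K s (a i s) (P.st a) := by
  obtain ⟨T, -, hT⟩ := nd_basis.eventually_iff.1 (ev_ψ K hs)
  refine ⟨max T (|K.p.getD 0| + |K.q.getD 0| + 2), fun x hx w hw => ?_⟩
  obtain ⟨hx, h⟩ := max_lt_iff.1 hx
  replace hx := hT hx
  have a1 := abs_nonneg (K.p.getD 0)
  have a2 := abs_nonneg (K.q.getD 0)
  rw [← nk_app K hO (hP.en i) hP.bg hx hS hw, Pz.st, Finset.sum_comm,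
    Finset.sum_congr rfl fun b _ => sum_nk hP hK (K.ψ.map_source hx) _ fun j K' hz => by
      rw [Nk.et, show K'.bw b (K.ψ x) = 0 from by_contra fun k => hz (bw_dp K' k).2.2, zero_smul],
    Finset.sum_eq_single s (fun b _ hb => ?_) fun k => (k (Finset.mem_univ s)).elim, Nk.et,
    Nk.bw, if_pos hs, K.tm_ψ x hx, Real.smoothTransition.one_of_one_le (by linarith), one_smul,
    K.ψ.left_inv hx, (nk_A0 K hO (hP.en i) hP.bg hx).2.2.1]
  rw [Nk.et, show K.bw b (K.ψ x) = 0 from by_contra fun k => ?_, zero_smul]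
  have := (bw_dp K k).2.1
  rw [K.tm_ψ x hx] at this
  cases s <;> cases b <;> simp only [pm, ne_eq, not_true, if_true, Bool.false_eq_true, if_false]
    at hb h this <;> linarith

universe u

/-- **IX-NAT** -/
theorem ixNat (hO : IxOp κ lam ν) (hS : IxSym κ lam ν) (hR : IxRep κ lam ν) :
    IxNat.{u} κ lam ν := by
  intro X X' nc N N' _ _ 𝓔 en ty ty' P P' φ r g U u α hP hP' h a a' ha ha' hc n H
  have src : ∀ x, x ∈ φ.source := fun x => h.src ▸ trivial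
  have off : ∀ {i s}, ∀ K ∈ P.nk i, K.Inf s → ¬P.Off i := fun {i s} K hK hs k => by
    obtain ⟨c, h1, h2⟩ := k K hK
    cases s <;> simp [Nk.Inf, h1, h2] at hs
  obtain ⟨_, G⟩ := h.iso.g
  have hU : ∀ j k, P.bg.F.Cb fun x => U x j k := fun j k =>
    cb_of_ends hP (contMDiffOn_univ.1 (h.src ▸ G.sU j k)) fun i s K hK hs =>
      (gb_fz ((hP.en i).cyl.B.sP j k) fun x => by cases j <;> cases k <;> rfl).congr
        ((ev_ψ K hs).mono fun x hx => (h.U i (off K hK hs) K hK x hx j k).trans (K.P j k x hx))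
  have hu : P.bg.F.Cb u :=
    cb_of_ends hP (contMDiffOn_univ.1 (h.src ▸ h.iso.su)) fun i s K hK hs =>
      (gb_fst (φ := fun y => Pb50.cB P.bg.m.J (g i y) ∘L (en (ty i)).m.p y)
        (((Pb50.cB _).contMDiff.comp (h.gau i).1).clm_comp
          (sm_slice_fst (hP.en i).cyl.cc.sp 0))).congr ((ev_ψ K hs).mono fun x hx =>
        ContinuousLinearMap.ext fun v => (h.u i (off K hK hs) K hK x hx v).trans (by
          rw [K.hp x hx]; rfl))
  have c1 := cb_T hU hu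
  have c2 := cb_T (fun j k => hU k j) (Cb_clm Eqv71.trnL hu)
  have R := rt h.iso hP.bg hP'.bg h.src h.tgt hU
  have key : ∀ q : N × Bool, ∃ T, ∀ K ∈ P.nk q.1, K.Inf q.2 → ∀ z ∈ univ ×ˢ K.far q.2 T,
      ∀ w ∈ Sec X.I P.bg.A0.p, P'.st a' (fun y => TC (U (φ.symm y)) (u (φ.symm y)) (w (φ.symm y)))
        (φ (K.ψ z)) = TE (U (K.ψ z)) (u (K.ψ z)) (P.st a w (K.ψ z)) := fun ⟨i, s⟩ => by
    by_cases hK : ∃ K ∈ P.nk i, K.Inf s
    swap
    · exact ⟨0, fun K h1 h2 => (hK ⟨K, h1, h2⟩).elim⟩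
    obtain ⟨K, hK, hs⟩ := hK
    have o := off K hK hs
    have he := hP.en i
    obtain ⟨i', hr⟩ := (h.l i).resolve_left o
    obtain ⟨δ, hδ⟩ := h.nc i i' hr
    obtain ⟨e, K₁, hK₁, K', hK', p1, p2, p3⟩ := hδ.resolve_left fun k => o k.1
    obtain rfl := Option.mem_unique hK hK₁
    obtain ⟨a'', e1, T', f'⟩ := far_cast e K' s (a' i' s) _ (far_st hO hS hP' a' hK') (by
      cases s <;> simp only [Nk.Inf, if_true, Bool.false_eq_true, if_false] at hs ⊢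
      exacts [by rw [p1, hs]; rfl, by rw [p2, hs]; rfl])
    obtain ⟨T, f⟩ := far_st hO hS hP a hK hs
    refine ⟨max T (T' + |δ|), fun K₂ hK₂ _ z hz w hw => ?_⟩
    obtain rfl := Option.mem_unique hK hK₂
    obtain ⟨t1, t2⟩ := max_lt_iff.1 (show max T (T' + |δ|) < pm s * z.2 from hz.2.2)
    have hz' : z ∈ K.ψ.source := K.mem_src.2 hz.2.1
    have tg : ∀ x ∈ K.ψ.source, _ := fun x hx => T_g hP.bg (h.u i o K hK x hx)
    have eU : ∀ x ∈ K.ψ.source, U (K.ψ x) = _ := fun x hx => funext₂ (h.U i o K hK x hx)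
    rw [← (p3 z hz').2, f' (z.1, z.2 + δ) (by
        cases s <;> simp only [pm, if_true, Bool.false_eq_true, if_false] at t2 ⊢ <;>
          linarith [le_abs_self δ, neg_abs_le δ]) _ (RepT_mem (R.eqv c1.1 c2.1
        (fun x => (pi_T h.iso hP.bg hP'.bg (src x)).1) 0).choose_spec.1 ⟨w, hw⟩).1, eU z hz',
      (tg z hz').2 _ ((RepT_mem (hR.x X nc N _ P hP a ha).1 ⟨w, hw⟩).2.2 _), f z t1 w hw.1, K.hJ]
    refine cy_g he (hc i i' s hr ⟨K, hK, hs⟩ a'' e1) ⟨fun y => ?_, .of_compactSpace _, fun y => ?_⟩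
      (diff_slice_snd ((sa_ψ K hz' (hw.1 _)).mdifferentiableAt (by simp))) ?_
    · exact ContMDiffAt.comp (g := fun x => w (K.ψ x)) y (sa_ψ K (Pb50.src K hz.2.1 y) (hw.1 _))
        (contMDiffAt_id.prodMk contMDiffAt_const)
    · rw [← (nk_A0 K hO he hP.bg (Pb50.src K hz.2.1 y)).1]; exact hw.2.2 _
    · filter_upwards [Nd18.isOpen_Jv.mem_nhds hz.2.1] with t ht y
      have hy := Pb50.src K ht y
      rw [(p3 _ hy).2, R.l, eU _ hy, (tg _ hy).1 _ (hw.2.2 _), K.hJ]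
  choose T hT using key
  obtain ⟨T', hT'⟩ := Finite.exists_le T
  refine nat_abs R (by norm_num) (hR.x X nc N _ P hP a ha).2 (hR.x X' nc N' _ P' hP' a' ha').2
    (hR.x X nc N _ P hP a ha).1 (hR.x X' nc N' _ P' hP' a' ha').1 c1.1 c2.1 c1.2 c2.2
    (fun x => (pi_T h.iso hP.bg hP'.bg (src x)).1) (fun x => (pi_T h.iso hP.bg hP'.bg (src x)).2)
    (fun j x => σ_T h.iso hP.bg hP'.bg (src x) j) ⟨_, hP.cpt T', fun w hw x hx => ?_⟩ H
  simp only [Pz.core, mem_ofPred, not_forall, not_not] at hx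
  obtain ⟨i, s, K, hK, hs, z, hz, rfl⟩ := hx
  exact hT (i, s) K hK hs z (far_mono K (hT' _) hz) w hw

end Crest.Agent.X212.Ax1.Ix
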