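import Crest.Agent.X212.Ax1.Lf0

/-! # Row 212, NT-LOCA (helper1): lines in the direction of a connection -/

set_option autoImplicit false
set_option linter.unusedSectionVars false
noncomputable section
open scoped Manifold ContDiff Topology
open Set Function Filter

namespace Crest.Agent.X212.Ax1.Lf
open An Mod61 Eqv71 Sob92

theorem const_der {X X' Y Y' Z : Type} [NormedAddCommGroup X] [NormedSpace ℝ X]
    [NormedAddCommGroup X'] [NormedSpace ℝ X'] [NormedAddCommGroup Y] [NormedSpace ℝ Y]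
    [NormedAddCommGroup Y'] [NormedSpace ℝ Y'] [NormedAddCommGroup Z] [NormedSpace ℝ Z] {f : X → Y}
    {g : X' → Y'} (π : Y →L[ℝ] Z) (L : Y' →L[ℝ] Z) {x v : X} {x' v' : X'}
    (hf : DifferentiableAt ℝ f x) (hg : DifferentiableAt ℝ g x') {y : ℝ → X} {y' : ℝ → X'}
    (hy : ∀ s, y s = x + s • v) (hy' : ∀ s, y' s = x' + s • v')
    (e : ∀ s s', π (f (y s)) - L (g (y' s)) = π (f (y s')) - L (g (y' s'))) :
    π (fderiv ℝ f x v) = L (fderiv ℝ g x' v') :=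
  (DFunLike.congr_fun (π.hasFDerivAt.comp x hf.hasFDerivAt).fderiv v).symm.trans
    (even_der L (π.differentiableAt.comp x hf) hg hy hy' fun _ => e _ _)

variable {E : Type} [NormedAddCommGroup E] [NormedSpace ℝ E] [FiniteDimensional ℝ E]
  [MeasurableSpace E] [BorelSpace E]
  {HM : Type} [TopologicalSpace HM] {I : ModelWithCorners ℝ E HM} [I.Boundaryless]
  {M : Type} [TopologicalSpace M] [ChartedSpace HM M] [IsManifold I ∞ M]
  [MeasurableSpace M] [T2Space M] [BorelSpace M] [SecondCountableTopology M]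
  {ι lam : Type} [Fintype ι] [Fintype lam] {T : Type} [NormedAddCommGroup T] [NormedSpace ℝ T]
  {𝔉 : Mod61.Fam I M ι lam T} {r n m k : ℕ} {o : Ref 𝔉} {O : Set M}

theorem rh_p {B : Base M ι lam} {md : Md M ι lam} (H : md.OK I B) (κ : Cut M lam) (a) :
    Cnt93.Rh κ κ B B md.p 1 a = a := by
  rw [Cnt93.Rh, show csE md.J (1 : Circle) ∘L md.p κ.x0 = md.p κ.x0 by
    simp [csE, ContinuousLinearMap.one_def]]
  exact (congrArg _ (Cnt93.mem_p H a)).trans
    (Submodule.orthogonalProjectionOnto_mem_subspace_eq_self a)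

theorem Fg_congr {md : Md M ι lam} {F : Fr I M ι} {W W' : md.Cn} {x : M}
    (h : ∀ a, W a =ᶠ[𝓝 x] W' a) : md.Fg F W x = md.Fg F W' x := by
  simp only [Md.Fg, Wz78.curv, dv_congr (h _), (h _).eq_of_nhds]

theorem dir_zero {md : Md M ι lam} {F : Fr I M ι} {W : md.Cn} {Φ : M → md.V} {x : M}
    (h : Φ =ᶠ[𝓝 x] fun _ => 0) : Wz78.dir I F.e md.ρ W Φ x = 0 :=
  Finset.sum_eq_zero fun a _ => by
    rw [Wz78.nab_congr a h]; simp [Wz78.nab, dv_const]

section ext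
variable {V : Type} [NormedAddCommGroup V] [InnerProductSpace ℝ V] [CompleteSpace V] {F : Fr I M ι}
  {S : ℝ} (hS : Sup F.toPre S) {P Q : M → CL V V} (e : ∀ z v, P z v = v → Q z v = v) {u : M → V}
include hS e

theorem hs_id (hu : u ∈ Hs F.toPre P) : u ∈ Hs F.toPre Q :=
  Hs_mul hS (Cb_const (.id ℝ V)) (show Maps P Q fun _ => .id ℝ V from e) hu

theorem val_id (hk : 4 ≤ k) (a : F.H k P) :
    F.val k Q (F.mulH k P Q (fun _ => .id ℝ V) a) = F.val k P a :=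
  funext (val_mulH hS hk (Cb_const _) (show Maps P Q fun _ => .id ℝ V from e) a)

theorem id_ofV (hk : 4 ≤ k) (hu : u ∈ Hs F.toPre P) :
    F.mulH k P Q (fun _ => .id ℝ V) (ofV F.toPre k P u) = ofV F.toPre k Q u :=
  (ofV_eq hS hk ((val_id hS e hk _).trans (val_ofV hu hk))).symm

theorem eq_id (hk : 4 ≤ k) {a : F.H k Q} {a' : F.H k P} (h : F.val k Q a = F.val k P a') :
    a = F.mulH k P Q (fun _ => .id ℝ V) a' := val_injective hS hk (h.trans (val_id hS e hk _).symm)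

end ext

/-- the second row, extended by zero -/
def iC (F : Pre I M ι) {V : Type} [NormedAddCommGroup V] [InnerProductSpace ℝ V] (k : ℕ)
    (P Q : M → CL V V) (X X' Y Y' : Type) [NormedAddCommGroup X] [NormedSpace ℝ X]
    [NormedAddCommGroup X'] [NormedSpace ℝ X'] [NormedAddCommGroup Y] [NormedSpace ℝ Y]
    [NormedAddCommGroup Y'] [NormedSpace ℝ Y'] :
    X × F.H k P × X' →L[ℝ] Y × F.H k Q × Y' :=
  .inr ℝ _ _ ∘L .inl ℝ _ _ ∘L F.mulH k P Q (fun _ => .id ℝ V) ∘L .fst ℝ _ _ ∘L .snd ℝ _ _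

/-- the line in the direction of a connection -/
def lα (y : Pnt o r) {u : M → Fm ι o.m.A} (hu : u ∈ Hs 𝔉.F0.toPre o.P1) (s : ℝ) : Pnt o r :=
  ⟨y.α + s • u, y.φ, y.z, y.t, add_mem y.hα (Submodule.smul_mem _ _ hu), y.hφ, y.ht⟩

variable (h : 𝔉.OK)
include h

theorem lα_pt (y : Pnt o r) {u : M → Fm ι o.m.A} (hu : u ∈ Hs 𝔉.F0.toPre o.P1) (hk : 3 ≤ k)
    (s : ℝ) : (lα y hu s).pt k = y.pt k + s • (ofV 𝔉.F0.toPre (k + 1) o.P1 u, 0, 0) :=
  C_ext h hk (by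
    rw [Pnt.val_α _ hk]
    show _ = 𝔉.F0.val _ _ ((y.pt k).1 + s • ofV 𝔉.F0.toPre (k + 1) o.P1 u)
    rw [val_add, val_smul, y.val_α hk, val_ofV hu (by omega)]; rfl)
    (congrArg _ (by simp [Pnt.pt, lα])) (by simp [Pnt.pt, lα])

/-- points which agree over `O` -/
theorem cr_on (hO : IsOpen O) {y y' : Pnt o r} (ht : y'.t = y.t) (hz : y'.z = y.z)
    (hφ : y'.φ = y.φ) (hα : ∀ x ∈ O, y'.α x = y.α x) (h0 : ∀ x ∉ O, y.cfg.Φ x = 0) :
    CR0 𝔉.B (𝔉.G y.t) 𝔉.B (𝔉.G y.t) O O id (fun x b a => 𝔉.B.P b a x) 𝔉.B.l y.cfg y'.cfg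
      o.m.p 1 := by
  have e := ceq_refl h.B (h.G _ y.ht) (y.ad0 h) hO
  have p : y'.cfg.Φ = y.cfg.Φ := congrArg (o.Φ0 + ·) hφ
  refine ⟨y.ad0 h, ht ▸ y'.ad0 h, h0, p ▸ h0, e.m, fun x hx a => ?_, p ▸ e.Φ, hz.trans e.z⟩
  have w : ∀ b, y'.cfg.W b x = y.cfg.W b x := fun b =>
    (W_apply _ _ b x).trans (Eq.trans (by rw [ht, hα x hx]) (W_apply _ _ b x).symm)
  exact (congrArg (fun T : En _ => _ + T ∘L _ - _)
    (Finset.sum_congr rfl fun b _ => congrArg _ (w b))).trans (e.W x hx a)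

/-- the values of related equations -/
theorem rep_on {τ : T → PtX M ι lam r n m} (hk : 4 ≤ k) {y y' : Pnt o r} {a a' : o.Y n m k}
    (ha : RepE τ y a) (ha' : RepE τ y' a') {x : M}
    (n1 : (τ y'.t).D y'.cfg x = o.m.p x ((τ y.t).D y.cfg x))
    (n2 : ∀ s, (τ y'.t).C y'.cfg x s = cj (o.m.p x) ((τ y.t).C y.cfg x s)) :
    𝔉.F0.val _ _ a'.1 x = 𝔉.F0.val _ _ a.1 x ∧ 𝔉.F0.val _ _ a'.2.1 x = 𝔉.F0.val _ _ a.2.1 x := by
  constructor
  · have p := ind_fix (val_proj h.sup hk a.1 x)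
    rw [ha'.D, ← p, ← p_pm o.ok, p, ha.D]
    by_cases z : x ∈ 𝔉.Om'
    · rw [indicator_of_mem z, indicator_of_mem z, n1]
    · rw [indicator_of_notMem z, indicator_of_notMem z]
      exact (map_zero (o.m.p x)).symm
  · have p := idx_mem (val_proj h.sup hk a.2.1 x)
    rw [ha.C] at p
    rw [ha'.C, ha.C]
    by_cases z : x ∈ 𝔉.Om
    · rw [indicator_of_mem z] at p
      rw [indicator_of_mem z, indicator_of_mem z]
      exact PiLp.ext fun s => (n2 s).trans (ME.cj_p (p s))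
    · rw [indicator_of_notMem z, indicator_of_notMem z]
      rfl

end Crest.Agent.X212.Ax1.Lf
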