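import Crest.Agent.X212.Pte3.Th

/-! # Row 212, NT-LOCF (helper1): parity in the spinor over a clopen set -/

set_option autoImplicit false
set_option linter.unusedSectionVars false
noncomputable section
open scoped Manifold ContDiff Topology
open Set Function Filter

namespace Crest.Agent.X212.Ax1.Lf
open An Mod61 Eqv71 Sob92

theorem even_der {X X' Y Y' : Type} [NormedAddCommGroup X] [NormedSpace ℝ X] [NormedAddCommGroup X']
    [NormedSpace ℝ X'] [NormedAddCommGroup Y] [NormedSpace ℝ Y] [NormedAddCommGroup Y']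
    [NormedSpace ℝ Y'] {f : X → Y} {g : X' → Y'} (L : Y' →L[ℝ] Y) {x v : X} {x' v' : X'}
    (hf : DifferentiableAt ℝ f x) (hg : DifferentiableAt ℝ g x') {y : ℝ → X} {y' : ℝ → X'}
    (hy : ∀ s, y s = x + s • v) (hy' : ∀ s, y' s = x' + s • v')
    (e : ∀ s, f (y (-s)) - L (g (y' (-s))) = f (y s) - L (g (y' s))) :
    fderiv ℝ f x v = L (fderiv ℝ g x' v') := by
  simp only [hy, hy'] at e
  have k : HasDerivAt (fun s : ℝ => f (x + s • v) - L (g (x' + s • v')))
      (fderiv ℝ f x v - L (fderiv ℝ g x' v')) 0 :=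
    (hf.hasFDerivAt.hasLineDerivAt v).sub
      (L.hasFDerivAt.comp_hasDerivAt (0 : ℝ) (hg.hasFDerivAt.hasLineDerivAt v'))
  have k' := (k.scomp_of_eq (0 : ℝ) (hasDerivAt_neg (0 : ℝ)) neg_zero.symm).unique
    (k.congr_of_eventuallyEq (.of_forall e))
  have := IsAddTorsionFree.of_isTorsionFree ℝ Y
  rwa [neg_one_smul, neg_eq_self, sub_eq_zero] at k'

section gen
variable {E : Type} [NormedAddCommGroup E] [NormedSpace ℝ E] [FiniteDimensional ℝ E]
  [MeasurableSpace E] [BorelSpace E]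
  {HM : Type} [TopologicalSpace HM] {I : ModelWithCorners ℝ E HM} [I.Boundaryless]
  {M : Type} [TopologicalSpace M] [ChartedSpace HM M] [IsManifold I ∞ M]
  [MeasurableSpace M] [T2Space M] [BorelSpace M] [SecondCountableTopology M]
  {ι lam : Type} [Fintype ι] [Fintype lam] {T : Type} [NormedAddCommGroup T] [NormedSpace ℝ T]
  {𝔉 : Mod61.Fam I M ι lam T} {r n m k : ℕ} {o : Ref 𝔉} {Ω : Set M}

open Classical in
/-- `-1` on `Ω`, `1` off `Ω` -/
def sn (Ω : Set M) (x : M) : ℝ := if x ∈ Ω then -1 else 1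

theorem sn_sq (x : M) : sn Ω x * sn Ω x = 1 := by unfold sn; split_ifs <;> norm_num

theorem sn_ev (hΩ : IsClopen Ω) (x : M) : sn Ω =ᶠ[𝓝 x] fun _ => sn Ω x := by
  by_cases hx : x ∈ Ω
  · filter_upwards [hΩ.2.mem_nhds hx] with y hy
    simp only [sn, if_pos hx, if_pos hy]
  · filter_upwards [hΩ.1.isOpen_compl.mem_nhds hx] with y hy
    simp only [sn, if_neg hx, if_neg hy]

/-- the sign gauge -/
theorem ceq_sn {B : Base M ι lam} {G : Geo I M ι lam} (hB : B.OK I) (hG : G.OK B)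
    {c : Cfg M ι lam r} (a : Ad0 c B G) (hΩ : IsClopen Ω) {Φ : M → c.m.V}
    (e' : ∀ x, Φ x = sn Ω x • c.Φ x) (O : Set M) :
    Mod61.EqOn B G.F O c ⟨c.m, c.W, Φ, c.z⟩ (fun x => sn Ω x • c.m.p x) 1 := by
  have e := ceq_refl hB hG a isOpen_univ
  have v : ∀ x, (fun x => sn Ω x • c.m.p x) =ᶠ[𝓝 x] sn Ω x • c.m.p := fun x =>
    (sn_ev hΩ x).mono fun y hy => congrArg (· • c.m.p y) hy
  refine ⟨⟨fun x _ => (((contMDiffAt_const (I' := 𝓘(ℝ, ℝ))).smul (a.ok.sp x)).congr_of_eventuallyEq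
    (v x)).contMDiffWithinAt, fun x _ => ?_, fun x _ => ?_, fun x _ => ?_,
    fun x _ b => ?_, fun x _ s => ?_⟩, fun x _ b => ?_, fun x _ => ?_, by simp⟩
  · simp only [trn, map_smulₛₗ, conj_trivial, ContinuousLinearMap.smul_comp,
      ContinuousLinearMap.comp_smul, smul_smul, sn_sq, one_smul]
    exact e.m.uu x trivial
  · simp only [trn, map_smulₛₗ, conj_trivial, ContinuousLinearMap.smul_comp,
      ContinuousLinearMap.comp_smul, smul_smul, sn_sq, one_smul]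
    exact e.m.uu' x trivial
  · rw [ContinuousLinearMap.smul_comp, ContinuousLinearMap.comp_smul, e.m.J x trivial]
  · rw [ContinuousLinearMap.smul_comp, ContinuousLinearMap.comp_smul, e.m.ρ x trivial]
  · rw [ContinuousLinearMap.smul_comp, ContinuousLinearMap.comp_smul, e.m.j x trivial]
  · rw [Pre.D_def, dv_congr (v x), dv_const_smul _ ((a.ok.sp x).mdifferentiableAt (by simp)),
      ContinuousLinearMap.smul_comp, ContinuousLinearMap.comp_smul, ← smul_add, ← smul_sub]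
    exact (congrArg _ (e.W x trivial b)).trans (smul_zero _)
  · rw [Circle.coe_one, cs_one]
    exact (e' x).trans (congrArg _ (p_Φ a x).symm)

theorem cj_sn {md : Md M ι lam} {x : M} {ξ : md.A} (hξ : ξ ∈ md.gS x) :
    cj (sn Ω x • md.p x) ξ = ξ := by
  refine Eq.trans ?_ (ME.cj_p hξ)
  simp only [cj_apply, trn, map_smulₛₗ, conj_trivial, ContinuousLinearMap.smul_comp,
    ContinuousLinearMap.comp_smul, smul_smul, sn_sq, one_smul]

theorem rh_sn {B : Base M ι lam} {md : Md M ι lam} (H : md.OK I B) (κ : Cut M lam) :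
    ∃ η, ∀ a, Cnt93.Rh κ κ B B (fun x => sn Ω x • md.p x) η a = a := by
  have : ∃ η : Circle, csE md.J η ∘L (sn Ω κ.x0 • md.p κ.x0) = md.p κ.x0 := by
    unfold sn
    split_ifs
    · exact ⟨-1, by simp [csE, ContinuousLinearMap.one_def]⟩
    · exact ⟨1, by simp [csE, ContinuousLinearMap.one_def]⟩
  refine this.imp fun η e a => ?_
  rw [Cnt93.Rh, e]
  exact (congrArg _ (Cnt93.mem_p H a)).trans
    (Submodule.orthogonalProjectionOnto_mem_subspace_eq_self a)

/-- the first row, extended by zero -/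
def iD (F : Pre I M ι) {V : Type} [NormedAddCommGroup V] [InnerProductSpace ℝ V] (k : ℕ)
    (P Q : M → CL V V) (X Y Z : Type) [NormedAddCommGroup X] [NormedSpace ℝ X]
    [NormedAddCommGroup Y] [NormedSpace ℝ Y] [NormedAddCommGroup Z] [NormedSpace ℝ Z] :
    F.H k P × X →L[ℝ] (F.H k Q × Y) × Z :=
  .inl ℝ _ _ ∘L .inl ℝ _ _ ∘L F.mulH k P Q (fun _ => .id ℝ V) ∘L .fst ℝ _ _

/-- the line in the direction of a spinor -/
def lφ (y : Pnt o r) {u : M → o.m.V} (hu : u ∈ Hs 𝔉.F0.toPre o.Pp) (s : ℝ) : Pnt o r :=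
  ⟨y.α, y.φ + s • u, y.z, y.t, y.hα, add_mem y.hφ (Submodule.smul_mem _ _ hu), y.ht⟩

variable (h : 𝔉.OK) (y : Pnt o r) {u : M → o.m.V} (hu : u ∈ Hs 𝔉.F0.toPre o.Pp)
include h

theorem lφ_pt (hk : 3 ≤ k) (s : ℝ) :
    (lφ y hu s).pt k = y.pt k + s • (0, ofV 𝔉.F0.toPre (k + 1) o.Pp u, 0) :=
  C_ext h hk (congrArg _ (by simp [Pnt.pt, lφ])) (by
    rw [Pnt.val_φ _ hk]
    show _ = 𝔉.F0.val _ _ ((y.pt k).2.1 + s • ofV 𝔉.F0.toPre (k + 1) o.Pp u)
    rw [val_add, val_smul, y.val_φ hk, val_ofV hu (by omega)]; rfl) (by simp [Pnt.pt, lφ])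

theorem lφ_eq (hΩ : IsClopen Ω) (h0 : ∀ x ∈ Ω, y.cfg.Φ x = 0) (h1 : ∀ x ∉ Ω, u x = 0) (s : ℝ) :
    (lφ y hu s).Eq (lφ y hu (-s)) (fun x => sn Ω x • o.m.p x) 1 :=
  ceq_sn h.B (h.G _ y.ht) ((lφ y hu s).ad0 h) hΩ (fun x => by
    show o.Φ0 x + (y.φ x + (-s) • u x) = sn Ω x • (o.Φ0 x + (y.φ x + s • u x))
    by_cases hx : x ∈ Ω
    · have : o.Φ0 x + y.φ x = 0 := h0 x hx
      simp [sn, hx, ← add_assoc, this]
    · simp [sn, hx, h1 x hx]) _

variable {y} in
/-- the equations are even off `Ω` -/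
theorem rep_sn {τ : T → PtX M ι lam r n m} (hτ : NatP o o (fun _ _ => True) τ) (hk : 4 ≤ k)
    {y' : Pnt o r} (ht : y'.t = y.t) (e : y.Eq y' (fun x => sn Ω x • o.m.p x) 1) {a a' : o.Y n m k}
    (ha : RepE τ y a) (ha' : RepE τ y' a') :
    (∀ x ∉ Ω, 𝔉.F0.val _ _ a'.1 x = 𝔉.F0.val _ _ a.1 x) ∧ a'.2 = a.2 := by
  obtain ⟨n1, n2, n3, n4⟩ := hτ y y' _ 1 ht trivial e
  refine ⟨fun x hx => ?_, Prod.ext (val_injective h.sup hk (funext fun x => ?_))
    (Prod.ext (ha'.S.trans ((funext fun i => by simpa using n3 i).trans ha.S.symm))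
      (ha'.R.trans (n4.trans ha.R.symm)))⟩
  · have p := ind_fix (val_proj h.sup hk a.1 x)
    rw [ha'.D, ← p, ← p_pm o.ok, p, ha.D]
    by_cases z : x ∈ 𝔉.Om'
    · rw [indicator_of_mem z, indicator_of_mem z, n1 x z, Circle.coe_one, cs_one, sn, if_neg hx,
        one_smul]
    · rw [indicator_of_notMem z, indicator_of_notMem z]
      exact (map_zero (o.m.p x)).symm
  · have p := idx_mem (val_proj h.sup hk a.2.1 x)
    rw [ha.C] at p
    rw [ha'.C, ha.C]
    by_cases z : x ∈ 𝔉.Om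
    · rw [indicator_of_mem z] at p
      rw [indicator_of_mem z, indicator_of_mem z]
      exact PiLp.ext fun s => (n2 x z s).trans (cj_sn (p s))
    · rw [indicator_of_notMem z, indicator_of_notMem z]
      rfl

end gen

end Crest.Agent.X212.Ax1.Lf
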