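import Crest.Agent.X212.Pb50.Pt
import Crest.Agent.X212.Map77.Tw
import Crest.Agent.X212.Hm83.Poi
import Crest.Agent.X212.Sep15.Hh

/-!
# Row 212, SW-AX (helper1): comparison of the frames, the Poincaré inequality
-/

set_option autoImplicit false
set_option linter.unusedSectionVars false
noncomputable section
open scoped Manifold ContDiff Topology InnerProductSpace NNReal ENNReal
open MeasureTheory Set Function Filter

namespace Crest.Agent.X212.Ax1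
open An Sw Sob92 Cyf70 Sw.En3 Pb50 Prm93
open M (Mf pm)
open Mod61 (Hs)

variable {κ lam ν : Type} [Fintype κ] [Fintype lam] [Fintype ν] [DecidableEq ν]
  {X : Mf 4} {nc : ℕ} {V : Type} [NormedAddCommGroup V] [InnerProductSpace ℝ V]

section nk
variable {e : En3 κ lam ν} {b : Bg X.I X.M κ lam ν nc} (K : Nk e b) (s : Bool) (T : ℝ)

theorem far_src : (univ : Set e.Y.M) ×ˢ K.far s T ⊆ K.ψ.source := fun _ hx => K.mem_src.2 hx.2.1

theorem aem_ψ : AEMeasurable K.ψ (e.D.Z.μ.restrict (univ ×ˢ K.far s T)) :=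
  (K.ψ.continuousOn.mono (far_src K s T)).aemeasurable (isOpen_far K T).measurableSet

theorem res_far : b.F.μ.restrict (K.ψ '' (univ ×ˢ K.far s T)) =
    (e.D.Z.μ.restrict (univ ×ˢ K.far s T)).map K.ψ := by
  have hs := far_src K s T
  have hO := (K.ψ.isOpen_image_of_subset_source (isOpen_far K T) hs).measurableSet
  rw [← inter_eq_left.2 (image_subset_iff.2 fun x hx => K.ψ.map_source (hs hx) :
      K.ψ '' _ ⊆ K.ψ.target), ← Measure.restrict_restrict hO, ← K.iso.μ,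
    Measure.restrict_map_of_aemeasurable
      (K.ψ.continuousOn.aemeasurable K.ψ.open_source.measurableSet) hO,
    Measure.restrict_restrict' K.ψ.open_source.measurableSet, K.ψ.injOn.preimage_image_inter hs]

theorem lint_far {g : X.M → ℝ} (hg : Continuous g) :
    ∫⁻ x in K.ψ '' (univ ×ˢ K.far s T), ENNReal.ofReal (g x) ∂b.F.μ =
      ∫⁻ t in K.far s T, ∫⁻ y, ENNReal.ofReal (g (K.ψ (y, t))) ∂e.D.F.μ := by
  have m : Measurable fun x => ENNReal.ofReal (g x) := hg.measurable.ennreal_ofReal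
  have a := m.comp_aemeasurable (aem_ψ K s T)
  rw [res_far, lintegral_map' m.aemeasurable (aem_ψ K s T)]
  have e1 : e.D.Z.μ.restrict (univ ×ˢ K.far s T) = e.D.F.μ.prod (volume.restrict (K.far s T)) := by
    rw [← Measure.restrict_univ (μ := e.D.F.μ), Measure.prod_restrict]; rfl
  rw [e1] at a ⊢
  exact lintegral_prod_symm _ a

/-- the inequality on one end -/
theorem poi_far [FiniteDimensional ℝ V] {B : V →L[ℝ] Eu ν →L[ℝ] Eu ν}
    (hB : ∀ v φ, ‖B v φ‖ = ‖v‖ * ‖φ‖) {φ : e.Y.M → Eu ν} (hφ : Sm e.Y.I φ) (h0 : ∃ y, φ y ≠ 0) :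
    ∃ c ≥ 0, ∀ (T : ℝ) (u : X.M → V) (g : X.M → ℝ), Sm X.I u → Continuous g →
      (∀ x ∈ univ ×ˢ K.far s T, ∑ a, ‖b.F.D a u (K.ψ x)‖ ^ 2 + ‖φ x.1‖ ^ 2 * ‖u (K.ψ x)‖ ^ 2 ≤
        g (K.ψ x)) → ∫⁻ x in K.ψ '' (univ ×ˢ K.far s T), ENNReal.ofReal (‖u x‖ ^ 2) ∂b.F.μ ≤
          ENNReal.ofReal c * ∫⁻ x, ENNReal.ofReal (g x) ∂b.F.μ := by
  obtain ⟨y₀, h0⟩ := h0
  obtain ⟨c, c0, h⟩ := Hm83.poi_gen e.D.F (fun _ => by rw [e.Y.dim]; norm_num)
    (A := fun _ _ => (0 : V →L[ℝ] V)) (fun _ => contMDiff_const) (fun _ _ v w => by simp)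
    (T := fun y => B.flip (φ y)) (B.flip.contMDiff.comp hφ) fun ξ hξ h1 h2 => funext fun y => by
      have h3 := hB (ξ y₀) (φ y₀)
      rw [show B (ξ y₀) (φ y₀) = 0 from h2 y₀, norm_zero, eq_comm, mul_eq_zero, norm_eq_zero,
        norm_eq_zero] at h3
      rw [Sep15.S.const_of_D e.D.F.toPre hξ (fun a x => (add_zero _).symm.trans (h1 a x)) y y₀]
      exact h3.resolve_right h0
  refine ⟨c, c0, fun T u g hu hg hl => le_trans ?_ (mul_le_mul_right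
    (setLIntegral_le_lintegral (K.ψ '' (univ ×ˢ K.far s T)) _) _)⟩
  rw [lint_far K s T (g := fun x => ‖u x‖ ^ 2) (hu.continuous.norm.pow 2), lint_far K s T hg,
    ← lintegral_const_mul' _ _ ENNReal.ofReal_ne_top]
  refine setLIntegral_mono' (Nd18.isOpen_Jv.inter (isOpen_lt continuous_const
    (by fun_prop))).measurableSet fun t ht => ?_
  have hs : ∀ y, (y, t) ∈ K.ψ.source := src K ht.1
  have s1 : Sm e.Y.I fun y => u (K.ψ (y, t)) := sm_sl fun y => sa_ψ K (hs y) (hu _)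
  have s2 : Continuous fun y => g (K.ψ (y, t)) :=
    hg.comp (K.ψ.continuousOn.comp_continuous (by fun_prop) hs)
  have h1 : ∀ y, ∑ a, ‖Wz78.nab e.Y.I e.D.F.e (fun _ _ => (0 : V →L[ℝ] V)) a
      (fun y => u (K.ψ (y, t))) y‖ ^ 2 + ‖B.flip (φ y) (u (K.ψ (y, t)))‖ ^ 2 ≤ g (K.ψ (y, t)) :=
    fun y => le_trans (add_le_add ?_ (by
      rw [ContinuousLinearMap.flip_apply, hB, mul_pow, mul_comm])) (hl (y, t) ⟨trivial, ht⟩)
  · rw [← ofReal_integral_eq_lintegral_ofReal (f := fun y => ‖u (K.ψ (y, t))‖ ^ 2)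
      (Hm83.int_c _ (s1.continuous.norm.pow 2))
      (.of_forall fun _ => sq_nonneg _), ← ofReal_integral_eq_lintegral_ofReal (Hm83.int_c _ s2)
      (.of_forall fun y => le_trans (by positivity) (h1 y)), ← ENNReal.ofReal_mul c0]
    exact ENNReal.ofReal_le_ofReal (h _ _ s1 s2 h1)
  · rw [Fintype.sum_option]
    refine le_add_of_nonneg_of_le (sq_nonneg _) (Finset.sum_le_sum fun a _ => le_of_eq ?_)
    rw [D_ψ K (hs y)]
    exact congrArg (‖·‖ ^ 2) ((add_zero _).trans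
      (D_some_at e.D.F.toPre (sa_ψ K (hs y) (hu _)).md a).symm)

end nk

section pz
variable {N : Type} [Fintype N] {e : N → En3 κ lam ν} (P : Pz X nc e)

/-- the far part of an end -/
def nd' (T : ℝ) (p : N × Bool) : Set X.M :=
  {z | ∃ K ∈ P.nk p.1, K.Inf p.2 ∧ z ∈ K.ψ '' (univ ×ˢ K.far p.2 T)}

theorem compl_core (T : ℝ) : (P.core T)ᶜ = ⋃ p, nd' P T p := by
  ext z
  simp only [Pz.core, nd', mem_compl_iff, mem_ofPred, not_forall, not_not, mem_iUnion, Prod.exists,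
    exists_prop]

variable {P}

theorem nd'_eq {T : ℝ} {p : N × Bool} {K : Nk (e p.1) P.bg} (hK : K ∈ P.nk p.1) (h : K.Inf p.2) :
    nd' P T p = K.ψ '' (univ ×ˢ K.far p.2 T) :=
  Subset.antisymm (fun _ ⟨_, k, _, hz⟩ => Option.mem_unique hK k ▸ hz) fun _ hz => ⟨K, hK, h, hz⟩

theorem nd'_empty {T : ℝ} {p : N × Bool} (h : ¬P.Inf p.1 p.2) : nd' P T p = ∅ :=
  eq_empty_of_forall_notMem fun _ ⟨K, k, k', _⟩ => h ⟨K, k, k'⟩

/-- small outside a compact set -/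
def Dec {W : Type} [NormedAddCommGroup W] (f : X.M → W) : Prop :=
  ∀ ε > 0, ∃ K, IsCompact K ∧ ∀ x ∉ K, ‖f x‖ ≤ ε

theorem dec_val {W ι : Type} [NormedAddCommGroup W] [InnerProductSpace ℝ W] [CompleteSpace W]
    [Fintype ι] {F : Pre X.I X.M ι} {S : ℝ} (hS : Sup F S) {p : X.M → W →L[ℝ] W} {k : ℕ}
    (hk : 4 ≤ k) (v : F.H k p) : Dec (F.val k p v) := fun ε hε => by
  obtain ⟨u, hu⟩ := (F.dense_toH k p).exists_dist_lt v (show 0 < ε / (√|S| + 1) by positivity)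
  refine ⟨_, u.2.2.1, fun x hx => ?_⟩
  have h := norm_val_le hS hk (v - F.toH k p u) x
  rw [val_sub, val_toH hS hk, Pi.sub_apply, image_eq_zero_of_notMem_tsupport hx, sub_zero] at h
  rw [dist_eq_norm, lt_div_iff₀ (by positivity)] at hu
  nlinarith [norm_nonneg (v - F.toH k p u), Real.sqrt_nonneg |S|]

variable (hP : P.OK) {β : BCs e} (hβ : P.Gd β)
include hP hβ

omit hP in
theorem cr : P.Cr β := fun i s h => (hβ i s h).crit

/-- the inequality on all ends, for the base spinor -/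
theorem poi_ends [FiniteDimensional ℝ V] {B : V →L[ℝ] Eu ν →L[ℝ] Eu ν}
    (hB : ∀ v φ, ‖B v φ‖ = ‖v‖ * ‖φ‖) : ∃ c ≥ 0, ∃ T, ∀ (u : X.M → V) (g : X.M → ℝ), Sm X.I u →
      Continuous g → (∀ x, ∑ a, ‖P.bg.F.D a u x‖ ^ 2 + ‖(P.base β).Φ x‖ ^ 2 * ‖u x‖ ^ 2 ≤ g x) →
      ∫⁻ x in (P.core T)ᶜ, ENNReal.ofReal (‖u x‖ ^ 2) ∂P.bg.F.μ ≤
        ENNReal.ofReal c * ∫⁻ x, ENNReal.ofReal (g x) ∂P.bg.F.μ := by
  have h1 : ∀ p : N × Bool, ∃ c ≥ 0, ∃ T₀, ∀ T ≥ T₀, ∀ (u : X.M → V) (g : X.M → ℝ), Sm X.I u →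
      Continuous g → (∀ x, ∑ a, ‖P.bg.F.D a u x‖ ^ 2 + ‖(P.base β).Φ x‖ ^ 2 * ‖u x‖ ^ 2 ≤ g x) →
      ∫⁻ x in nd' P T p, ENNReal.ofReal (‖u x‖ ^ 2) ∂P.bg.F.μ ≤
        ENNReal.ofReal c * ∫⁻ x, ENNReal.ofReal (g x) ∂P.bg.F.μ := fun p => by
    by_cases h : P.Inf p.1 p.2
    · obtain ⟨K, hK, hs⟩ := id h
      obtain ⟨c, c0, h2⟩ := poi_far K p.2 hB (sm_slice_fst (hβ _ _ h).crit.1.sΦ 0) (hβ _ _ h).irr
      obtain ⟨T₀, -, h3⟩ := nd_basis.eventually_iff.1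
        (base_ev hP (g := fun i s => (fz (β i s)).Φ) hK hs)
      refine ⟨c, c0, T₀, fun T hT u g hu hg hl => nd'_eq hK hs ▸ h2 T u g hu hg fun x hx => ?_⟩
      have h4 : (P.base β).Φ (K.ψ x) = (β p.1 p.2).Φ x.1 := h3 (hT.trans_lt hx.2.2)
      exact (h4 ▸ hl (K.ψ x) :)
    · exact ⟨0, le_rfl, 0, fun T _ u g _ _ _ => by simp [nd'_empty h]⟩
  choose c c0 T₀ h using h1
  obtain ⟨T, hT⟩ := Finite.exists_le T₀
  refine ⟨∑ p, c p, Finset.sum_nonneg fun p _ => c0 p, T, fun u g hu hg hl => ?_⟩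
  rw [compl_core, ENNReal.ofReal_sum_of_nonneg fun p _ => c0 p, Finset.sum_mul,
    ← tsum_fintype (L := .unconditional _)]
  exact (lintegral_iUnion_le _ _).trans (ENNReal.tsum_le_tsum fun p => h p T (hT p) u g hu hg hl)

/-- **the Poincaré inequality**, with an error `δ` that is small at infinity -/
theorem poi [FiniteDimensional ℝ V] {B : V →L[ℝ] Eu ν →L[ℝ] Eu ν}
    (hB : ∀ v φ, ‖B v φ‖ = ‖v‖ * ‖φ‖) {δ : X.M → ℝ} (h1 : Continuous δ) (h2 : Dec δ) :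
    ∃ c ≥ 0, ∃ χ : X.M → ℝ, Sm X.I χ ∧ HasCompactSupport χ ∧ ∀ (u : X.M → V) (g : X.M → ℝ),
      Sm X.I u → HasCompactSupport u → Continuous g → HasCompactSupport g → (∀ x, 0 ≤ g x) →
      (∀ x, ∑ a, ‖P.bg.F.D a u x‖ ^ 2 + ‖(P.base β).Φ x‖ ^ 2 * ‖u x‖ ^ 2 ≤ g x + δ x * ‖u x‖ ^ 2) →
      ∫ x, ‖u x‖ ^ 2 ∂P.bg.F.μ ≤ c * (∫ x, g x ∂P.bg.F.μ + ∫ x, ‖χ x • u x‖ ^ 2 ∂P.bg.F.μ) := by
  obtain ⟨c, c0, T, h⟩ := poi_ends hP hβ hB
  obtain ⟨K, hK, h3⟩ := h2 (1 / (2 * (c + 1))) (by positivity)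
  obtain ⟨D, hD⟩ := hK.exists_bound_of_continuousOn h1.continuousOn
  obtain ⟨χ, k1, k2, -, k3⟩ := hP.bg.tame.choose_spec.exh _ (hK.union (hP.cpt T))
  refine ⟨2 * (c + c * |D| + 1), by positivity, χ, k1.1, k2, fun u g hu cu hg cg g0 hl => ?_⟩
  have c1 : Continuous fun x => ‖u x‖ ^ 2 := hu.continuous.norm.pow 2
  have c2 : Continuous fun x => ‖χ x • u x‖ ^ 2 := (k1.1.continuous.smul hu.continuous).norm.pow 2
  have i1 : Integrable (fun x => ‖u x‖ ^ 2) P.bg.F.μ := int_sq (FL_of_hcs 0 hu cu)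
  have i2 : Integrable (fun x => ‖χ x • u x‖ ^ 2) P.bg.F.μ :=
    int_sq (FL_of_hcs 0 (k1.1.smul hu) (cu.mono fun x hx h0 => hx (by simp [h0])))
  have i3 := hg.integrable_of_hasCompactSupport (μ := P.bg.F.μ) cg
  set ε := 1 / (2 * (c + 1))
  have ε0 : 0 < ε := by positivity
  have i5 : Integrable (fun x => g x + ε * ‖u x‖ ^ 2) P.bg.F.μ := i3.add (i1.const_mul ε)
  have i4 : Integrable (fun x => g x + ε * ‖u x‖ ^ 2 + |D| * ‖χ x • u x‖ ^ 2) P.bg.F.μ :=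
    i5.add (i2.const_mul |D|)
  have h4 := h u (fun x => g x + ε * ‖u x‖ ^ 2 + |D| * ‖χ x • u x‖ ^ 2) hu (by fun_prop) fun x => by
    refine (hl x).trans ?_
    by_cases hx : x ∈ K
    · rw [k3 x (.inl hx), one_smul]
      nlinarith [sq_nonneg ‖u x‖, mul_le_mul_of_nonneg_right
        (((le_abs_self _).trans (hD x hx)).trans (le_abs_self D)) (sq_nonneg ‖u x‖)]
    · nlinarith [mul_le_mul_of_nonneg_right ((le_abs_self _).trans (h3 x hx)) (sq_nonneg ‖u x‖),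
        mul_nonneg (abs_nonneg D) (sq_nonneg ‖χ x • u x‖)]
  have p0 : ∀ x, 0 ≤ g x + ε * ‖u x‖ ^ 2 + |D| * ‖χ x • u x‖ ^ 2 := fun x => by
    have := g0 x; positivity
  rw [← ofReal_integral_eq_lintegral_ofReal i1.integrableOn (.of_forall fun _ => sq_nonneg _),
    ← ofReal_integral_eq_lintegral_ofReal i4 (.of_forall p0), ← ENNReal.ofReal_mul c0,
    ENNReal.ofReal_le_ofReal_iff (mul_nonneg c0 (integral_nonneg p0)),
    integral_add i5 (i2.const_mul _), integral_add i3 (i1.const_mul ε),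
    integral_const_mul, integral_const_mul] at h4
  have h5 : ∫ x in P.core T, ‖u x‖ ^ 2 ∂P.bg.F.μ ≤ ∫ x, ‖χ x • u x‖ ^ 2 ∂P.bg.F.μ :=
    (setIntegral_congr_fun (hP.cpt T).measurableSet fun x hx => by
      simp only [k3 x (.inr hx), one_smul]).trans_le
      (setIntegral_le_integral i2 (.of_forall fun _ => sq_nonneg _))
  have h6 := integral_add_compl (hP.cpt T).measurableSet i1
  have h7 : c * ε ≤ 1 / 2 := by
    rw [mul_one_div, div_le_div_iff₀ (by positivity) two_pos]; linarith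
  have a1 : 0 ≤ ∫ x, ‖u x‖ ^ 2 ∂P.bg.F.μ := integral_nonneg fun _ => sq_nonneg _
  have a2 : 0 ≤ ∫ x, ‖χ x • u x‖ ^ 2 ∂P.bg.F.μ := integral_nonneg fun _ => sq_nonneg _
  have a3 : 0 ≤ ∫ x, g x ∂P.bg.F.μ := integral_nonneg g0
  have a4 := mul_nonneg c0 (abs_nonneg D)
  nlinarith [mul_le_mul_of_nonneg_right h7 a1, mul_nonneg c0 a2, mul_nonneg a4 a3]

end pz

theorem meas_le {ι ι' : Type} [Fintype ι] [Fintype ι'] (F : Pre X.I X.M ι) (F' : Pre X.I X.M ι')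
    {K : Set X.M} (hK : IsCompact K) (e : F'.μ.restrict Kᶜ = F.μ.restrict Kᶜ) :
    ∃ c : ℝ≥0, F'.μ ≤ c • F.μ := by
  obtain ⟨c, hc⟩ := meas_le_compact F F' hK
  refine ⟨c + 1, ?_⟩
  rw [← Measure.restrict_add_restrict_compl (μ := F'.μ) hK.measurableSet, add_smul, one_smul, e]
  exact add_le_add hc Measure.restrict_le_self

variable {N : Type} [Fintype N] {d : Dt κ lam ν} {ty : N → d.𝓔}
  {T : Type} [NormedAddCommGroup T] [NormedSpace ℝ T] [FiniteDimensional ℝ T]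
  {s : Pz X 0 fun i => d.e (ty i)} {𝓕 : Fam s nc T} (h : 𝓕.OK) {t : T} (ht : t ∈ 𝓕.Q)
include h ht

theorem mix_inv : Mix (𝓕.P t).bg.F.toPre s.bg.F.toPre fun a b x => 𝓕.Si t x a b := fun a x => by
  simp only [h.mix t ht _ x, Finset.smul_sum, smul_smul]
  rw [Finset.sum_comm, ← s.bg.F.P_e a x]
  exact Finset.sum_congr rfl fun b _ => by rw [← Finset.sum_smul, h.SiS t ht, h.site.bg.G.P]

theorem res_eq : (𝓕.P t).bg.F.μ.restrict (s.core 0)ᶜ = s.bg.F.μ.restrict (s.core 0)ᶜ := by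
  rw [compl_core, Measure.restrict_iUnion_congr]
  intro p
  by_cases k : s.Inf p.1 p.2
  · obtain ⟨K, hK, hs⟩ := k
    obtain ⟨K', -, k'⟩ := h.en t ht _ K hK
    have := res_far K' p.2 0
    rw [ng_far k', ng_ψ k'] at this
    rw [nd'_eq hK hs, this, res_far]
  · rw [nd'_empty k, Measure.restrict_empty, Measure.restrict_empty]

/-- **the frames of the site and of the family are comparable** -/
theorem cmp : Cmp s.bg.F.toPre (𝓕.P t).bg.F.toPre :=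
  have h1 := fun a b => (h.sS a b).cb t ht
  ⟨⟨⟨_, h.mix t ht, h1⟩, meas_le _ _ (h.site.cpt 0) (res_eq h ht)⟩,
    ⟨_, mix_inv h ht, fun a b => (h.mix t ht).Cb h1 ((h.sSi a b).cb t ht)⟩,
    meas_le _ _ (h.site.cpt 0) (res_eq h ht).symm⟩

theorem tw : Map77.Tw s.bg.F (𝓕.P t).bg.F := ⟨h.site.bg.tame, (h.ok t ht).bg.tame, cmp h ht⟩

end Crest.Agent.X212.Ax1
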