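import Crest.Agent.X212.Ax1.Poi
import Crest.Agent.X212.Map77.S1
import Crest.Agent.X212.Nk89.Hdy

/-!
# Row 212, MS-SLC (helper1): `2 d* d + w |Φ|²` is bijective
-/

set_option autoImplicit false
set_option linter.unusedSectionVars false
noncomputable section
open scoped Manifold ContDiff Topology InnerProductSpace
open MeasureTheory Set Function Filter

namespace Crest.Agent.X212.Ax1
open An An.Pre Sw Sob92 Ell97 Prm93
open Map77 (P2 f2 s2 i1 i2 pr2 Alg Nc Tw LH)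
open M (Mf)

section gen
variable {X : Mf 4} {ι : Type} [Fintype ι] {W : Type} [NormedAddCommGroup W]
  [InnerProductSpace ℝ W] [FiniteDimensional ℝ W] (G : Fr X.I X.M ι) (φ : X.M → W)

/-- `ξ ↦ (d ξ, ξ φ)` -/
def dO : Op X.M ι ℝ (P2 (F1 ι ℝ) W) := Map77.pair (nabOp G fun _ _ => 0)
  ⟨triv _ _, triv _ _, fun _ _ => 0, fun x => ContinuousLinearMap.toSpanSingleton ℝ (φ x)⟩

variable {G φ} {u : X.M → ℝ}

theorem f2_dO (x : X.M) (b : ι) : f2 _ _ ((dO G φ).app G u x) b = G.D b u x := by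
  rw [Op.app, dO, Map77.op_pair, map_add, Map77.f2_i1, Map77.f2_i2, add_zero]
  exact (nabOp_app_apply G _ u x b).trans (add_zero _)

theorem s2_dO (x : X.M) : s2 _ _ ((dO G φ).app G u x) = u x • φ x := by
  rw [Op.app, dO, Map77.op_pair, map_add, Map77.s2_i1, Map77.s2_i2, zero_add]
  simp [Pre.op]

theorem sq_dO (x : X.M) :
    ‖(dO G φ).app G u x‖ ^ 2 = ∑ a, ‖G.D a u x‖ ^ 2 + ‖φ x‖ ^ 2 * ‖u x‖ ^ 2 := by
  rw [Hm83.sq2, s2_dO, PiLp.norm_sq_eq_of_L2, norm_smul, mul_pow, mul_comm]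
  simp only [f2_dO]

theorem σ_dO (a : ι) (x : X.M) (v : ℝ) (w : P2 (F1 ι ℝ) W) :
    ⟪(dO G φ).σ a x v, w⟫_ℝ = ⟪v, ∑ b, G.P a b x • f2 _ _ w b⟫_ℝ := by
  rw [Map77.inner2, inner_sum]
  simp only [dO, Map77.pair, Map77.f2_pr2, Map77.s2_pr2, nabOp, _root_.sum_apply,
    _root_.smul_apply, _root_.zero_apply, inner_zero_left, add_zero, sum_inner,
    real_inner_smul_left, real_inner_smul_right, inner_ij, pj_apply]

theorem tr_σ (a : ι) (x : X.M) (w : P2 (F1 ι ℝ) W) :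
    Op.tr ((dO G φ).σ a x) w = ∑ b, G.P a b x • f2 _ _ w b :=
  ext_inner_left ℝ fun v => by rw [inner_tr, σ_dO]

theorem tr_B (x : X.M) (w : P2 (F1 ι ℝ) W) : Op.tr ((dO G φ).B x) w = ⟪φ x, s2 _ _ w⟫_ℝ := by
  refine ext_inner_left ℝ fun v => ?_
  rw [inner_tr, Map77.inner2]
  simp [dO, Map77.pair, nabOp, real_inner_smul_left, mul_comm]

theorem cliffL_dO : (dO G φ).CliffL G := fun a b x v w => by
  have e : ∀ a b, ⟪(dO G φ).σ a x v, (dO G φ).σ b x w⟫_ℝ = G.P a b x * ⟪v, w⟫_ℝ := fun a b => by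
    rw [σ_dO, ← (Wz78.frPr G x).idem a b, ← real_inner_smul_right]
    simp only [dO, Map77.pair, Map77.f2_pr2, nabOp, _root_.sum_apply, _root_.smul_apply,
      ← map_smul, sum_ij, Finset.sum_smul, smul_smul, G.P_symm b]
  rw [e, e, G.P_symm b a]
  change _ = 2 * G.P a b x * ⟪v, w⟫_ℝ
  ring

theorem good_dO {C : ℕ → ℝ} (hG : G.Tame C) (hφ : G.Cb φ) :
    ∃ C', G.Tame C' ∧ (dO G φ).Good G C' := by
  obtain ⟨_, h⟩ := du_nab (A := fun _ _ => (0 : ℝ →L[ℝ] ℝ)) hG (fun _ => Cb_const _)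
    fun _ _ v w => by simp
  have t : ∀ {V : Type} [NormedAddCommGroup V] [InnerProductSpace ℝ V], Map77.Prj (triv X.M V) :=
    ⟨fun _ _ => rfl, fun _ _ _ => rfl⟩
  exact Map77.good_of hG (Cb_const _) (Map77.Cb_ps (Cb_const _) (Cb_const _))
    (fun a => Map77.Cb_pr2 ⟨_, h.g.σ a⟩ (Cb_const _)) (Map77.Cb_pr2 ⟨_, h.g.B⟩
      (Cb_clm (ContinuousLinearMap.smulRightL ℝ ℝ W (.id ℝ ℝ)) hφ))
    ((Alg.of_good h.g).pair ⟨t, t, fun _ _ _ => rfl, fun _ _ _ => rfl, fun _ _ => rfl,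
      fun _ _ => by simp⟩ rfl)

theorem adj_dO {C : ℕ → ℝ} (h : (dO G φ).Good G C) (hu : Sm X.I u) (x : X.M) :
    ((dO G φ).adj G).app G ((dO G φ).app G u) x =
      -∑ a, (G.D a (G.D a u) x + G.dv a x * G.D a u x) + ⟪φ x, u x • φ x⟫_ℝ := by
  have e1 : ∀ a y, Op.tr ((dO G φ).σ a y) ((dO G φ).app G u y) = G.D a u y := fun a y => by
    simp only [tr_σ, f2_dO, sum_P_D]
  have e2 := fun a => D_app G.toPre a (f := fun y => Op.tr ((dO G φ).σ a y))
    ((trL _ _).contMDiff.comp (h.σ a).1) (sm_app h hu) x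
  simp only [e1] at e2
  rw [← s2_dO (G := G), ← tr_B]
  simp only [e2, ← e1 _ x]
  generalize (dO G φ).app G u = w
  show ∑ a, (-Op.tr ((dO G φ).σ a x)) (G.D a w x) + (Op.tr ((dO G φ).B x) - ∑ a,
    (G.D a (fun y => Op.tr ((dO G φ).σ a y)) x + G.dv a x • Op.tr ((dO G φ).σ a x))) (w x) = _
  simp only [_root_.neg_apply, _root_.sub_apply, _root_.sum_apply, _root_.add_apply,
    _root_.smul_apply, smul_eq_mul, Finset.sum_add_distrib, Finset.sum_neg_distrib]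
  ring

theorem bij_dO [PreconnectedSpace X.M] {C : ℕ → ℝ} (hG : G.Tame C) (h : (dO G φ).Good G C)
    (h0 : ∃ x, φ x ≠ 0) {c : ℝ} (c0 : 0 ≤ c) {χ : X.M → ℝ} (h1 : Sm X.I χ) (h2 : HasCompactSupport χ)
    (hp : ∀ u : X.M → ℝ, Sm X.I u → HasCompactSupport u → ∫ x, ‖u x‖ ^ 2 ∂G.μ ≤
      c * (∫ x, ‖(dO G φ).app G u x‖ ^ 2 ∂G.μ + ∫ x, ‖χ x • u x‖ ^ 2 ∂G.μ)) (k : ℕ) :
    Bijective ((Hs G (dO G φ) k).comp ((dO G φ).H G (k + 1))) := by
  have hc : (dO G φ).CliffL G := cliffL_dO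
  have hS := Sup.of_tame hG
  obtain ⟨K, hK⟩ := gard hG h hc 0
  let Z := (smulH G.toPre 0 (dO G φ).p χ).comp (G.incl 1 0 _)
  have h3 : ∀ x, ‖G.incl 1 0 _ x‖ ≤ √c * (‖(dO G φ).H G 0 x‖ + ‖Z x‖) := fun x => by
    refine (G.dense_toH 1 _).induction_on x (isClosed_le (by fun_prop) (by fun_prop)) fun u => ?_
    obtain ⟨v, hv, e⟩ := rep_smulH (k := 0) (p := (dO G φ).p) (Cb_of_hcs (F := G.toPre) h1 h2) u
    rw [ContinuousLinearMap.comp_apply, incl_toH zero_le_one, e, H_toH h, Pre.norm_toH,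
      Pre.norm_toH, Pre.norm_toH, hv, LS_val]
    have a1 := nrm_nonneg (F := G.toPre) 0 ((dO G φ).app G u.1)
    have a2 := nrm_nonneg (F := G.toPre) 0 fun x => χ x • u.1 x
    refine nrm_le_of_sq (by positivity) ((hp u.1 u.2.1 u.2.2.1).trans ?_)
    rw [mul_pow, Real.sq_sqrt c0]
    refine mul_le_mul_of_nonneg_left ?_ c0
    change N2 G.toPre 0 _ + N2 G.toPre 0 (fun x => χ x • u.1 x) ≤ _
    rw [← nrm_sq, ← nrm_sq]
    nlinarith [mul_nonneg a1 a2]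
  have h4 : Fred93.Est ((dO G φ).H G 0) Z (|K| * (1 + √c)) := fun x => by
    have h5 := (hK x).trans (mul_le_mul_of_nonneg_right (le_abs_self K) (by positivity))
    rw [mul_assoc]
    refine h5.trans (mul_le_mul_of_nonneg_left ?_ (abs_nonneg _))
    linarith [h3 x, norm_nonneg (Z x)]
  obtain ⟨c', -, h5⟩ := h4.bound_of_inj (Cht98.rellich_smul h1 h2 zero_lt_one)
    ((injective_iff_map_eq_zero _).2 fun x hx => by
      obtain ⟨y, rfl, hy⟩ := reg_up hG h hc (Nat.zero_le 4) (w := 0) (hx.trans (map_zero _).symm)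
      have e : (dO G φ).app G (G.val 5 _ y) = 0 := by
        rw [← val_zero (F := G.toPre) (k := 4) (p := (dO G φ).q), ← hy]
        exact (val_opH hS le_rfl (fun a => ⟨_, h.σ a⟩) ⟨_, h.B⟩ h.qσ (Maps.of_left h.qB) y).symm
      have e1 : ∀ a x, G.D a (G.val 5 _ y) x = 0 := fun a x => by rw [← f2_dO (φ := φ), e]; rfl
      have s1 := Mod61.sm_of_ode (L := fun _ _ => 0) (val_DH hS le_rfl y).1 e1
        fun _ => contMDiff_const
      obtain ⟨x₀, h0⟩ := h0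
      have e2 : G.val 5 _ y x₀ • φ x₀ = 0 := by rw [← s2_dO (G := G), e]; rfl
      rw [show y = 0 from val_injective hS (by norm_num) (funext fun x => ?_), map_zero]
      rw [val_zero, Sep15.S.const_of_D G.toPre s1 e1 x x₀]
      exact (smul_eq_zero.1 e2).resolve_right h0)
  exact Nk89.LL_bij_of_low (hlf hG h hc) (C := c')
    (fun u => (norm_incl_le (Nat.zero_le _) u).trans (h5 u)) k

end gen

variable {κ lam ν : Type} [Fintype κ] [Fintype lam] [Fintype ν] [DecidableEq ν] {X : Mf 4}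

theorem dec_hi {W ι : Type} [NormedAddCommGroup W] [InnerProductSpace ℝ W] [CompleteSpace W]
    [Fintype ι] {F : Fr X.I X.M ι} {C : ℕ → ℝ} (hT : F.Tame C) {f : X.M → W}
    (h : Pb50.Hi F.toPre f) : Dec f := by
  obtain ⟨v, rfl⟩ := (Pb50.hs_iff (p := triv _ _) hT).2 ⟨h, fun _ => rfl⟩ 4 le_rfl
  exact dec_val (Sup.of_tame hT) le_rfl v

theorem Dec.sq {W : Type} [NormedAddCommGroup W] {f : X.M → W} (h : Dec f) :
    Dec fun x => 2 * ‖f x‖ ^ 2 := fun ε hε => (h √(ε / 2) (by positivity)).imp fun K hK =>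
  ⟨hK.1, fun x hx => by
    have := pow_le_pow_left₀ (norm_nonneg _) (hK.2 x hx) 2
    rw [Real.sq_sqrt (by positivity)] at this
    rw [Real.norm_of_nonneg (by positivity)]
    linarith⟩

theorem norm_J {nc : ℕ} {b : Bg X.I X.M κ lam ν nc} (hb : b.OK) (v : Eu ν) : ‖b.m.J v‖ = ‖v‖ := by
  simpa [cs] using Pb50.norm_cs hb.m.Jsq hb.m.Jsk Complex.norm_I v

variable (d : Dt κ lam ν) {N : Type} [Fintype N] (ty : N → d.𝓔) (X) (nc nr : ℕ)
  (T : Type) [NormedAddCommGroup T] [NormedSpace ℝ T] [FiniteDimensional ℝ T]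

/-- **MS-SLC** -/
theorem slcS : Map77.S.SlcS d ty X nc nr T := by
  rintro s σ hM k hk ⟨⟨t, c⟩, ht, hc⟩ ⟨x₀, h0⟩ A hA
  have h := hM.ok
  have hP := (h.ok t ht).toOK
  have hβ : (σ.P t).Gd σ.β := fun i b k => hM.OK.gd i b ((Pb50.inf_iff h ht i b).1 k)
  have w0 := h.w0
  have hS := Sup.of_tame h.site.bg.tame.choose_spec
  have := hP.con
  let G := (σ.P t).bg.F
  let φ : X.M → Eu ν := fun x => √(s.bg.w / 2) • s.bg.m.J (c.Φ x)
  have n1 : ∀ x, ‖φ x‖ ^ 2 = s.bg.w / 2 * ‖c.Φ x‖ ^ 2 := fun x => by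
    rw [norm_smul, norm_J h.site.bg, mul_pow, Real.norm_of_nonneg (Real.sqrt_nonneg _),
      Real.sq_sqrt (by positivity)]
  obtain ⟨C, hG, hD⟩ := good_dO hP.bg.tame.choose_spec (φ := φ)
    (Cb_clm (√(s.bg.w / 2) • s.bg.m.J) (Pb50.as_cb hP (cr hβ) hc).2)
  have h1 := ((Pb50.as_iff hP (cr hβ)).1 hc).2.2
  obtain ⟨a, a0, χ, k1, k2, k3⟩ := poi hP hβ (B := ContinuousLinearMap.lsmul ℝ ℝ)
    (fun v φ => norm_smul v φ) (continuous_const.mul (h1.1.continuous.norm.pow 2)) (dec_hi hG h1).sq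
  have hb := bij_dO hG hD ⟨x₀, fun e => h0 (by
      have := n1 x₀
      rw [e, norm_zero, zero_pow two_ne_zero, eq_comm, mul_eq_zero] at this
      simpa using this.resolve_left (by positivity))⟩
    (c := a * (1 + 4 / s.bg.w)) (by positivity) k1 k2 (fun u hu cu => by
      have r := LS hD ⟨u, hu, cu, fun _ => rfl⟩
      refine (k3 u (fun x => (1 + 4 / s.bg.w) * ‖(dO G φ).app G u x‖ ^ 2) hu cu
        (continuous_const.mul ((sm_app hD hu).continuous.norm.pow 2))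
        ((LS hD ⟨u, hu, cu, fun _ => rfl⟩).2.2.1.comp_left
          (g := fun v => (1 + 4 / s.bg.w) * ‖v‖ ^ 2) (by simp)) (fun x => by positivity)
        fun x => ?_).trans ?_
      · have e1 := norm_sub_le (c.Φ x) ((c.Φ - ((σ.P t).base σ.β).Φ) x)
        rw [Pi.sub_apply, sub_sub_cancel, ← Pi.sub_apply] at e1
        have e2 := pow_le_pow_left₀ (norm_nonneg _) e1 2
        have e3 : 4 / s.bg.w * (s.bg.w / 2) = 2 := by field_simp; norm_num
        have e4 : 0 ≤ ∑ a, ‖G.D a u x‖ ^ 2 := by positivity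
        have e5 : 0 ≤ 4 / s.bg.w := by positivity
        rw [sq_dO, n1]
        simp only [Pi.mul_apply, Pi.pow_apply]
        generalize (c.Φ - ((σ.P t).base σ.β).Φ) x = z at e2
        have e6 : ‖((σ.P t).base σ.β).Φ x‖ ^ 2 ≤ 2 * ‖c.Φ x‖ ^ 2 + 2 * ‖z‖ ^ 2 := by
          nlinarith [sq_nonneg (‖c.Φ x‖ - ‖z‖)]
        have e7 := mul_le_mul_of_nonneg_right e6 (sq_nonneg ‖u x‖)
        have e8 : 0 ≤ s.bg.w / 2 * ‖c.Φ x‖ ^ 2 * ‖u x‖ ^ 2 := by positivity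
        have e9 : 4 / s.bg.w * (s.bg.w / 2 * ‖c.Φ x‖ ^ 2 * ‖u x‖ ^ 2) =
          2 * ‖c.Φ x‖ ^ 2 * ‖u x‖ ^ 2 := by rw [← mul_assoc, ← mul_assoc, e3]
        nlinarith [mul_nonneg e5 e4]
      · rw [integral_const_mul, mul_assoc]
        refine mul_le_mul_of_nonneg_left ?_ a0
        have : 0 ≤ 4 / s.bg.w * ∫ x, ‖χ x • u x‖ ^ 2 ∂G.μ :=
          mul_nonneg (by positivity) (integral_nonneg fun _ => sq_nonneg _)
        linarith) k
  have tw := tw h ht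
  have nc : Nc s.bg.F.toPre G.P (dO G φ) := ⟨tw.cmp.Cb_iff.2 ⟨_, hD.p.cb⟩,
    tw.cmp.Cb_iff.2 ⟨_, hD.q.cb⟩, fun a => tw.cmp.Cb_iff.2 ⟨_, hD.σ a⟩, tw.cmp.Cb_iff.2 ⟨_, hD.B⟩,
    .of_good hD⟩
  have e : A = (2 : ℝ) • (LH s.bg.F.toPre G.toPre k _ _ ((dO G φ).adj G) ∘L
      LH s.bg.F.toPre G.toPre (k + 1) _ _ (dO G φ)) := clm_ext fun u =>
    val_injective hS (by omega) (funext fun x => by
      have e1 := tw.val (tw.nc_adj nc) (k := k) (by omega)
        (LH s.bg.F.toPre G.toPre (k + 1) _ _ (dO G φ) (s.bg.F.toH _ _ u))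
      have e2 := tw.val nc (k := k + 1) (by omega) (s.bg.F.toH _ _ u)
      rw [val_toH hS (by omega)] at e2
      have e3 := (congrFun (e1.trans (congrArg _ e2)) x).trans (adj_dO hD u.2.1 x)
      have e4 : ∀ a y, ∑ b, σ.S t y a b * -s.bg.F.D b u.1 y = -G.D a u.1 y := fun a y => by
        simp only [G, (h.mix t ht).D a, smul_eq_mul, mul_neg, Finset.sum_neg_distrib]
      have e5 : ∀ a, G.D a (fun y => -G.D a u.1 y) x = -G.D a (G.D a u.1) x := fun a =>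
        dv_clm (-ContinuousLinearMap.id ℝ ℝ) (md (G.sm_D u.2.1 a) x)
      rw [hA, val_toH hS (by omega), _root_.smul_apply, val_smul, Pi.smul_apply]
      refine .trans ?_ (congrArg ((2 : ℝ) • ·) e3).symm
      simp only [Fam.gro, e4, φ, real_inner_smul_left, real_inner_smul_right, smul_eq_mul]
      change 2 * ∑ a, (G.D a (fun y => -G.D a u.1 y) x + G.dv a x * _) + _ = _
      simp only [e5, mul_neg, ← neg_add, Finset.sum_neg_distrib]
      linear_combination (-2 * u.1 x * ⟪s.bg.m.J (c.Φ x), s.bg.m.J (c.Φ x)⟫_ℝ) *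
        Real.mul_self_sqrt (show 0 ≤ s.bg.w / 2 by positivity))
  rw [e.trans (congrArg ((2 : ℝ) • ·) (tw.LL nc k))]
  exact (MulAction.bijective (Units.mk0 (2 : ℝ) two_ne_zero)).comp
    ((chg k _ tw.cmp).symm.bijective.comp (hb.comp (chg (k + 2) _ tw.cmp).bijective))

end Crest.Agent.X212.Ax1
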