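import Crest.Agent.X212.Ax1.GrpT
import Crest.Agent.X212.Ax1.Slc
import Crest.Agent.X212.Grp76.Act

/-!
# Row 212, SW-AX (helper1): gauge group, slices, regularity
-/

set_option autoImplicit false
set_option linter.unusedSectionVars false
noncomputable section
open scoped Manifold ContDiff Topology InnerProductSpace
open MeasureTheory Set Function Filter

namespace Crest.Agent.X212.Ax1
open An An.Pre Sw Sob92 Map77.S Pb50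
open M (Mf)
open Grs81 (RC sup iR iR_apply)

variable {κ lam ν : Type} [Fintype κ] [Fintype lam] [Fintype ν] [DecidableEq ν] {X : Mf 4}
  {nc nr : ℕ} {N : Type} [Fintype N] {d : Dt κ lam ν} {ty : N → d.𝓔}
  {T : Type} [NormedAddCommGroup T] [NormedSpace ℝ T] [FiniteDimensional ℝ T]
  {s : Pz X 0 fun i => d.e (ty i)} {σ : Cel s nc nr T} {k : ℕ}

theorem eqv_eqv (h : σ.toFam.OK) : Equivalence σ.Eqv where
  refl y := ⟨rfl, (eqv_equiv (h.ok _ y.2.1).toOK).refl _⟩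
  symm := by
    rintro ⟨⟨t, c⟩, ht, _⟩ ⟨⟨t', c'⟩, _⟩ ⟨e1, e2⟩
    obtain rfl : t = t' := e1
    exact ⟨rfl, (eqv_equiv (h.ok _ ht).toOK).symm e2⟩
  trans := by
    rintro ⟨⟨t, c⟩, ht, _⟩ ⟨⟨t', c'⟩, _⟩ y ⟨e1, e2⟩ ⟨e3, e4⟩
    obtain rfl : t = t' := e1
    exact ⟨e3, (eqv_equiv (h.ok _ ht).toOK).trans e2 e4⟩

theorem ir_eqv (h : σ.toFam.OK) {y y' : σ.Pnt} (e : σ.Eqv y y') (hy : Ir σ y) : Ir σ y' := by
  obtain ⟨-, u, hu, e⟩ := e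
  refine hy.imp fun x hx => norm_ne_zero_iff.1 ?_
  rw [e, norm_act (h.ok _ y.2.1).bg (hu.1.2 x)]
  exact norm_ne_zero_iff.2 hx

theorem ir_ev (h : Hy σ) (hk : 3 ≤ k) {y : σ.Pnt} (hy : Ir σ y) :
    ∀ᶠ v in 𝓝 (σ.pt k y), ∀ y', σ.pt k y' = v → Ir σ y' := by
  obtain ⟨x, hx⟩ := hy
  have c : Continuous fun v : σ.C k => s.bg.F.val _ _ v.2.1 x + (s.base σ.β).Φ x := by fun_prop
  have e : ∀ y : σ.Pnt, s.bg.F.val _ _ (σ.pt k y).2.1 x + (s.base σ.β).Φ x = y.1.2.Φ x := fun y => by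
    rw [val_Φ h.ok h.cr hk, Pi.sub_apply, sub_add_cancel]
  refine (c.continuousAt.eventually_ne ((e y).trans_ne hx)).mono ?_
  rintro _ hv y' rfl
  exact ⟨x, e y' ▸ hv⟩

variable {Γ : Ga σ k}

theorem eqv_of (h : σ.toFam.OK) (hΓ : Γ.Sm) {g : Γ.D.Gr} (hg : s.Al (Γ.u g)) (y : σ.Pnt) :
    ∃ y', σ.pt k y' = g • σ.pt k y ∧ σ.Eqv y y' :=
  let ⟨y', f1, f2, f3⟩ := hΓ.act g hg y
  ⟨y', f3, f1.symm, _, (al_fam h y.2.1 _).2 hg, f2⟩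

theorem eqv_iff (h : Hy σ) (hk : 3 ≤ k) (hΓ : Γ.Sm) (y y' : σ.Pnt) :
    σ.Eqv y y' ↔ ∃ g : Γ.D.Gr, g • σ.pt k y = σ.pt k y' := by
  refine ⟨fun ⟨e1, u, hu, e2⟩ => ?_, fun ⟨g, e⟩ => ?_⟩
  · obtain ⟨g, rfl⟩ := hΓ.ex u ((al_fam h.ok y.2.1 u).1 hu)
    obtain ⟨y'', f1, f2, f3⟩ := hΓ.act g ((al_fam h.ok y.2.1 _).1 hu) y
    obtain rfl : y'' = y' := Subtype.ext (Prod.ext (f1.trans e1) (f2.trans e2.symm))
    exact ⟨g, f3.symm⟩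
  · obtain ⟨y'', f1, f2⟩ := eqv_of h.ok hΓ (hΓ.reg g y y' e) y
    exact pt_inj h.ok h.cr hk (f1.trans e) ▸ f2

theorem inv_fn (h : Hy σ) (hk : 7 ≤ k) (hΓ : Γ.Sm) (f : σ.C k → ℝ) (hf : ContinuousOn f (σ.U k))
    (e : ∀ y y', σ.Eqv y y' → f (σ.pt k y') = f (σ.pt k y)) (g : Γ.D.Gr) (v : σ.C k)
    (hv : v ∈ σ.U k) : f (g • v) = f v := by
  refine closure_minimal (t := {g : Γ.D.Gr | f (g • v) = f v}) (fun g hg => ?_) (isClosed_eq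
    (hf.comp_continuous (by fun_prop) fun g => smul_U Γ h.ok.site hk g hv) continuous_const)
    (hΓ.dense g)
  refine EqOn.of_subset_closure (s := range (σ.pt k)) (f := fun v => f (g • v)) ?_
    (hf.comp (continuous_const_smul g).continuousOn fun v => smul_U Γ h.ok.site hk g) hf ?_
    (dense_pt h.ok h.cr (by omega)) hv
  · rintro _ ⟨y, rfl⟩
    obtain ⟨y', f1, f2⟩ := eqv_of h.ok hΓ hg y
    exact (congrArg f f1.symm).trans (e y y' f2)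
  · rintro _ ⟨y, rfl⟩
    exact y.2.1

variable (Γ)

theorem val_d1 (hs : s.OK) (hk : 7 ≤ k) (v : σ.C k) (ξ : HR s (k + 2)) :
    s.bg.F.val _ _ (Γ.D.d v ξ).1 =
      fun x => WithLp.toLp 2 fun a => -s.bg.F.D a (s.bg.F.val _ _ ξ) x := by
  refine funext fun x => PiLp.ext fun a => ?_
  have e : Γ.D.pa (Γ.D.d v ξ) = -(Γ.D.T v v (Γ.D.j ξ)).1 := Γ.D.pa_d v ξ
  have e1 := Γ.pa (Γ.D.d v ξ) x a
  have e2 : s.bg.F.D a (s.bg.F.val _ _ (Γ.D.j ξ)) x = iR (s.bg.F.D a (s.bg.F.val _ _ ξ) x) := by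
    rw [funext fun x => (Γ.j ξ x).trans (iR_apply _).symm]
    exact dv_clm iR ((val_DH (k := k + 1) (sup hs.bg) (by omega) ξ).1 x)
  rw [e, val_neg, Pi.neg_apply, PiLp.neg_apply, Grs81.val_T1, sub_self, val_zero, e2, iR_apply] at e1
  simpa using congrArg Complex.im e1.symm

theorem val_d2 (h : Hy σ) (hk : 7 ≤ k) (y : σ.Pnt) (ξ : HR s (k + 2)) :
    s.bg.F.val _ _ (Γ.D.d (σ.pt k y) ξ).2.1 =
      fun x => s.bg.F.val _ _ ξ x • s.bg.m.J (y.1.2.Φ x) := by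
  have e : (Γ.D.d (σ.pt k y) ξ).2 = (Γ.D.T (σ.pt k y) (σ.pt k y) (Γ.D.j ξ)).2 :=
    (Γ.ps _).symm.trans (Γ.D.ps_d _ ξ)
  funext x
  rw [e, Grs81.val_T2, val_Φ h.ok h.cr (by omega), Pi.sub_apply, sub_add_cancel, Γ.j]
  simp [cs]

variable (d ty X nc nr T) in
/-- **SW-AX** -/
theorem axStmt (hD : MdStmt d ty X nc nr T) (hP : GrpP d ty X nc nr T) (hB : BootS d ty X nc nr T) :
    AxStmt d ty X nc nr T := by
  intro s σ h n hn k hk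
  have hM := hD s σ h
  have k3 : 3 ≤ k := by omega
  obtain ⟨Γ⟩ := Grs81.ga h.site hM.cr hk
  have hΓ := Grs81.gsm Γ hk hM.toHy
  have q := eqv_eqv h.toOK
  let Δ : σ.GD k := ⟨Γ.D.Gr, HR s (k + 2), HR s k, fun g _ => smul_U Γ h.site hk g,
    inv_fn hM.toHy hk hΓ⟩
  have e : ∀ x y : (σ.prob Δ n).X, (σ.prob Δ n).eqv x y ↔ σ.Eqv x.2 y.2 := fun x y =>
    (q.comap fun x : (σ.prob Δ n).X => x.2).eqvGen_iff
  have tw : ∀ (g : Γ.D.Gr), ∀ v ∈ σ.U k,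
      (σ.prob Δ n).Tw (o := ()) (o' := ()) (fun u : σ.C k => g • u) v := fun g v hv => by
    obtain ⟨A, hA⟩ := Γ.D.aff g.v
    obtain ⟨ρ, hρ⟩ := grpT _ _ _ _ _ _ s σ hM k hk Γ hΓ g
    have hs : Surjective A := fun w =>
      ⟨g⁻¹ • (w + g • (0 : σ.C k)), add_right_cancel ((hA _).symm.trans (smul_inv_smul g _))⟩
    exact ⟨A, ρ, (A.hasFDerivAt.add_const _).congr_of_eventuallyEq (.of_forall hA), hs,
      ((isOpen_U h.toOK).eventually_mem hv).mono hρ⟩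
  refine ⟨Δ, ⟨fun _ => isOpen_U h.toOK, fun _ g v => Δ.U g v, fun _ => (hM.rep k hk).1.1,
    fun _ w => ((hM.rep k hk).2.1 w).1, fun x _ => x.2.2.1,
    fun x y e' => ir_eqv h.toOK ((e x y).1 e'),
    fun _ => inferInstanceAs (ContinuousConstSMul Γ.D.Gr (σ.C k)), fun _ => tw,
    fun _ y y' _ _ => (e _ _).trans (eqv_iff hM.toHy k3 hΓ y y'), fun x x' _ e' => ?_,
    fun p x _ hx => ?_, fun _ => ?_⟩, q⟩
  · obtain ⟨g, hg⟩ := (eqv_iff hM.toHy k3 hΓ _ _).1 ((e x x').1 e')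
    exact ⟨fun u : σ.C k => g • u, hg, tw g _ x.2.2.1, fun y =>
      (eqv_of h.toOK hΓ (hΓ.reg g _ _ hg) y).imp fun y' hy => ⟨hy.1, (e _ _).2 hy.2⟩⟩
  · obtain ⟨γ, c1, c2, c3, c4⟩ := hB s σ hM k hk x.2
    obtain ⟨r, r1, r2⟩ := hn k hk p x.2
    obtain rfl : r = row σ k (σ.pt k x.2) := ContinuousLinearMap.ext fun v =>
      val_injective (sup h.site.bg) (by omega) ((r1 v).trans ((hM.row k hk).2 _ v).symm)
    obtain ⟨p1, p2⟩ := hP s σ hM k hk Γ x.2 hx.1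
    refine ⟨⟨Γ.D.e, Γ.D.d _, γ, _, Γ.D.e_zero, Γ.D.hasStrict_act _,
      c1.contDiffAt.hasStrictFDerivAt' c3 (by simp), c2,
      slcS _ _ _ _ _ _ s σ hM k hk x.2 hx.1 _ fun ξ => ?_,
      Γ.D.tame (p1 _) fun g hg y => by rw [p2 g hg, one_smul]⟩, c1, r2, ?_⟩
    · exact (r1 _).trans (congrArg₂ _ (val_d1 Γ h.site hk _ ξ) (val_d2 Γ hM.toHy hk x.2 ξ))
    · filter_upwards [c4, ir_ev hM.toHy k3 hx.1] with v h1 h2 h3 h4
      obtain ⟨y, hy⟩ := h1 p ((congrArg (jY σ k) h3).trans (map_zero _)) h4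
      exact ⟨y, hy, h2 y hy⟩
  · refine Grp76.closedOrb_sat (G := Γ.D.Gr) (Z := σ.pt k '' {y | Ir σ y}) ?_ ?_
    · rintro _ ⟨y, hy, rfl⟩ _ ⟨y', -, rfl⟩
      exact (hP s σ hM k hk Γ y hy).1 y'
    · rintro v ⟨g : Γ.D.Gr, hg⟩
      exact ⟨g⁻¹, _, hg, inv_smul_smul g v⟩

end Crest.Agent.X212.Ax1
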